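import Vale.Agent.P253W.C.Defs0

/-!
# P253W, block C: asymptotics, the formula of Green, means
-/

open scoped Topology ComplexConjugate Real
open Set Metric Filter MeasureTheory Bornology
open Vale.Agent.P272.GJ
open Vale.Agent.P253.R2.H66 (dz dzb)

noncomputable section

namespace Vale.Agent.P253W.C

/-! ### the exterior of a disc -/

theorem mem_ex {ρ : ℝ} {τ : ℂ} : τ ∈ ex ρ ↔ ρ < ‖τ‖ := Iff.rfl

theorem isOpen_ex (ρ : ℝ) : IsOpen (ex ρ) := isOpen_lt continuous_const continuous_norm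

theorem ex_mono {ρ ρ' : ℝ} (h : ρ ≤ ρ') : ex ρ' ⊆ ex ρ := fun _ hτ => h.trans_lt hτ

theorem ex_mem (ρ : ℝ) : ex ρ ∈ cobounded ℂ :=
  (tendsto_norm_cobounded_atTop (E := ℂ)).eventually (eventually_gt_atTop ρ)

/-- statements near infinity -/
theorem ev_iff {p : ℂ → Prop} : (∃ ρ : ℝ, ∀ τ ∈ ex ρ, p τ) ↔ ∀ᶠ τ in cobounded ℂ, p τ := by
  constructor
  · rintro ⟨ρ, h⟩
    exact Filter.mem_of_superset (ex_mem ρ) h
  · intro h
    obtain ⟨ρ, -, h2⟩ := Filter.hasBasis_cobounded_norm.eventually_iff.1 h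
    exact ⟨ρ, fun τ hτ => h2 (show ρ ≤ ‖τ‖ from le_of_lt hτ)⟩

/-- a statement near infinity holds on large discs -/
theorem ev_ball {p : ℂ → Prop} (h : ∀ᶠ τ in cobounded ℂ, p τ) :
    ∀ᶠ τ in cobounded ℂ, ∀ ζ ∈ closedBall τ (‖τ‖ / 2), p ζ := by
  obtain ⟨ρ, hρ⟩ := ev_iff.2 h
  filter_upwards [ex_mem (2 * ρ)] with τ hτ ζ hζ
  refine hρ ζ ?_
  have h1 := norm_sub_norm_le τ ζ
  rw [mem_closedBall, dist_comm, dist_eq_norm] at hζ
  rw [mem_ex] at hτ ⊢
  linarith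

theorem ev_ball1 {p : ℂ → Prop} (h : ∀ᶠ τ in cobounded ℂ, p τ) :
    ∀ᶠ τ in cobounded ℂ, ∀ ζ ∈ closedBall τ 1, p ζ := by
  filter_upwards [ev_ball h, ex_mem 2] with τ h1 h2 ζ hζ
  exact h1 ζ (closedBall_subset_closedBall (by rw [mem_ex] at h2; linarith) hζ)

theorem lg_eq (τ : ℂ) : lg τ = 2 * Real.log ‖τ‖ := by
  rw [lg, Real.log_pow]; norm_num

theorem lg_nonneg {τ : ℂ} (h : 1 ≤ ‖τ‖) : 0 ≤ lg τ := by
  rw [lg_eq]; exact mul_nonneg zero_le_two (Real.log_nonneg h)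

theorem tendsto_lg : Tendsto lg (cobounded ℂ) atTop := by
  have h : lg = fun τ => 2 * Real.log ‖τ‖ := funext lg_eq
  rw [h]
  exact (Real.tendsto_log_atTop.comp (tendsto_norm_cobounded_atTop (E := ℂ))).const_mul_atTop two_pos

/-- constants are negligible -/
theorem ev_const (A : ℝ) {η : ℝ} (hη : 0 < η) : ∀ᶠ τ in cobounded ℂ, A ≤ η * lg τ :=
  (tendsto_lg.const_mul_atTop hη).eventually (eventually_ge_atTop A)

theorem ev_lg : ∀ᶠ τ in cobounded ℂ, 0 ≤ lg τ := tendsto_lg.eventually (eventually_ge_atTop 0)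

theorem exp_lg {τ : ℂ} (h : τ ≠ 0) (k : ℝ) : Real.exp (k * lg τ) = ‖τ‖ ^ (2 * k) := by
  rw [lg_eq, Real.rpow_def_of_pos (norm_pos_iff.2 h)]
  congr 1; ring

theorem lg_near {τ ζ : ℂ} (h0 : τ ≠ 0) (h : ζ ∈ closedBall τ (‖τ‖ / 2)) : |lg ζ - lg τ| ≤ 2 := by
  have h1 : 0 < ‖τ‖ := norm_pos_iff.2 h0
  rw [mem_closedBall, dist_eq_norm] at h
  have h2 := norm_sub_norm_le ζ τ
  have h3 := norm_sub_norm_le τ ζ
  rw [norm_sub_rev] at h3
  have h4 : 0 < ‖ζ‖ := by linarith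
  have l2 : Real.log 2 ≤ 1 := by linarith [Real.log_le_sub_one_of_pos (two_pos (α := ℝ))]
  have h5 : Real.log ‖ζ‖ ≤ Real.log (2 * ‖τ‖) := Real.log_le_log h4 (by linarith)
  have h6 : Real.log ‖τ‖ ≤ Real.log (2 * ‖ζ‖) := Real.log_le_log h1 (by linarith)
  rw [Real.log_mul two_ne_zero h1.ne'] at h5
  rw [Real.log_mul two_ne_zero h4.ne'] at h6
  rw [lg_eq, lg_eq, abs_le]
  constructor <;> linarith

/-! ### the algebra of `Up` and `Lo` -/

variable {w v : ℂ → ℝ} {k l : ℝ}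

theorem up_iff : Up w k ↔ ∀ η : ℝ, 0 < η → ∀ᶠ τ in cobounded ℂ, w τ ≤ (k + η) * lg τ :=
  forall₂_congr fun _ _ => ev_iff

theorem lo_iff : Lo w k ↔ ∀ η : ℝ, 0 < η → ∀ᶠ τ in cobounded ℂ, ∀ s : ℝ, 0 < s → s ≤ 1 →
    (k - η) * lg τ + η * Real.log s ≤ Real.circleAverage w τ s :=
  forall₂_congr fun _ _ => ev_iff

theorem Up.ev (h : Up w k) {η : ℝ} (hη : 0 < η) :
    ∀ᶠ τ in cobounded ℂ, w τ ≤ (k + η) * lg τ := up_iff.1 h η hη

theorem Lo.ev (h : Lo w k) {η : ℝ} (hη : 0 < η) : ∀ᶠ τ in cobounded ℂ, ∀ s : ℝ, 0 < s → s ≤ 1 →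
    (k - η) * lg τ + η * Real.log s ≤ Real.circleAverage w τ s := lo_iff.1 h η hη

theorem Up.of_le (h : Up v k) (hl : ∀ᶠ τ in cobounded ℂ, w τ ≤ v τ) : Up w k :=
  up_iff.2 fun η hη => by
    filter_upwards [h.ev hη, hl] with τ h1 h2 using h2.trans h1

theorem Up.mono (h : Up w k) (hl : k ≤ l) : Up w l :=
  up_iff.2 fun η hη => by
    filter_upwards [h.ev hη, ev_lg] with τ h1 h2
    exact h1.trans (mul_le_mul_of_nonneg_right (by linarith) h2)

theorem Up.add (h : Up w k) (h' : Up v l) : Up (fun τ => w τ + v τ) (k + l) :=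
  up_iff.2 fun η hη => by
    filter_upwards [h.ev (half_pos hη), h'.ev (half_pos hη)] with τ h1 h2
    linarith

theorem Up.const_mul (h : Up w k) {c : ℝ} (hc : 0 ≤ c) : Up (fun τ => c * w τ) (c * k) :=
  up_iff.2 fun η hη => by
    filter_upwards [h.ev (show 0 < η / (c + 1) by positivity), ev_lg] with τ h1 h2
    have h3 : c * (η / (c + 1)) ≤ η := by
      rw [← mul_div_assoc, div_le_iff₀ (by positivity)]; nlinarith
    nlinarith [mul_le_mul_of_nonneg_left h1 hc, mul_le_mul_of_nonneg_right h3 h2]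

theorem up_const (A : ℝ) : Up (fun _ => A) 0 :=
  up_iff.2 fun η hη => by simpa using ev_const A hη

theorem up_lg (k : ℝ) : Up (fun τ => k * lg τ) k :=
  up_iff.2 fun η hη => by
    filter_upwards [ev_lg] with τ h
    nlinarith

theorem up_of_forall (h : ∀ η : ℝ, 0 < η → Up w (k + η)) : Up w k :=
  up_iff.2 fun η hη => by
    filter_upwards [(h _ (half_pos hη)).ev (half_pos hη)] with τ h1
    linarith

theorem Up.max (h : Up w k) (h' : Up v k) : Up (fun τ => max (w τ) (v τ)) k :=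
  up_iff.2 fun η hη => by
    filter_upwards [h.ev hη, h'.ev hη] with τ h1 h2 using max_le h1 h2

/-- the logarithm of a sum -/
theorem Up.log_add {a b : ℂ → ℝ} (h : Up (fun τ => Real.log (a τ)) k)
    (h' : Up (fun τ => Real.log (b τ)) k) (hp : ∀ᶠ τ in cobounded ℂ, 0 < a τ ∧ 0 < b τ) :
    Up (fun τ => Real.log (a τ + b τ)) k := by
  have h1 := (up_const (Real.log 2)).add (h.max h')
  rw [zero_add] at h1
  refine h1.of_le ?_
  filter_upwards [hp] with τ hτ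
  rcases le_total (a τ) (b τ) with h2 | h2
  · refine le_trans ?_ (add_le_add_right (le_max_right _ _) _)
    rw [← Real.log_mul two_ne_zero hτ.2.ne']
    exact Real.log_le_log (by linarith [hτ.1, hτ.2]) (by linarith)
  · refine le_trans ?_ (add_le_add_right (le_max_left _ _) _)
    rw [← Real.log_mul two_ne_zero hτ.1.ne']
    exact Real.log_le_log (by linarith [hτ.1, hτ.2]) (by linarith)

/-- an upper bound on large discs -/
theorem Up.ball (h : Up w k) {η : ℝ} (hη : 0 < η) :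
    ∀ᶠ τ in cobounded ℂ, ∀ ζ ∈ closedBall τ (‖τ‖ / 2), w ζ ≤ (k + η) * lg τ := by
  filter_upwards [ev_ball (h.ev (half_pos hη)), ev_const (2 * |k + η / 2|) (half_pos hη),
    ex_mem 0] with τ h1 h2 h3 ζ hζ
  have h4 := lg_near (norm_pos_iff.1 h3) hζ
  have h5 : (k + η / 2) * (lg ζ - lg τ) ≤ |k + η / 2| * 2 :=
    (le_abs_self _).trans (by rw [abs_mul]; exact mul_le_mul_of_nonneg_left h4 (abs_nonneg _))
  linarith [h1 ζ hζ]

theorem avg_le {c : ℂ} {s B : ℝ} (hs : 0 < s) (hw : ContinuousOn w (sphere c s))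
    (h : ∀ ζ ∈ sphere c s, w ζ ≤ B) : Real.circleAverage w c s ≤ B :=
  Real.circleAverage_mono_on_of_le_circle (hw.circleIntegrable hs.le) (by rwa [abs_of_pos hs])

theorem le_avg {c : ℂ} {s B : ℝ} (hs : 0 < s) (hw : ContinuousOn w (sphere c s))
    (h : ∀ ζ ∈ sphere c s, B ≤ w ζ) : B ≤ Real.circleAverage w c s := by
  rw [← Real.circleAverage_const B c s]
  exact Real.circleAverage_mono (circleIntegrable_const _ _ _) (hw.circleIntegrable hs.le)
    (by rwa [abs_of_pos hs])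

/-- some point of the circle is below the mean -/
theorem exists_le_avg {c : ℂ} {s : ℝ} (hs : 0 < s) (hw : ContinuousOn w (sphere c s)) :
    ∃ ζ ∈ sphere c s, w ζ ≤ Real.circleAverage w c s := by
  obtain ⟨ζ, hζ, h⟩ := (isCompact_sphere c s).exists_isMinOn
    (NormedSpace.sphere_nonempty.2 hs.le) hw
  exact ⟨ζ, hζ, le_avg hs hw fun x hx => h hx⟩

theorem avg_add {c : ℂ} {s : ℝ} (hs : 0 < s) (hw : ContinuousOn w (sphere c s))
    (hv : ContinuousOn v (sphere c s)) : Real.circleAverage (fun τ => w τ + v τ) c s =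
      Real.circleAverage w c s + Real.circleAverage v c s :=
  Real.circleAverage_fun_add (hw.circleIntegrable hs.le) (hv.circleIntegrable hs.le)

theorem avg_sub {c : ℂ} {s : ℝ} (hs : 0 < s) (hw : ContinuousOn w (sphere c s))
    (hv : ContinuousOn v (sphere c s)) : Real.circleAverage (fun τ => w τ - v τ) c s =
      Real.circleAverage w c s - Real.circleAverage v c s :=
  Real.circleAverage_fun_sub (hw.circleIntegrable hs.le) (hv.circleIntegrable hs.le)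

theorem avg_mul (a : ℝ) (c : ℂ) (s : ℝ) :
    Real.circleAverage (fun τ => a * w τ) c s = a * Real.circleAverage w c s :=
  Real.circleAverage_fun_smul (a := a) (f := w)

theorem avg_mono {c : ℂ} {s : ℝ} (hs : 0 < s) (hw : ContinuousOn w (sphere c s))
    (hv : ContinuousOn v (sphere c s)) (h : ∀ ζ ∈ sphere c s, w ζ ≤ v ζ) :
    Real.circleAverage w c s ≤ Real.circleAverage v c s :=
  Real.circleAverage_mono (hw.circleIntegrable hs.le) (hv.circleIntegrable hs.le)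
    (by rwa [abs_of_pos hs])

/-- small circles near infinity lie in the exterior of a disc -/
theorem ev_sub (ρ : ℝ) : ∀ᶠ τ in cobounded ℂ, closedBall τ 1 ⊆ ex ρ := ev_ball1 (ex_mem ρ)

theorem sph_sub {τ : ℂ} {s : ℝ} (h : s ≤ 1) : sphere τ s ⊆ closedBall τ 1 :=
  sphere_subset_closedBall.trans (closedBall_subset_closedBall h)

/-- an upper bound for the means -/
theorem Up.avg (h : Up w k) {ρ : ℝ} (hw : ContinuousOn w (ex ρ)) {η : ℝ} (hη : 0 < η) :
    ∀ᶠ τ in cobounded ℂ, ∀ s : ℝ, 0 < s → s ≤ 1 →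
      Real.circleAverage w τ s ≤ (k + η) * lg τ := by
  filter_upwards [h.ball hη, ev_sub ρ, ex_mem 2] with τ h1 h2 h3 s hs hs1
  refine avg_le hs (hw.mono ((sph_sub hs1).trans h2)) fun ζ hζ => h1 ζ ?_
  exact closedBall_subset_closedBall (by rw [mem_ex] at h3; linarith) (sph_sub hs1 hζ)

theorem Lo.le_up (h' : Lo w l) (h : Up w k) {ρ : ℝ} (hw : ContinuousOn w (ex ρ)) : l ≤ k := by
  refine le_of_forall_pos_le_add fun η hη => ?_
  obtain ⟨τ, h1, h2, h3⟩ := ((h'.ev (half_pos hη)).and ((h.avg hw (half_pos hη)).and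
    (tendsto_lg.eventually (eventually_gt_atTop 0)))).exists
  have h4 := (h1 1 one_pos le_rfl).trans (h2 1 one_pos le_rfl)
  rw [Real.log_one, mul_zero, add_zero] at h4
  linarith [le_of_mul_le_mul_right h4 h3]

theorem Lo.of_le (h : Lo w k) {ρ : ℝ} (hw : ContinuousOn w (ex ρ)) (hv : ContinuousOn v (ex ρ))
    (hl : ∀ τ ∈ ex ρ, w τ ≤ v τ) : Lo v k :=
  lo_iff.2 fun η hη => by
    filter_upwards [h.ev hη, ev_sub ρ] with τ h1 h2 s hs hs1
    have h3 := (sph_sub hs1).trans h2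
    exact (h1 s hs hs1).trans (avg_mono hs (hw.mono h3) (hv.mono h3) fun ζ hζ => hl ζ (h3 hζ))

theorem Lo.add (h : Lo w k) (h' : Lo v l) {ρ : ℝ} (hw : ContinuousOn w (ex ρ))
    (hv : ContinuousOn v (ex ρ)) : Lo (fun τ => w τ + v τ) (k + l) :=
  lo_iff.2 fun η hη => by
    filter_upwards [h.ev (half_pos hη), h'.ev (half_pos hη), ev_sub ρ] with τ h1 h2 h3 s hs hs1
    have h4 := (sph_sub hs1).trans h3
    rw [avg_add hs (hw.mono h4) (hv.mono h4)]
    linarith [h1 s hs hs1, h2 s hs hs1]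

theorem Lo.sub (h : Lo w k) (h' : Up v l) {ρ : ℝ} (hw : ContinuousOn w (ex ρ))
    (hv : ContinuousOn v (ex ρ)) : Lo (fun τ => w τ - v τ) (k - l) :=
  lo_iff.2 fun η hη => by
    filter_upwards [h.ev (half_pos hη), h'.avg hv (half_pos hη), ev_sub ρ]
      with τ h1 h2 h3 s hs hs1
    have h4 := (sph_sub hs1).trans h3
    rw [avg_sub hs (hw.mono h4) (hv.mono h4)]
    have h5 := mul_nonpos_of_nonneg_of_nonpos hη.le (Real.log_nonpos hs.le hs1)
    linarith [h1 s hs hs1, h2 s hs hs1]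

theorem PB.up {h : ℂ → ℂ} (hp : PB h) : ∃ C : ℝ, Up (fun τ => Real.log (‖h τ‖ ^ 2)) C := by
  obtain ⟨N, ρ, hN⟩ := hp
  refine ⟨N, (up_lg N).of_le ?_⟩
  filter_upwards [ex_mem ρ, ex_mem 1] with τ h1 h2
  have h3 : 1 ≤ ‖τ‖ := le_of_lt h2
  rcases (norm_nonneg (h τ)).eq_or_lt with h4 | h4
  · rw [← h4]; simpa using mul_nonneg (Nat.cast_nonneg N) (lg_nonneg h3)
  · rw [lg, ← Real.log_pow]
    refine Real.log_le_log (by positivity) ?_
    rw [← pow_mul, mul_comm, pow_mul]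
    exact pow_le_pow_left₀ h4.le (hN τ h1) 2

theorem pb_of_exp {h : ℂ → ℂ} {C : ℝ}
    (hp : ∀ᶠ τ in cobounded ℂ, ‖h τ‖ ^ 2 ≤ Real.exp (C * lg τ)) : PB h := by
  obtain ⟨ρ, hρ⟩ := ev_iff.2 (hp.and (ex_mem 1))
  refine ⟨⌈C⌉₊, ρ, fun τ hτ => ?_⟩
  obtain ⟨h1, h2⟩ := hρ τ hτ
  have h3 : 1 ≤ ‖τ‖ := le_of_lt h2
  refine le_of_sq_le_sq (h1.trans ?_) (by positivity)
  rw [← pow_mul, mul_comm ⌈C⌉₊, pow_mul, ← Real.exp_log (show 0 < ‖τ‖ ^ 2 by positivity),
    ← Real.exp_nat_mul]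
  exact Real.exp_le_exp.2 (mul_le_mul_of_nonneg_right (Nat.le_ceil C) (lg_nonneg h3))

end Vale.Agent.P253W.C
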