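import Vale.Agent.P253W.C.Basic

/-!
# P253W, block C: the formula of Green at any centre, polar coordinates, calculus of `ddb`
-/

open scoped Topology ComplexConjugate Real
open Set Metric Filter MeasureTheory Bornology
open Vale.Agent.P272.GJ
open Vale.Agent.P253.R2.H66 (dz dzb)

noncomputable section

namespace Vale.Agent.P253W.C

variable {φ ψ : ℂ → ℝ} {z c : ℂ} {r s : ℝ}

/-! ### calculus -/

theorem ddb_congr (h : φ =ᶠ[𝓝 z] ψ) : ddb φ z = ddb ψ z := by
  unfold ddb
  have h1 : ∀ v : ℂ, (fun w => fderiv ℝ φ w v) =ᶠ[𝓝 z] fun w => fderiv ℝ ψ w v := by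
    intro v
    filter_upwards [h.eventuallyEq_nhds] with w hw
    rw [hw.fderiv_eq]
  rw [(h1 1).fderiv_eq, (h1 Complex.I).fderiv_eq]

theorem ddb_add (h : ContDiffAt ℝ 2 φ z) (h' : ContDiffAt ℝ 2 ψ z) :
    ddb (fun w => φ w + ψ w) z = ddb φ z + ddb ψ z := by
  rw [ddb_eq (h.add h'), ddb_eq h, ddb_eq h']
  have h1 : (fderiv ℝ fun w => φ w + ψ w) =ᶠ[𝓝 z] fun w => fderiv ℝ φ w + fderiv ℝ ψ w := by
    filter_upwards [h.eventually (by simp), h'.eventually (by simp)] with w hw hw'
    exact fderiv_fun_add (hw.differentiableAt (by norm_num)) (hw'.differentiableAt (by norm_num))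
  have d1 : DifferentiableAt ℝ (fderiv ℝ φ) z :=
    (h.fderiv_right (m := 1) (by norm_num)).differentiableAt (by norm_num)
  have d2 : DifferentiableAt ℝ (fderiv ℝ ψ) z :=
    (h'.fderiv_right (m := 1) (by norm_num)).differentiableAt (by norm_num)
  rw [h1.fderiv_eq, fderiv_fun_add d1 d2]
  simp only [add_apply]
  ring

theorem ddb_mul (a : ℝ) (h : ContDiffAt ℝ 2 φ z) : ddb (fun w => a * φ w) z = a * ddb φ z := by
  rw [ddb_eq (contDiffAt_const.mul h), ddb_eq h]
  have h1 : (fderiv ℝ fun w => a * φ w) =ᶠ[𝓝 z] fun w => a • fderiv ℝ φ w := by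
    filter_upwards [h.eventually (by simp)] with w hw
    exact fderiv_const_mul (hw.differentiableAt (by norm_num)) a
  have d1 : DifferentiableAt ℝ (fderiv ℝ φ) z :=
    (h.fderiv_right (m := 1) (by norm_num)).differentiableAt (by norm_num)
  rw [h1.fderiv_eq, fderiv_fun_const_smul d1]
  simp only [smul_apply, smul_eq_mul]
  ring

theorem ddb_const (a : ℝ) (z : ℂ) : ddb (fun _ => a) z = 0 := by simp [ddb]

theorem ddb_neg (h : ContDiffAt ℝ 2 φ z) : ddb (fun w => -φ w) z = -ddb φ z := by
  simpa using ddb_mul (-1) h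

theorem ddb_sub (h : ContDiffAt ℝ 2 φ z) (h' : ContDiffAt ℝ 2 ψ z) :
    ddb (fun w => φ w - ψ w) z = ddb φ z - ddb ψ z := by
  simp only [sub_eq_add_neg]
  rw [ddb_add h h'.neg, ddb_neg h']

/-- `ddb` in terms of the Wirtinger derivatives -/
theorem ddb_eq_dz (h : ContDiffAt ℝ 2 φ z) :
    (ddb φ z : ℂ) = dz (dzb fun w => (φ w : ℂ)) z := by
  have h1 : dzb (fun w => (φ w : ℂ)) =ᶠ[𝓝 z] fun w =>
      (1 / 2 : ℂ) * ((fderiv ℝ φ w 1 : ℝ) + Complex.I * (fderiv ℝ φ w Complex.I : ℝ)) := by
    filter_upwards [h.eventually (by simp)] with w hw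
    have h2 := (Complex.ofRealCLM.hasFDerivAt.comp w
      (hw.differentiableAt (by norm_num)).hasFDerivAt).fderiv
    have h3 : fderiv ℝ (fun w => (φ w : ℂ)) w = _ := h2
    rw [dzb, h3]
    simp
  have d1 : HasFDerivAt (fderiv ℝ φ) (fderiv ℝ (fderiv ℝ φ) z) z :=
    ((h.fderiv_right (m := 1) (by norm_num)).differentiableAt (by norm_num)).hasFDerivAt
  have d2 : ∀ v : ℂ, HasFDerivAt (fun w => ((fderiv ℝ φ w v : ℝ) : ℂ))
      (Complex.ofRealCLM.comp ((ContinuousLinearMap.apply ℝ ℝ v).comp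
        (fderiv ℝ (fderiv ℝ φ) z))) z := fun v =>
    Complex.ofRealCLM.hasFDerivAt.comp z ((ContinuousLinearMap.apply ℝ ℝ v).hasFDerivAt.comp z d1)
  have d3 := (((d2 1).add ((d2 Complex.I).const_mul Complex.I)).const_mul (1 / 2 : ℂ)).fderiv
  rw [P253.R2.H66.dz_congr h1, dz]
  erw [d3]
  rw [ddb_eq h]
  have hs := symm_two h 1 Complex.I
  simp only [smul_apply, add_apply,
    ContinuousLinearMap.comp_apply, ContinuousLinearMap.apply_apply, Complex.ofRealCLM_apply,
    smul_eq_mul, hs]
  push_cast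
  linear_combination ((fderiv ℝ (fderiv ℝ φ) z Complex.I Complex.I : ℝ) / 4 : ℂ) * Complex.I_mul_I

theorem ddb_eq_re (h : ContDiffAt ℝ 2 φ z) :
    ddb φ z = (dz (dzb fun w => (φ w : ℂ)) z).re := by
  rw [← ddb_eq_dz h, Complex.ofReal_re]

theorem continuousOn_ddb {U : Set ℂ} (hU : IsOpen U) (h : ContDiffOn ℝ 2 φ U) :
    ContinuousOn (ddb φ) U := by
  have h2 : ContinuousOn (fderiv ℝ (fderiv ℝ φ)) U := fun z hz =>
    ((((h.contDiffAt (hU.mem_nhds hz)).fderiv_right (m := 1) (by norm_num)).fderiv_right (m := 0)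
      (by norm_num)).continuousAt).continuousWithinAt
  have h3 : ContinuousOn (fun z => (fderiv ℝ (fderiv ℝ φ) z 1 1 +
      fderiv ℝ (fderiv ℝ φ) z Complex.I Complex.I) / 4) U := by fun_prop
  exact h3.congr fun z hz => ddb_eq (h.contDiffAt (hU.mem_nhds hz))

theorem continuous_ddb (h : ContDiff ℝ 2 φ) : Continuous (ddb φ) :=
  continuousOn_univ.1 (continuousOn_ddb isOpen_univ h.contDiffOn)

theorem ddb_shift (φ : ℂ → ℝ) (c z : ℂ) : ddb (fun w => φ (w + c)) z = ddb φ (z + c) := by
  unfold ddb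
  simp only [fderiv_comp_add_right]
  have h : ∀ v : ℂ, fderiv ℝ (fun w => fderiv ℝ φ (w + c) v) z =
      fderiv ℝ (fun w => fderiv ℝ φ w v) (z + c) := fun v =>
    fderiv_comp_add_right (f := fun w => fderiv ℝ φ w v) c
  rw [h, h]

/-! ### the formula of Green -/

theorem setIntegral_shift (g : ℂ → ℝ) (c : ℂ) (r : ℝ) :
    ∫ z in ball (0 : ℂ) r, g (z + c) = ∫ z in ball c r, g z := by
  have h := (measurePreserving_add_right (volume : Measure ℂ) c).setIntegral_preimage_emb
    (measurableEmbedding_addRight c) g (ball c r)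
  rw [← h]
  congr 2
  ext z
  simp [mem_ball, dist_eq_norm]

/-- the formula of Green with centre `c` -/
theorem green (hr : 0 < r) (hφ : ∀ z ∈ closedBall c r, ContDiffAt ℝ 2 φ z) :
    ∫ z in ball c r, Gr r (z - c) * ddb φ z = Real.circleAverage φ c r - φ c := by
  have h := green_jensen (φ := fun w => φ (w + c)) hr fun z hz =>
    (hφ (z + c) (by simpa [mem_closedBall, dist_eq_norm] using hz)).comp z
      (contDiffAt_id.add contDiffAt_const)
  rw [Real.circleAverage_map_add_const, zero_add] at h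
  rw [← h, ← setIntegral_shift]
  simp only [ddb_shift, add_sub_cancel_right]

theorem integrableOn_Gr_shift (hr : 0 < r) {F : ℂ → ℝ} (hF : ContinuousOn F (closedBall c r)) :
    IntegrableOn (fun z => Gr r (z - c) * F z) (ball c r) := by
  have h := integrableOn_Gr_mul hr (F := fun z => F (z + c)) (hF.comp (by fun_prop)
    fun z hz => by simpa [mem_closedBall, dist_eq_norm] using hz)
  have h2 := ((measurePreserving_add_right (volume : Measure ℂ) c).integrableOn_comp_preimage
    (measurableEmbedding_addRight c) (f := fun z => Gr r (z - c) * F z) (s := ball c r)).1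
  refine h2 ?_
  have e : (fun x => x + c) ⁻¹' ball c r = ball (0 : ℂ) r := by
    ext z; simp [mem_ball, dist_eq_norm]
  rw [e]
  simpa [Function.comp_def] using h

theorem integral_Gr_shift (hr : 0 < r) (c : ℂ) : ∫ z in ball c r, Gr r (z - c) = r ^ 2 := by
  rw [← integral_Gr hr, ← setIntegral_shift (fun z => Gr r (z - c))]
  simp

theorem Gr_shift_nonneg (hz : z ∈ ball c r) : 0 ≤ Gr r (z - c) :=
  Gr_nonneg (by simpa [mem_ball, dist_eq_norm] using hz)

theorem contOn_ddb' (hφ : ∀ z ∈ closedBall c r, ContDiffAt ℝ 2 φ z) :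
    ContinuousOn (ddb φ) (closedBall c r) := fun z hz => by
  obtain ⟨U, hU, h⟩ := (hφ z hz).contDiffOn le_rfl (by simp)
  obtain ⟨V, h1, h2, h3⟩ := _root_.mem_nhds_iff.1 hU
  exact ((continuousOn_ddb h2 (h.mono h1)).continuousAt (h2.mem_nhds h3)).continuousWithinAt

/-- the mean is at most the value plus the bound of the Laplacian -/
theorem avg_le_of_ddb (hr : 0 < r) (hφ : ∀ z ∈ closedBall c r, ContDiffAt ℝ 2 φ z) {K : ℝ}
    (h : ∀ z ∈ ball c r, ddb φ z ≤ K) : Real.circleAverage φ c r ≤ φ c + K * r ^ 2 := by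
  have h1 := green hr hφ
  have h2 : ∫ z in ball c r, Gr r (z - c) * ddb φ z ≤ ∫ z in ball c r, Gr r (z - c) * K :=
    setIntegral_mono_on (integrableOn_Gr_shift hr (contOn_ddb' hφ))
      (integrableOn_Gr_shift hr continuousOn_const) measurableSet_ball
      fun z hz => mul_le_mul_of_nonneg_left (h z hz) (Gr_shift_nonneg hz)
  rw [integral_mul_const, integral_Gr_shift hr] at h2
  linarith

theorem submean (hr : 0 < r) (hφ : ∀ z ∈ closedBall c r, ContDiffAt ℝ 2 φ z)
    (h : ∀ z ∈ ball c r, 0 ≤ ddb φ z) : φ c ≤ Real.circleAverage φ c r := by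
  have h1 := green hr hφ
  have h2 : 0 ≤ ∫ z in ball c r, Gr r (z - c) * ddb φ z :=
    setIntegral_nonneg measurableSet_ball fun z hz => mul_nonneg (Gr_shift_nonneg hz) (h z hz)
  linarith

/-- at a local minimum -/
theorem ddb_nonneg_of_isLocalMin (h : ContDiffAt ℝ 2 φ z) (hm : IsLocalMin φ z) :
    0 ≤ ddb φ z := by
  refine le_of_not_gt fun h0 => ?_
  have hc : ContinuousAt (ddb φ) z := by
    obtain ⟨U, hU, h⟩ := h.contDiffOn le_rfl (by simp)
    obtain ⟨V, h1, h2, h3⟩ := _root_.mem_nhds_iff.1 hU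
    exact (continuousOn_ddb h2 (h.mono h1)).continuousAt (h2.mem_nhds h3)
  have h1 := (h.eventually (by simp)).and (hm.and (hc.eventually
    (gt_mem_nhds (show ddb φ z < ddb φ z / 2 by linarith))))
  obtain ⟨r, hr, h2⟩ := Metric.nhds_basis_closedBall.eventually_iff.1 h1
  have h3 := avg_le_of_ddb hr (fun w hw => (h2 hw).1)
    fun w hw => (h2 (ball_subset_closedBall hw)).2.2.le
  have h4 := le_avg (w := φ) hr (fun w hw =>
    (h2 (sphere_subset_closedBall hw)).1.continuousAt.continuousWithinAt)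
    fun w hw => (h2 (sphere_subset_closedBall hw)).2.1
  nlinarith [pow_pos hr 2]

/-- **G2**: the means at two radii -/
theorem two_radii (hs : 0 < s) (hsr : s ≤ r) (hφ : ∀ z ∈ closedBall c r, ContDiffAt ℝ 2 φ z)
    (h : ∀ z ∈ ball c r, 0 ≤ ddb φ z) :
    2 / π * Real.log (r / s) * ∫ z in ball c s, ddb φ z ≤
        Real.circleAverage φ c r - Real.circleAverage φ c s ∧
      Real.circleAverage φ c r - Real.circleAverage φ c s ≤
        2 / π * Real.log (r / s) * ∫ z in ball c r, ddb φ z := by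
  have hr := hs.trans_le hsr
  have sub := closedBall_subset_closedBall (x := c) hsr
  have sub' := ball_subset_ball (x := c) hsr
  have hc := contOn_ddb' hφ
  have i0 : IntegrableOn (ddb φ) (ball c r) :=
    (hc.integrableOn_compact (isCompact_closedBall _ _)).mono_set ball_subset_closedBall
  have i1 := integrableOn_Gr_shift hr hc
  have i2 := integrableOn_Gr_shift hs (hc.mono sub)
  have g1 := green hr hφ
  have g2 := green hs fun z hz => hφ z (sub hz)
  have e1 := setIntegral_sdiff measurableSet_ball i1 sub'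
  have e0 := setIntegral_sdiff measurableSet_ball i0 sub'
  have e2 : ∫ z in ball c s, Gr r (z - c) * ddb φ z = (∫ z in ball c s, Gr s (z - c) * ddb φ z) +
      2 / π * Real.log (r / s) * ∫ z in ball c s, ddb φ z := by
    rw [← integral_const_mul, ← integral_add i2 ((i0.mono_set sub').const_mul _)]
    refine integral_congr_ae ?_
    filter_upwards [ae_restrict_of_ae (compl_mem_ae_iff.2 (measure_singleton c))] with z hz
    have h0 : ‖z - c‖ ≠ 0 := norm_ne_zero_iff.2 (sub_ne_zero.2 hz)
    rw [Gr, Gr, Real.log_div hr.ne' h0, Real.log_div hs.ne' h0, Real.log_div hr.ne' hs.ne']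
    ring
  have hm : MeasurableSet (ball c r \ ball c s) := measurableSet_ball.diff measurableSet_ball
  have a1 : 0 ≤ ∫ z in ball c r \ ball c s, Gr r (z - c) * ddb φ z :=
    setIntegral_nonneg hm fun z hz => mul_nonneg (Gr_shift_nonneg hz.1) (h z hz.1)
  have a2 : ∫ z in ball c r \ ball c s, Gr r (z - c) * ddb φ z ≤
      ∫ z in ball c r \ ball c s, 2 / π * Real.log (r / s) * ddb φ z := by
    refine setIntegral_mono_on (i1.mono_set sdiff_subset) ((i0.mono_set sdiff_subset).const_mul _)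
      hm fun z hz => mul_le_mul_of_nonneg_right ?_ (h z hz.1)
    have h2 : s ≤ ‖z - c‖ := by simpa [mem_ball, dist_eq_norm] using hz.2
    have h3 := hs.trans_le h2
    exact mul_le_mul_of_nonneg_left (Real.log_le_log (by positivity) (by gcongr))
      (div_nonneg zero_le_two Real.pi_pos.le)
  rw [integral_const_mul, e0, mul_sub] at a2
  constructor <;> linarith

/-- the means increase -/
theorem avg_mono_radius (hs : 0 < s) (hsr : s ≤ r)
    (hφ : ∀ z ∈ closedBall c r, ContDiffAt ℝ 2 φ z) (h : ∀ z ∈ ball c r, 0 ≤ ddb φ z) :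
    Real.circleAverage φ c s ≤ Real.circleAverage φ c r := by
  have h1 := (two_radii hs hsr hφ h).1
  have h2 : 0 ≤ ∫ z in ball c s, ddb φ z :=
    setIntegral_nonneg measurableSet_ball fun z hz => h z (ball_subset_ball hsr hz)
  have h3 : 0 ≤ 2 / π * Real.log (r / s) :=
    mul_nonneg (div_nonneg zero_le_two Real.pi_pos.le) (Real.log_nonneg ((one_le_div hs).2 hsr))
  linarith [mul_nonneg h3 h2]

/-! ### polar coordinates -/

theorem continuousOn_avg (hφ : ContinuousOn φ (closedBall c r)) :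
    ContinuousOn (Real.circleAverage φ c) (Icc 0 r) :=
  Real.ContinuousOn.circleAverage (hφ.mono fun z hz => by
    simpa [mem_closedBall, dist_eq_norm] using hz.2) fun _ hs => hs.1

/-- **POL** -/
theorem polar (hr : 0 ≤ r) (hφ : ContinuousOn φ (closedBall c r)) :
    ∫ z in ball c r, φ z = ∫ s in (0 : ℝ)..r, 2 * π * s * Real.circleAverage φ c s := by
  have hψ : ContinuousOn (fun z => φ (z + c)) (closedBall 0 r) :=
    hφ.comp (by fun_prop) fun z hz => by simpa [mem_closedBall, dist_eq_norm] using hz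
  have i1 : IntegrableOn (fun p : ℝ × ℝ => p.1 • φ (pt p.1 p.2 + c)) (Ioo 0 r ×ˢ Ioo (-π) π)
      (volume.prod volume) := by
    rw [← Measure.volume_eq_prod]
    exact ((continuousOn_fst.smul (contOn_pt_prod hψ)).integrableOn_compact
      (isCompact_Icc.prod isCompact_Icc)).mono_set
      (prod_mono Ioo_subset_Icc_self Ioo_subset_Icc_self)
  have hpi : -π ≤ π := by linarith [Real.pi_pos]
  rw [← setIntegral_shift, setIntegral_ball_polar, Measure.volume_eq_prod, setIntegral_prod _ i1,
    intervalIntegral.integral_of_le hr, integral_Ioc_eq_integral_Ioo]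
  refine setIntegral_congr_fun measurableSet_Ioo fun s _ => ?_
  simp only [smul_eq_mul]
  rw [integral_const_mul, ← Real.circleAverage_map_add_const, circleAverage_eq_pi,
    intervalIntegral.integral_of_le hpi, integral_Ioc_eq_integral_Ioo, smul_eq_mul]
  have := Real.pi_pos
  field_simp

theorem le_disc {a : ℝ} (hr : 0 ≤ r) (hφ : ContinuousOn φ (closedBall c r))
    (h : ∀ s, 0 < s → s < r → a ≤ Real.circleAverage φ c s) :
    π * r ^ 2 * a ≤ ∫ z in ball c r, φ z := by
  have e : π * r ^ 2 * a = ∫ s in (0 : ℝ)..r, 2 * π * a * s := by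
    rw [intervalIntegral.integral_const_mul, integral_id]; ring
  rw [polar hr hφ, e]
  refine intervalIntegral.integral_mono_on_of_le_Ioo hr (by apply Continuous.intervalIntegrable; fun_prop)
    (ContinuousOn.intervalIntegrable_of_Icc hr
      ((by fun_prop : ContinuousOn (fun s : ℝ => 2 * π * s) _).mul (continuousOn_avg hφ)))
    fun s hs => ?_
  have := mul_le_mul_of_nonneg_left (h s hs.1 hs.2)
    (mul_nonneg (mul_nonneg zero_le_two Real.pi_pos.le) hs.1.le)
  linarith

theorem disc_le {a : ℝ} (hr : 0 ≤ r) (hφ : ContinuousOn φ (closedBall c r))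
    (h : ∀ s, 0 < s → s < r → Real.circleAverage φ c s ≤ a) :
    ∫ z in ball c r, φ z ≤ π * r ^ 2 * a := by
  have h1 := le_disc (φ := fun z => -φ z) (a := -a) hr hφ.neg fun s h1 h2 => by
    have e : Real.circleAverage (fun z => -φ z) c s = -Real.circleAverage φ c s := by
      simpa using avg_mul (w := φ) (-1) c s
    rw [e]; linarith [h s h1 h2]
  rw [integral_neg] at h1
  linarith

/-- the sub-mean value inequality on discs -/
theorem disc_submean (hr : 0 < r) (hφ : ∀ z ∈ closedBall c r, ContDiffAt ℝ 2 φ z)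
    (h : ∀ z ∈ ball c r, 0 ≤ ddb φ z) :
    π * r ^ 2 * φ c ≤ ∫ z in ball c r, φ z ∧
      ∫ z in ball c r, φ z ≤ π * r ^ 2 * Real.circleAverage φ c r := by
  have hc : ContinuousOn φ (closedBall c r) := fun z hz =>
    (hφ z hz).continuousAt.continuousWithinAt
  exact ⟨le_disc hr.le hc fun s h1 h2 => submean h1
      (fun z hz => hφ z (closedBall_subset_closedBall h2.le hz))
      fun z hz => h z (ball_subset_ball h2.le hz),
    disc_le hr.le hc fun s h1 h2 => avg_mono_radius h1 h2.le hφ h⟩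

end Vale.Agent.P253W.C
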