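import Vale.Agent.P253W.C.Defs
import Vale.Agent.P253W.V.Arf
import Vale.Agent.P253W.T.Dsc

/-!
# P253W, row C.CRV: entire curves and the flow
-/

open scoped Manifold ContDiff Bundle ENNReal Topology ComplexConjugate ComplexOrder Matrix
open Bundle IsManifold MeasureTheory Set Metric Filter Bornology Vale.Agent.P253.Mfd
  Vale.Agent.P253Z
open Vale.Agent.P272.K (Cm jacM Chart)
open Vale.Agent.P272.GJ (ddb)

set_option linter.unusedSectionVars false

noncomputable section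

namespace Vale.Agent.P253W.C

variable {n : ℕ} {M : Type} [MetricSpace M] [ChartedSpace (Cm n) M] [IsManifold 𝓘(ℂ, Cm n) 1 M]
  [IsManifold 𝓘(ℝ, Cm n) ∞ M] [RiemannianBundle fun x : M => TangentSpace 𝓘(ℝ, Cm n) x]
  [IsContMDiffRiemannianBundle 𝓘(ℝ, Cm n) ∞ (Cm n) fun x : M => TangentSpace 𝓘(ℝ, Cm n) x]
  [IsRiemannianManifold 𝓘(ℝ, Cm n) M] [CompleteSpace M] [ConnectedSpace M] [NoncompactSpace M]
  [MeasurableSpace M] [BorelSpace M] {μ : Measure M} {F : Flow n M} {A : Fam F} {T : F.TA μ}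

namespace Crv

open V.Arf

/-- the Levi form of a smooth function along a curve -/
theorem ddb_comp {a : M → ℝ} (ha : Sm n a) {f : ℂ → M} {U : Set ℂ} (hU : IsOpen U)
    (hf : H1 n f U) {τ : ℂ} (hτ : τ ∈ U) : ContDiffAt ℝ 2 (fun s => a (f s)) τ ∧
      ddb (fun s => a (f s)) τ = qf (hs a (pc n (f τ)) (pc n (f τ) (f τ))) (d1 n f τ) := by
  obtain ⟨h1, h2⟩ := levi hU hf (b1a.chart (f τ)) hτ (mem_chart_source _ _)
    ((ha _ (b1a.chart (f τ)) _ (mem_chart_target _ _)).of_le Bu.two_le)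
  refine ⟨h1, ?_⟩
  have h3 := h2 1
  rw [P253.R2.H451.levi2, smul_eq_mul, mul_one] at h3
  rw [P272.GJ.ddb_eq h1, h3, mul_div_cancel_left₀ _ four_ne_zero]
  rfl

theorem len (A : Fam F) {t : ℝ} {ν : Measure (Wm (A.G t))} (b : All0 n ν) (ht : 0 ≤ t)
    {f : ℂ → M} {U : Set ℂ}
    (hU : IsOpen U) (hf : H1 n f U) {c τ : ℂ} (h : segment ℝ τ c ⊆ U) {B : ℝ}
    (hB : ∀ s ∈ segment ℝ τ c, √(sp F t f s) * ‖c - τ‖ ≤ B) : A.d t (f τ) (f c) ≤ B := by
  have m : ∀ s ∈ Icc (0 : ℝ) 1, τ + s * (c - τ) ∈ segment ℝ τ c := fun s hs => by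
    rw [segment_eq_image']; exact ⟨s, hs, by simp⟩
  have e : ∀ s, T.dens (M := Wm (A.G t)) n f s = sp F t f s := fun s => by
    rw [sp, Flow.nv, Flow.gx, ← A.hm_eq t ht _ (b1a.chart (f s)) _ (mem_chart_target _ _)]
    exact (V.GeoA.qf_hm (M := Wm (A.G t)) (A.kahler t ht) (b.a.chart (f s))
      (mem_chart_target _ _) _).symm
  refine (T.Dsc.len (M := Wm (A.G t)) (A.kahler t ht) b.a b.b τ c hU hf h).trans
    ((Real.le_norm_self _).trans ((intervalIntegral.norm_integral_le_of_norm_le_const (C := B)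
      fun s hs => ?_).trans (by rw [sub_zero, abs_one, mul_one])))
  rw [uIoc_of_le zero_le_one] at hs
  rw [e, Real.norm_of_nonneg (by positivity)]
  exact hB _ (m s (Ioc_subset_Icc_self hs))

end Crv

theorem crv (p : P3 A T) : CRV F A.d where
  u t ht f hf := by
    have h := fun τ => Crv.ddb_comp (p.b1.sm_at _ p.b1.u_sm t ht) isOpen_univ hf (mem_univ τ)
    exact ⟨contDiff_iff_contDiffAt.2 fun τ => (h τ).1, fun τ => (h τ).2⟩
  rc t ht x v := by
    have hx := mem_chart_target (Cm n) x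
    refine ⟨V.Arf.nv_nonneg b1a p.is ht x v,
      V.Arf.qf_nonneg (p.s3a.ric_pos t ht _ (b1a.chart x) _ hx).posSemidef v, ?_⟩
    have h := V.Arf.qf_nonneg (p.s3a.ric_le t ht _ (b1a.chart x) _ hx) v
    rw [V.Arf.qf_sub, (chartAt (Cm n) x).left_inv (mem_chart_source _ x), qf, Matrix.smul_mulVec,
      dotProduct_smul, smul_eq_mul, Complex.re_ofReal_mul] at h
    exact sub_nonneg.1 h
  cont t ht f hf := continuousOn_univ.1 (V.Arf.nv_cont b1a p.b1 isOpen_univ hf ht)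
  len t ht f c δ hf h τ hτ := by
    refine Crv.len A (p.s3b.all t ht) ht isOpen_univ hf (subset_univ _) fun s hs => ?_
    have h0 : 0 ≤ δ := dist_nonneg.trans hτ
    have h1 := h s ((convex_closedBall c δ).segment_subset hτ (mem_closedBall_self h0) hs)
    have h2 : ‖c - τ‖ ≤ δ := by rwa [← dist_eq_norm, dist_comm]
    refine (mul_le_mul_of_nonneg_left h2 (Real.sqrt_nonneg _)).trans ?_
    rw [← Real.sqrt_sq h0, ← Real.sqrt_mul' _ (sq_nonneg δ)]
    exact Real.sqrt_le_one.2 h1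

end Vale.Agent.P253W.C
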