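import Vale.Agent.P253W.C.Defs

/-!
# P253W, row C.CURV: the curvature along a polynomial curve
-/

open scoped Manifold ContDiff Bundle ENNReal Topology ComplexConjugate ComplexOrder Matrix
open Bundle IsManifold MeasureTheory Set Metric Filter Bornology Vale.Agent.P253.Mfd
  Vale.Agent.P253Z
open Vale.Agent.P272.K (Cm jacM Chart)
open Vale.Agent.P272.GJ (ddb)

set_option linter.unusedSectionVars false

noncomputable section

namespace Vale.Agent.P253W.C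

variable {n : ℕ} {M : Type} [MetricSpace M] [ChartedSpace (Cm n) M] [IsManifold 𝓘(ℂ, Cm n) 1 M]
  [IsManifold 𝓘(ℝ, Cm n) ∞ M] [RiemannianBundle fun x : M => TangentSpace 𝓘(ℝ, Cm n) x]
  [IsContMDiffRiemannianBundle 𝓘(ℝ, Cm n) ∞ (Cm n) fun x : M => TangentSpace 𝓘(ℝ, Cm n) x]
  [IsRiemannianManifold 𝓘(ℝ, Cm n) M] [CompleteSpace M] [ConnectedSpace M] [NoncompactSpace M]
  [MeasurableSpace M] [BorelSpace M] {μ : Measure M} {F : Flow n M} {A : Fam F} {T : F.TA μ}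

namespace Curv

theorem gap (p : P3 A T) (x : M) : 4 * F.R 8 x ≤ F.u 16 x - F.u 8 x := by
  obtain ⟨c, hc, h⟩ := exists_hasDerivAt_eq_slope (fun s => F.u s x) (fun s => F.R s x)
    (show (8 : ℝ) < 16 by norm_num)
    (fun s hs => (p.b2.u_t s (by linarith [hs.1]) x).continuousAt.continuousWithinAt)
    fun s hs => p.b2.u_t s (by linarith [hs.1]) x
  have h1 : 8 * F.R 8 x ≤ c * F.R c x :=
    p.s3a.R_mono x (show (0 : ℝ) ≤ 8 by norm_num) (show (0 : ℝ) ≤ c by linarith [hc.1]) hc.1.le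
  have h2 := p.b2.R_nonneg c (by linarith [hc.1]) x
  have h3 : F.u 16 x - F.u 8 x = 8 * F.R c x := by rw [h]; ring
  nlinarith [hc.2]

theorem har (p : P3 A T) {s : ℝ} (h0 : 0 < s) (h8 : s < 8) : ∃ K : ℝ, 0 < K ∧ ∀ x y z,
    A.d s x z ≤ 1 → A.d s y z ≤ 1 → s * F.R s x ≤ K * (F.u 16 y - F.u 8 y) := by
  have h1 : 0 < s * Real.log (8 / s) := mul_pos h0 (Real.log_pos ((one_lt_div h0).2 h8))
  refine ⟨2 * Real.exp (4 / (s * Real.log (8 / s))), by positivity, fun x y z hx hy => ?_⟩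
  have h2 : A.d s x y ≤ A.d s x z + A.d s y z := dist_triangle_right (α := Wm (A.G s)) x y z
  have h3 : 0 ≤ A.d s x y := dist_nonneg (α := Wm (A.G s))
  have h4 : Real.exp (A.d s x y ^ 2 / (s * Real.log (8 / s))) ≤
      Real.exp (4 / (s * Real.log (8 / s))) :=
    Real.exp_le_exp.2 (div_le_div_of_nonneg_right (by nlinarith) h1.le)
  have h5 := p.b2.R_nonneg 8 (by norm_num) y
  have h6 := Real.exp_pos (4 / (s * Real.log (8 / s)))
  refine (p.s3b.har s 8 h0 h8 x y).trans ?_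
  nlinarith [gap p y, mul_le_mul_of_nonneg_left h4 h5]

variable {f : ℂ → M}

theorem sh (p : P3 A T) (hc : CRV F A.d) (hp : PCF T) (hs : SH0) (hf : T.PC f) {t : ℝ}
    (ht : 0 ≤ t) : Integrable (ddb fun τ => F.u t (f τ)) ∧
      Up (fun τ => F.u t (f τ)) (slp fun τ => F.u t (f τ)) ∧
      Lo (fun τ => F.u t (f τ)) (slp fun τ => F.u t (f τ)) := by
  obtain ⟨C, hC⟩ := hp.up f hf _ (p.ut t ht)
  obtain ⟨h1, h2⟩ := hc.u t ht f hf.hol
  obtain ⟨h3, h4, h5, -⟩ := hs _ C h1 (fun τ => (h2 τ).symm ▸ (hc.rc t ht _ _).2.1) hC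
  exact ⟨h3, h4, h5⟩

end Curv

theorem curv_of (p : P3 A T) (hc : CRV F A.d) (hp : PCF T) (hd : DET T) (hn : NU T) (hs : SH0)
    (hq : PP) : T.CURV A.d := by
  intro f hf
  have sh := fun t ht => Curv.sh p hc hp hs hf (t := t) ht
  have cu : ∀ t, 0 ≤ t → Continuous fun τ => F.u t (f τ) := fun t ht =>
    (hc.u t ht f hf.hol).1.continuous
  obtain ⟨hm, he⟩ := hn f hf
  obtain ⟨K, hK, hK1⟩ := Curv.har p one_pos (by norm_num)
  obtain ⟨K', hK', hK4⟩ := Curv.har p four_pos (by norm_num)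
  have v0 : ∀ x, 0 ≤ F.u 16 x - F.u 8 x := fun x => by
    linarith [Curv.gap p x, p.b2.R_nonneg 8 (by norm_num) x]
  have s0 : ∀ τ, 0 ≤ sp F 1 f τ := fun τ => (hc.rc 1 zero_le_one _ _).1
  obtain ⟨⟨N, ρ, h1⟩, h2, h3⟩ := hq (fun τ => F.u 1 (f τ)) (fun τ => F.u 16 (f τ) - F.u 8 (f τ))
    (sp F 1 f) (slp fun τ => F.u 1 (f τ)) K (hc.u 1 zero_le_one f hf.hol).1
    ((cu 16 (by norm_num)).sub (cu 8 (by norm_num))) (hc.cont 1 zero_le_one f hf.hol) s0
    (fun τ => v0 _) hK.le (sh 1 zero_le_one).2.2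
    (fun η hη => ev_iff.2 <| by
      filter_upwards [(sh 16 (by norm_num)).2.1.avg (ρ := 0) (cu 16 (by norm_num)).continuousOn
        (half_pos hη), (sh 8 (by norm_num)).2.2.ev (half_pos hη)] with c h1 h2 δ h0 hδ
      rw [avg_sub h0 (cu 16 (by norm_num)).continuousOn (cu 8 (by norm_num)).continuousOn]
      have h3 := mul_nonpos_of_nonneg_of_nonpos hη.le (Real.log_nonpos h0.le hδ)
      have h4 := h1 δ h0 hδ
      rw [he] at h4
      linarith [h2 δ h0 hδ])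
    (fun c δ _ h τ' hτ' τ hτ => by
      have h1 := hK1 (f τ) (f τ') (f c) (hc.len 1 zero_le_one f c δ hf.hol h τ hτ)
        (hc.len 1 zero_le_one f c δ hf.hol h τ' (sphere_subset_closedBall hτ'))
      rw [(hc.u 1 zero_le_one f hf.hol).2]
      refine (hc.rc 1 zero_le_one _ _).2.2.trans (mul_le_mul_of_nonneg_right ?_ (s0 τ))
      rwa [one_mul] at h1)
    (hd f hf)
  refine ⟨slp fun τ => F.u 1 (f τ), fun η hη => ev_iff.2 ?_, fun η hη => ?_, ⟨N, ρ, h1⟩,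
    Real.pi * slp fun τ => F.u 4 (f τ), fun t ht => ?_⟩
  · filter_upwards [(sh 1 zero_le_one).2.1.ev (half_pos hη), h2.ev (half_pos hη)] with τ h4 h5
    have h6 := lg_eq τ
    change |_ - _ * lg τ| ≤ _
    rw [abs_le]
    constructor <;> nlinarith
  · obtain ⟨ρ', h4⟩ := h3 (η / (2 * K')) (by positivity)
    refine ⟨ρ', fun c hc' t ht q hq' => ?_⟩
    obtain ⟨δ, -, h5, τ, hτ, h6⟩ := h4 c hc'
    have h7 := hK4 q (f τ) (f c) hq' ((p.s3b.d_anti 1 4 zero_le_one (by norm_num) _ _).trans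
      (hc.len 1 zero_le_one f c δ hf.hol h5 τ (sphere_subset_closedBall hτ)))
    have h8 : t * F.R t q ≤ 4 * F.R 4 q :=
      p.s3a.R_mono q (show 0 ≤ t by linarith [ht.1]) (show (0 : ℝ) ≤ 4 by norm_num) ht.2
    have h9 := p.b2.R_nonneg t (by linarith [ht.1]) q
    have h10 : K' * (η / (2 * K') * Real.log ‖c‖) = η * Real.log ‖c‖ / 2 := by field_simp
    nlinarith [mul_le_mul_of_nonneg_left h6 hK'.le, ht.1]
  · have h0 : 0 ≤ t := by linarith [ht.1]
    have h4 := (hc.u t h0 f hf.hol).2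
    simp only [← h4]
    rw [← ofReal_integral_eq_lintegral_ofReal (sh t h0).1
      (Eventually.of_forall fun τ => (h4 τ).symm ▸ (hc.rc t h0 _ _).2.1)]
    refine ENNReal.ofReal_le_ofReal ?_
    have h5 := hm t 4 h0 ht.2
    rw [slp, div_le_iff₀' Real.pi_pos] at h5
    exact h5

end Vale.Agent.P253W.C
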