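import Vale.Agent.P253W.Asm
import Vale.Agent.P253W.C.Basic2

/-!
# P253W, block C: statements on the manifold (sections 4, 5.1, 5.3 and the degree bound)
-/

open scoped Manifold ContDiff Bundle ENNReal Topology ComplexConjugate ComplexOrder Matrix
open Bundle IsManifold MeasureTheory Set Metric Filter Vale.Agent.P253.Mfd Vale.Agent.P253Z
open Vale.Agent.P272.K (Cm jacM Chart)
open Vale.Agent.P272.GJ (ddb)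

noncomputable section

namespace Vale.Agent.P253W.C

variable {n : ℕ} {M : Type} [MetricSpace M] [ChartedSpace (Cm n) M]

variable (n) in
/-- the rows are the differentials of the functions `z i` -/
def Dz (z : Fin n → M → ℂ) (x : M) : Mx n := Matrix.of fun i => da n (z i) x

variable (n M) in
/-- **MAP**: holomorphic maps into `M` -/
structure MAP : Prop where
  hol : ∀ (a : M → ℂ) (f : ℂ → M) (U : Set ℂ), IsSec n 0 a → H1 n f U →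
    DifferentiableOn ℂ (fun τ => a (f τ)) U
  holn : ∀ (a : M → ℂ) (Ψ : Cm n → M) (U : Set (Cm n)), IsSec n 0 a → Hn Ψ U →
    DifferentiableOn ℂ (fun y => a (Ψ y)) U
  der : ∀ (z : Fin n → M → ℂ) (f : ℂ → M) (U : Set ℂ), (∀ i, IsSec n 0 (z i)) → IsOpen U →
    H1 n f U → ∀ τ ∈ U, ∀ i, deriv (fun s => z i (f s)) τ = (Dz n z (f τ) *ᵥ d1 n f τ) i
  lim : ∀ (f : ℕ → ℂ → M) (g : ℂ → M) (U : Set ℂ), IsOpen U → (∀ k, H1 n (f k) U) →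
    TendstoLocallyUniformlyOn f g atTop U → H1 n g U
  scale : ∀ (f : ℂ → M) (r s : ℝ), 0 < r → 0 < s → H1 n f (ball 0 r) →
    H1 n (fun τ => f (s * τ)) (ball 0 (r / s))
  /-- the estimate of Cauchy in the preferred chart -/
  cauchy : ∀ p : M, ∃ δ B : ℝ, 0 < δ ∧ ∀ (f : ℂ → M) (r s : ℝ), 0 < s → s < r →
    H1 n f (ball 0 r) → f 0 = p → (∀ τ ∈ closedBall (0 : ℂ) s, dist (f τ) p ≤ δ) →
    ‖d1 n f 0‖ * s ≤ B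
  line : ∀ (Ψ : Cm n → M) (e : Cm n), ‖e‖ ≤ 1 → Hn Ψ (ball 0 1) →
    H1 n (fun τ => Ψ (τ • e)) (ball 0 1) ∧ d1 n (fun τ => Ψ (τ • e)) 0 = dn Ψ 0 e
  lin : ∀ (Ψ : Cm n → M) (U : Set (Cm n)) (L : Mx n), IsOpen U → Hn Ψ U →
    Hn (fun y => Ψ (L *ᵥ y)) {y | L *ᵥ y ∈ U} ∧ ∀ y, L *ᵥ y ∈ U → ∀ v,
      dn (fun y => Ψ (L *ᵥ y)) y v = dn Ψ (L *ᵥ y) (L *ᵥ v)

variable [RiemannianBundle fun x : M => TangentSpace 𝓘(ℝ, Cm n) x] (F : Flow n M)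

/-- the matrix of the scalar products of the differentials -/
def Hz (z : Fin n → M → ℂ) (t : ℝ) (x : M) : Mx n :=
  (Dz n z x).map (starRingEnd ℂ) * (F.gx t x)⁻¹ * (Dz n z x)ᵀ

/-- the coefficient of the pull-back of `Ω` -/
def jo (Ψ : Cm n → M) (y : Cm n) : ℂ := F.Ω (Ψ y) * (jm Ψ y).det

/-- the square of the speed -/
def sp (t : ℝ) (f : ℂ → M) (τ : ℂ) : ℝ := F.nv t (f τ) (d1 n f τ)

/-- **CRV**: entire curves and the flow -/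
structure CRV (d : ℝ → M → M → ℝ) : Prop where
  u : ∀ t, 0 ≤ t → ∀ f : ℂ → M, H1 n f univ → ContDiff ℝ 2 (fun τ => F.u t (f τ)) ∧
    ∀ τ, ddb (fun τ => F.u t (f τ)) τ = F.rc t (f τ) (d1 n f τ)
  rc : ∀ t, 0 ≤ t → ∀ x v, 0 ≤ F.nv t x v ∧ 0 ≤ F.rc t x v ∧ F.rc t x v ≤ F.R t x * F.nv t x v
  cont : ∀ t, 0 ≤ t → ∀ f : ℂ → M, H1 n f univ → Continuous (sp F t f)
  len : ∀ t, 0 ≤ t → ∀ (f : ℂ → M) (c : ℂ) (δ : ℝ), H1 n f univ →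
    (∀ τ ∈ closedBall c δ, sp F t f τ * δ ^ 2 ≤ 1) → ∀ τ ∈ closedBall c δ, d t (f τ) (f c) ≤ 1

/-- **HZ1**: the matrix `Hz` at a point -/
def HZ1 : Prop := ∀ t, 0 ≤ t → ∀ (z : Fin n → M → ℂ) (x : M),
  (∀ c, (hf (Hz F z t x) c c).re = F.H t x (c ᵥ* Dz n z x)) ∧
  (∀ i, (Hz F z t x i i).re = F.H t x (da n (z i) x)) ∧
  (Hz F z t x).det.re = ‖F.jc z x‖ ^ 2 * Real.exp (F.u t x) ∧
  (F.jc z x ≠ 0 → (Dz n z x).det ≠ 0 ∧ (Hz F z t x).PosDef ∧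
    ∀ v, F.nv t x v = qv (Hz F z t x)⁻¹ (Dz n z x *ᵥ v))

/-- **HZ2**: the matrix `Hz` along a curve -/
def HZ2 : Prop := ∀ t, 0 < t → ∀ (z : Fin n → M → ℂ) (f : ℂ → M) (U : Set ℂ),
  (∀ i, IsSec n 0 (z i)) → IsOpen U → H1 n f U →
  (∀ i j, ContDiffOn ℝ 2 (fun τ => Hz F z t (f τ) i j) U) ∧
  (∀ τ ∈ U, ∀ x : ℂ → Fin n → ℂ, AnalyticAt ℂ x τ →
    0 ≤ ddb (fun s => (hf (Hz F z t (f s)) (x s) (x s)).re) τ) ∧
  ((∀ τ ∈ U, F.jc z (f τ) ≠ 0) → ∀ y : ℂ → Cm n, DifferentiableOn ℂ y U →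
    Al f (fun τ => (Dz n z (f τ))⁻¹ *ᵥ y τ) U)

/-- **PUL**: pull-back of the volume form -/
def PUL : Prop := ∀ (Ψ : Cm n → M) (U : Set (Cm n)), IsOpen U → Hn Ψ U →
  DifferentiableOn ℂ (jo F Ψ) U ∧ ∀ t, 0 ≤ t → ∀ y, (F.pull Ψ t y).IsHermitian ∧
    ‖jo F Ψ y‖ ^ 2 = Real.exp (F.u t (Ψ y)) * (F.pull Ψ t y).det.re

/-- **UB**: bounds near a point for large times -/
def UB (d : ℝ → M → M → ℝ) : Prop := ∀ p : M, ∃ C : ℝ, 1 ≤ C ∧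
  (∀ t, 1 ≤ t → ∀ q, d t q p ≤ 1 → F.R t q ≤ C) ∧
  (∀ t, 1 ≤ t → ∀ q, dist q p ≤ 1 → F.u t q - F.u 0 q ≤ C * (1 + (F.u t p - F.u 0 p))) ∧
  Tendsto (fun t => F.u t p) atTop atTop

variable [MeasurableSpace M] (μ : Measure M)

/-- **COV**: change of variables -/
def COV : Prop := ∀ (Ψ : Cm n → M) (U : Set (Cm n)), IsOpen U → Hn Ψ U → InjOn Ψ U →
  (∀ y ∈ U, (jm Ψ y).det ≠ 0) → ∀ G : M → ℝ≥0∞, Measurable G →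
  ∫⁻ y in U, G (Ψ y) * ENNReal.ofReal (F.pull Ψ 0 y).det.re ≤ ∫⁻ x, G x ∂μ

variable {F μ} (T : F.TA μ)

/-- **PCF**: tame functions along polynomial curves -/
structure PCF : Prop where
  tm : ∀ a ∈ T.A, F.Tm T.ga fun x => Real.log (max ‖a x‖ 1)
  up : ∀ f, T.PC f → ∀ φ, F.Tm T.ga φ → ∃ C : ℝ, Up (fun τ => φ (f τ)) C
  pb : ∀ f, T.PC f → ∀ a ∈ T.A, Differentiable ℂ (fun τ => a (f τ)) ∧ PB (fun τ => a (f τ)) ∧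
    PB (deriv fun τ => a (f τ))
  dom : ∀ a ∈ T.A, ∀ b ∈ T.A, a ≠ 0 → b ≠ 0 → a * b ≠ 0
  /-- the differential at positive times -/
  dzt : ∀ f, T.PC f → ∀ a ∈ T.A, ∀ t, 0 < t → ∃ N ρ : ℝ, ∀ τ ∈ ex ρ,
    F.H t (f τ) (da n a (f τ)) ≤ Real.exp (N * lg τ)

/-- **DET**: the determinant trick -/
def DET : Prop := ∀ f, T.PC f → ∃ N ρ : ℝ, ∀ τ ∈ ex ρ,
  sp F 1 f τ ≤ Real.exp (N * lg τ - F.u 1 (f τ))

/-- **NU**: the slope does not depend on the time -/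
def NU : Prop := ∀ f, T.PC f →
  (∀ s t, 0 ≤ s → s ≤ t → slp (fun τ => F.u s (f τ)) ≤ slp fun τ => F.u t (f τ)) ∧
    slp (fun τ => F.u 16 (f τ)) = slp fun τ => F.u 8 (f τ)

/-- square integrable functions over whose ratios `A` is algebraic, homogeneous form -/
structure LH (m : ℕ) (g : Option (Fin n) → M → ℂ) : Prop where
  mem : ∀ i, g i ∈ T.A
  l2 : ∀ i, ∫⁻ x, ENNReal.ofReal (‖g i x‖ ^ 2 * Real.exp (-(m * F.u 0 x))) ∂μ < ⊤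
  ev : ∀ B : MvPolynomial (Option (Fin n)) ℂ,
    (fun x => MvPolynomial.eval (fun i => g i x) B) ∈ T.A
  alg : ∀ a ∈ T.A, ∃ (d D : ℕ) (B : Fin (d + 1) → MvPolynomial (Option (Fin n)) ℂ),
    (∀ l, (B l).IsHomogeneous D) ∧
    (∃ x, MvPolynomial.eval (fun i => g i x) (B (Fin.last d)) ≠ 0) ∧
    ∀ x, ∑ l, MvPolynomial.eval (fun i => g i x) (B l) * a x ^ (l : ℕ) = 0

/-- **L2H** -/
def L2H : Prop := (∃ m g, LH T m g) ∧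
  ∀ Q : MvPolynomial (Fin n) ℂ, (fun x => MvPolynomial.eval (fun i => T.z i x) Q) ∈ T.A

/-- **GB**: discs through `p` given by the charts of the slices -/
def GB : Prop := ∀ m g, LH T m g → ∀ p : M, ∃ r C : ℝ, 0 < r ∧ 0 ≤ C ∧ ∀ t, 1 ≤ t →
  ∃ (γ : ℂ → M) (j : ℂ → ℂ), H1 n γ (ball 0 r) ∧ γ 0 = p ∧ DifferentiableOn ℂ j (ball 0 r) ∧
    (∀ τ ∈ ball (0 : ℂ) r, j τ ≠ 0) ∧
    Real.exp ((F.u t p - F.u 0 p) / (2 * n) - C) ≤ ‖d1 n γ 0‖ ∧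
    ‖j 0‖ ≤ Real.exp (C * (1 + (F.u t p - F.u 0 p))) ∧
    ∀ i, ∀ τ ∈ ball (0 : ℂ) r, ‖g i (γ τ) / j τ‖ ≤ Real.exp (C * (1 + (F.u t p - F.u 0 p)))

/-- fast discs through `p` on which the coordinates are bounded -/
def Fast (p : M) : Prop := ∃ r C : ℝ, 0 < r ∧ 0 ≤ C ∧ ∀ t, 1 ≤ t → ∃ γ : ℂ → M,
  H1 n γ (ball 0 r) ∧ γ 0 = p ∧ Real.exp ((F.u t p - F.u 0 p) / (2 * n) - C) ≤ ‖d1 n γ 0‖ ∧
    ∀ i, ∀ τ ∈ ball (0 : ℂ) r, ‖T.z i (γ τ)‖ ≤ Real.exp (C * (1 + (F.u t p - F.u 0 p)))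

/-- **GA** -/
def GA : Prop := ∃ c ∈ T.A, c ≠ 0 ∧ ∀ p, c p ≠ 0 →
  MvPolynomial.eval (fun i => T.z i p) T.Q ≠ 0 ∧ Fast T p

/-- large discs through `p` of polynomial growth -/
def Big (p : M) : Prop := ∃ (δ B : ℝ) (N : ℕ) (f : ℕ → ℂ → M) (ρ : ℕ → ℝ), 0 < δ ∧
  Tendsto ρ atTop atTop ∧ ∀ k, H1 n (f k) (ball 0 (ρ k)) ∧ f k 0 = p ∧
    (∃ τ ∈ closedBall (0 : ℂ) 1, δ ≤ dist (f k τ) p) ∧
    ∀ i, ∀ τ ∈ ball (0 : ℂ) (ρ k), ‖T.z i (f k τ)‖ ≤ B * (1 + ‖τ‖) ^ N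

/-- **RS**: rescaling at the first exit -/
def RS : Prop := ∀ p, Fast T p → Big T p

/-- **LIM**: the limit curve -/
def LIM : Prop := ∀ p, MvPolynomial.eval (fun i => T.z i p) T.Q ≠ 0 → Big T p →
  ∃ f, T.PC f ∧ f 0 = p

/-- **DG1**: square integrable functions along a curve with a tube -/
def DG1 : Prop := ∀ m g, LH T m g → ∀ f ν, T.Tube f ν → ∀ i, ∃ ρ : ℝ, ∀ τ ∈ ex ρ,
  ‖g i (f τ)‖ ≤ ‖τ‖ ^ (m * ν + n + 1)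

theorem exist_of (h1 : GA T) (h2 : RS T) (h3 : LIM T) : T.EXIST := by
  obtain ⟨c, hc, h0, h⟩ := h1
  exact ⟨c, hc, h0, fun p hp => h3 p (h p hp).1 (h2 p (h p hp).2)⟩

end Vale.Agent.P253W.C
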