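import Vale.Agent.P272.GJ.Green
import Vale.Agent.P253.R2.H66.Est1

/-!
# P253W, block C: statements in one complex variable and linear algebra
-/

open scoped Topology ComplexConjugate ComplexOrder Matrix ENNReal
open Set Metric Filter MeasureTheory
open Vale.Agent.P272.GJ (ddb)
open Vale.Agent.P253.R2.H66 (dz dzb)

noncomputable section

namespace Vale.Agent.P253W.C

/-- the exterior of a disc -/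
def ex (ρ : ℝ) : Set ℂ := {τ | ρ < ‖τ‖}

/-- `log |τ|²` -/
def lg (τ : ℂ) : ℝ := Real.log (‖τ‖ ^ 2)

/-- `w ≤ (k + o(1)) log |τ|²` -/
def Up (w : ℂ → ℝ) (k : ℝ) : Prop :=
  ∀ η : ℝ, 0 < η → ∃ ρ : ℝ, ∀ τ ∈ ex ρ, w τ ≤ (k + η) * lg τ

/-- the means of `w` over small circles are at least `(k - o(1)) log |τ|²` -/
def Lo (w : ℂ → ℝ) (k : ℝ) : Prop :=
  ∀ η : ℝ, 0 < η → ∃ ρ : ℝ, ∀ τ ∈ ex ρ, ∀ s : ℝ, 0 < s → s ≤ 1 →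
    (k - η) * lg τ + η * Real.log s ≤ Real.circleAverage w τ s

/-- polynomial growth -/
def PB (h : ℂ → ℂ) : Prop := ∃ (N : ℕ) (ρ : ℝ), ∀ τ ∈ ex ρ, ‖h τ‖ ≤ ‖τ‖ ^ N

/-- the slope -/
def slp (w : ℂ → ℝ) : ℝ := (∫ τ, ddb w τ) / Real.pi

/-- **SH0**: subharmonic functions of logarithmic growth on the plane -/
def SH0 : Prop := ∀ (w : ℂ → ℝ) (C : ℝ), ContDiff ℝ 2 w → (∀ τ, 0 ≤ ddb w τ) → Up w C →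
  Integrable (ddb w) ∧ Up w (slp w) ∧ Lo w (slp w) ∧
    Tendsto (fun r : ℝ => Real.circleAverage w 0 r / Real.log (r ^ 2)) atTop (𝓝 (slp w))

/-- **SHE**: exponential integrability -/
def SHE : Prop := ∀ (w : ℂ → ℝ) (ν : ℝ), ContDiff ℝ 2 w → (∀ τ, 0 ≤ ddb w τ) →
  Integrable (ddb w) → Lo w ν → ∀ p b : ℝ, 0 ≤ p → 1 - p * ν < b →
    ∃ ρ : ℝ, IntegrableOn (fun τ => Real.exp (-(p * w τ) - b * lg τ)) (ex ρ)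

/-- **SH**: subharmonic functions of logarithmic growth near infinity -/
def SH : Prop := ∀ (w : ℂ → ℝ) (ρ C : ℝ), ContDiffOn ℝ 2 w (ex ρ) → (∀ τ ∈ ex ρ, 0 ≤ ddb w τ) →
  Up w C → ∃ ν : ℝ, Up w ν ∧ Lo w ν ∧ ∀ p b : ℝ, 0 ≤ p → 1 - p * ν < b →
    ∃ ρ' : ℝ, IntegrableOn (fun τ => Real.exp (-(p * w τ) - b * lg τ)) (ex ρ')

/-- **HOR1**: the theorem of Hörmander on a plane domain -/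
def HOR1 : Prop := ∀ (Q : Set ℂ) (φ : ℂ → ℝ) (l : ℂ → ℂ), IsOpen Q → ContDiffOn ℝ 2 φ Q →
  (∀ τ ∈ Q, 0 < ddb φ τ) → ContDiffOn ℝ 1 l Q →
  IntegrableOn (fun τ => ‖dzb l τ‖ ^ 2 / ddb φ τ * Real.exp (-φ τ)) Q →
  ∃ h : ℂ → ℂ, DifferentiableOn ℂ h Q ∧
    IntegrableOn (fun τ => ‖l τ - h τ‖ ^ 2 * Real.exp (-φ τ)) Q

/-- **MER**: functions which are meromorphic at infinity -/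
structure MER : Prop where
  ord : ∀ (h : ℂ → ℂ) (ρ : ℝ), DifferentiableOn ℂ h (ex ρ) → PB h →
    (∃ ρ' : ℝ, ∀ τ ∈ ex ρ', h τ = 0) ∨ ∃ (m : ℤ) (c C ρ' : ℝ), 0 < c ∧
      ∀ τ ∈ ex ρ', c * ‖τ‖ ^ m ≤ ‖h τ‖ ∧ ‖h τ‖ ≤ C * ‖τ‖ ^ m
  ent : ∀ h : ℂ → ℂ, Differentiable ℂ h → PB h → (∃ τ, h τ ≠ 0) →
    ∃ (m : ℕ) (c C ρ : ℝ), 0 < c ∧ ∀ τ ∈ ex ρ, c * ‖τ‖ ^ m ≤ ‖h τ‖ ∧ ‖h τ‖ ≤ C * ‖τ‖ ^ m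

/-- the norm of `x s₁ + y s₂` -/
def q2 (α : ℂ → ℝ) (β : ℂ → ℂ) (γ : ℂ → ℝ) (x y : ℂ → ℂ) (τ : ℂ) : ℝ :=
  α τ * ‖x τ‖ ^ 2 + 2 * (conj (x τ) * β τ * y τ).re + γ τ * ‖y τ‖ ^ 2

/-- negative curvature in rank two -/
def N2 (α : ℂ → ℝ) (β : ℂ → ℂ) (γ : ℂ → ℝ) (z : ℂ) : Prop :=
  ∀ x y : ℂ → ℂ, AnalyticAt ℂ x z → AnalyticAt ℂ y z → 0 ≤ ddb (q2 α β γ x y) z

/-- **R2A**: the pointwise computation in rank two -/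
def R2A : Prop := ∀ (α γ : ℂ → ℝ) (β : ℂ → ℂ) (z : ℂ), ContDiffAt ℝ 2 α z → ContDiffAt ℝ 2 β z →
  ContDiffAt ℝ 2 γ z → 0 < α z → ‖β z‖ ^ 2 < α z * γ z → N2 α β γ z →
  0 ≤ ddb (fun τ => α τ * γ τ - ‖β τ‖ ^ 2) z ∧
    α z ^ 2 * ‖dzb (fun τ => β τ / α τ) z‖ ^ 2 ≤
      ddb (fun τ => Real.log (α τ)) z * (α z * γ z - ‖β z‖ ^ 2)

/-- the hypotheses of the step in rank two -/
structure H2 (α γ : ℂ → ℝ) (β : ℂ → ℂ) (ρ a d : ℝ) : Prop where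
  sa : ContDiffOn ℝ 2 α (ex ρ)
  sb : ContDiffOn ℝ 2 β (ex ρ)
  sc : ContDiffOn ℝ 2 γ (ex ρ)
  pos : ∀ τ ∈ ex ρ, 0 < α τ ∧ ‖β τ‖ ^ 2 < α τ * γ τ
  neg : ∀ τ ∈ ex ρ, N2 α β γ τ
  up : Up (fun τ => Real.log (α τ)) a
  lo : Lo (fun τ => Real.log (α τ)) a
  det : Up (fun τ => Real.log (α τ * γ τ - ‖β τ‖ ^ 2)) d
  ca : ∃ C : ℝ, Up (fun τ => -Real.log (α τ)) C
  cc : ∃ C : ℝ, Up (fun τ => Real.log (γ τ)) C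

/-- the norm of `s₂ - h s₁` -/
def nh (α γ : ℂ → ℝ) (β h : ℂ → ℂ) (τ : ℂ) : ℝ :=
  α τ * ‖h τ‖ ^ 2 - 2 * (conj (h τ) * β τ).re + γ τ

/-- **R2E**: the step in rank two, with a loss -/
def R2E : Prop := ∀ (α γ : ℂ → ℝ) (β : ℂ → ℂ) (ρ a d : ℝ), H2 α γ β ρ a d → ∀ η : ℝ, 0 < η →
  ∃ (ρ' : ℝ) (h : ℂ → ℂ), DifferentiableOn ℂ h (ex ρ') ∧
    Up (fun τ => Real.log (nh α γ β h τ)) (d - a + η)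

/-- **R2**: the step in rank two -/
def R2 : Prop := ∀ (α γ : ℂ → ℝ) (β : ℂ → ℂ) (ρ a d : ℝ), H2 α γ β ρ a d →
  ∃ (ρ' : ℝ) (h : ℂ → ℂ), DifferentiableOn ℂ h (ex ρ') ∧ PB h ∧
    Up (fun τ => Real.log (nh α γ β h τ)) (d - a)

/-- `x^* H y` -/
def hf {m : ℕ} (H : Matrix (Fin m) (Fin m) ℂ) (x y : Fin m → ℂ) : ℂ := star x ⬝ᵥ (H *ᵥ y)

/-- a metric of negative curvature and polynomial growth near infinity -/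
structure Neg {m : ℕ} (ρ : ℝ) (H : ℂ → Matrix (Fin m) (Fin m) ℂ) : Prop where
  sm : ∀ i j, ContDiffOn ℝ 2 (fun τ => H τ i j) (ex ρ)
  pos : ∀ τ ∈ ex ρ, (H τ).PosDef
  neg : ∀ τ ∈ ex ρ, ∀ x : ℂ → Fin m → ℂ, AnalyticAt ℂ x τ →
    0 ≤ ddb (fun s => (hf (H s) (x s) (x s)).re) τ
  up : ∃ C : ℝ, ∀ i, Up (fun τ => Real.log (H τ i i).re) C
  low : ∃ C : ℝ, Up (fun τ => -Real.log (H τ).det.re) C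

/-- the metric on the span of `e₀ ∧ e_i` -/
def red {m : ℕ} (H : Matrix (Fin (m + 1)) (Fin (m + 1)) ℂ) : Matrix (Fin m) (Fin m) ℂ :=
  Matrix.of fun i j => H 0 0 * H i.succ j.succ - H i.succ 0 * H 0 j.succ

/-- **RED**: reduction of the rank -/
def RED : Prop := ∀ (m : ℕ) (ρ : ℝ) (H : ℂ → Matrix (Fin (m + 1)) (Fin (m + 1)) ℂ), Neg ρ H →
  Neg ρ (fun τ => red (H τ)) ∧ (∃ C : ℝ, Up (fun τ => -Real.log (H τ 0 0).re) C) ∧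
  ∀ τ ∈ ex ρ, 0 ≤ ddb (fun s => Real.log (H s 0 0).re) τ ∧
    (H τ 0 0).re * (red (H τ)).det.re = (H τ 0 0).re ^ m * (H τ).det.re ∧
    ∀ x : Fin m → ℂ, (hf (red (H τ)) x x).re =
      (H τ 0 0).re * (hf (H τ) (Fin.cons 0 x) (Fin.cons 0 x)).re -
        ‖hf (H τ) (Pi.single 0 1) (Fin.cons 0 x)‖ ^ 2

/-- **FRA**: an orthogonal frame for the slopes -/
def FRA : Prop := ∀ (m : ℕ) (ρ : ℝ) (H : ℂ → Matrix (Fin m) (Fin m) ℂ), Neg ρ H →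
  ∃ (ρ' : ℝ) (Θ : ℂ → Matrix (Fin m) (Fin m) ℂ) (k : Fin m → ℝ),
    (∀ i j, DifferentiableOn ℂ (fun τ => Θ τ i j) (ex ρ') ∧ PB fun τ => Θ τ i j) ∧
    (∀ τ ∈ ex ρ', (Θ τ).det = 1) ∧
    (∀ j, Up (fun τ => Real.log (hf (H τ) ((Θ τ)ᵀ j) ((Θ τ)ᵀ j)).re) (k j)) ∧
    Lo (fun τ => Real.log (H τ).det.re) (∑ j, k j)

/-- `A(v, v̄)` -/
def qv {m : ℕ} (A : Matrix (Fin m) (Fin m) ℂ) (v : Fin m → ℂ) : ℝ := (v ⬝ᵥ (A *ᵥ star v)).re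

/-- **EIG**: inequalities for positive matrices -/
structure EIG (m : ℕ) : Prop where
  inv : ∀ (P : Matrix (Fin m) (Fin m) ℂ) (E : ℝ), P.PosDef → 1 ≤ E → (∀ i, (P i i).re ≤ E) →
    ∀ c : Fin m → ℂ, ∑ i, ‖c i‖ ^ 2 ≤ m * E * qv P⁻¹ c ∧
      P.det.re * qv P⁻¹ c ≤ (m * E) ^ m * ∑ i, ‖c i‖ ^ 2
  low : ∀ (P : Matrix (Fin m) (Fin m) ℂ) (l : ℝ), P.IsHermitian → 0 < l →
    (∀ v, l * ∑ i, ‖v i‖ ^ 2 ≤ qv P v) → P.PosDef ∧ l ^ m ≤ P.det.re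
  up : ∀ (P : Matrix (Fin m) (Fin m) ℂ) (L : ℝ), P.PosDef →
    (∀ v, qv P v ≤ L * ∑ i, ‖v i‖ ^ 2) → P.det.re ≤ L ^ m
  onb : ∀ P : Matrix (Fin m) (Fin m) ℂ, P.PosDef → ∃ L : Matrix (Fin m) (Fin m) ℂ,
    (∀ v, qv P (L *ᵥ v) = ∑ i, ‖v i‖ ^ 2) ∧ ‖L.det‖ ^ 2 * P.det.re = 1
  col : ∀ L : Matrix (Fin m) (Fin m) ℂ, 1 ≤ m →
    ∃ i, ‖L.det‖ ≤ m.factorial * ‖L *ᵥ Pi.single i 1‖ ^ m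
  dual : ∀ (P : Matrix (Fin m) (Fin m) ℂ) (ξ : Fin m → ℂ) (B : ℝ), P.PosDef → 0 ≤ B →
    (∀ v, ‖ξ ⬝ᵥ v‖ ^ 2 ≤ B * qv P v) → (star ξ ⬝ᵥ (P⁻¹ *ᵥ ξ)).re ≤ B

/-- **FRB**: the frame of 5.3 -/
def FRB : Prop := ∀ (m : ℕ) (ρ δ : ℝ) (H : ℂ → Matrix (Fin m) (Fin m) ℂ), Neg ρ H →
  Up (fun τ => Real.log (H τ).det.re) δ → Up (fun τ => -Real.log (H τ).det.re) (-δ) →
  ∃ (ρ' : ℝ) (Y : ℂ → Matrix (Fin m) (Fin m) ℂ) (k : Fin m → ℝ), (∀ i, 0 < k i ∧ k i ≤ 1) ∧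
    (∀ i j, DifferentiableOn ℂ (fun τ => Y τ i j) (ex ρ')) ∧
    ∀ η : ℝ, 0 < η → ∃ ρ'' : ℝ, ∀ τ ∈ ex ρ'', ∀ c : Fin m → ℂ,
      ‖τ‖ ^ (-η) * ∑ i, ‖c i‖ ^ 2 * ‖τ‖ ^ (-(2 * k i)) ≤ qv (H τ)⁻¹ (Y τ *ᵥ c) ∧
        qv (H τ)⁻¹ (Y τ *ᵥ c) ≤ ‖τ‖ ^ η * ∑ i, ‖c i‖ ^ 2 * ‖τ‖ ^ (-(2 * k i))

/-- **PP**: point picking. `s` is the square of the speed, `v` bounds the curvature. -/
def PP : Prop := ∀ (w v s : ℂ → ℝ) (ν K : ℝ), ContDiff ℝ 2 w → Continuous v → Continuous s →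
  (∀ τ, 0 ≤ s τ) → (∀ τ, 0 ≤ v τ) → 0 ≤ K → Lo w ν →
  (∀ η : ℝ, 0 < η → ∃ ρ : ℝ, ∀ c ∈ ex ρ, ∀ δ : ℝ, 0 < δ → δ ≤ 1 →
    Real.circleAverage v c δ ≤ η * lg c - η * Real.log δ) →
  (∀ (c : ℂ) (δ : ℝ), 0 < δ → (∀ τ ∈ closedBall c δ, s τ * δ ^ 2 ≤ 1) →
    ∀ τ' ∈ sphere c δ, ∀ τ ∈ closedBall c δ, ddb w τ ≤ K * v τ' * s τ) →
  (∃ N ρ : ℝ, ∀ τ ∈ ex ρ, s τ ≤ Real.exp (N * lg τ - w τ)) →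
  (∃ N ρ : ℝ, ∀ τ ∈ ex ρ, s τ ≤ ‖τ‖ ^ N) ∧ Up (fun τ => -w τ) (-ν) ∧
    ∀ η : ℝ, 0 < η → ∃ ρ : ℝ, ∀ c ∈ ex ρ, ∃ δ : ℝ, 0 < δ ∧
      (∀ τ ∈ closedBall c δ, s τ * δ ^ 2 ≤ 1) ∧ ∃ τ' ∈ sphere c δ, v τ' ≤ η * Real.log ‖c‖

/-- **JB**: bounds from the inequality of Jensen, three circles, roots -/
structure JB : Prop where
  jen : ∀ (φ : ℂ → ℝ) (q : ℂ → ℂ) (R L N : ℝ), 0 < R → 0 ≤ L → 0 ≤ N →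
    ContinuousOn φ (ball 0 R) →
    (∀ (c : ℂ) (r : ℝ), 0 < r → closedBall c r ⊆ ball 0 R → φ c ≤ Real.circleAverage φ c r) →
    DifferentiableOn ℂ q (ball 0 R) → (∀ τ ∈ ball (0 : ℂ) R, ‖q τ‖ ≤ Real.exp L) →
    Real.exp (-L) ≤ ‖q 0‖ →
    (∀ τ ∈ ball (0 : ℂ) R, q τ ≠ 0 → φ τ ≤ L - N * Real.log ‖q τ‖) →
    ∀ τ ∈ ball (0 : ℂ) (R / 4), φ τ ≤ 20 * (1 + N) * L
  three : ∀ (h : ℂ → ℂ) (ρ B : ℝ) (N : ℕ), 1 ≤ ρ → 1 ≤ B → DiffContOnCl ℂ h (ball 0 ρ) →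
    (∀ τ ∈ closedBall (0 : ℂ) 1, ‖h τ‖ ≤ B) → (∀ τ ∈ sphere (0 : ℂ) ρ, ‖h τ‖ ≤ B * ρ ^ N) →
    ∀ τ ∈ closedBall (0 : ℂ) ρ, ‖h τ‖ ≤ B * (1 + ‖τ‖) ^ N
  root : ∀ (d : ℕ) (b : Fin (d + 1) → ℂ) (a : ℂ) (E : ℝ), ∑ l, b l * a ^ (l : ℕ) = 0 →
    (∀ l, ‖b l‖ ≤ E) → ‖a‖ * ‖b (Fin.last d)‖ ≤ (d + 1) * E
  hom : ∀ (ι : Type) [Fintype ι] (B : MvPolynomial ι ℂ) (D : ℕ), B.IsHomogeneous D →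
    (∀ (x : ι → ℂ) (c : ℂ),
      MvPolynomial.eval (fun i => c * x i) B = c ^ D * MvPolynomial.eval x B) ∧
    ∃ C : ℝ, 0 ≤ C ∧ ∀ (x : ι → ℂ) (E : ℝ), 0 ≤ E → (∀ i, ‖x i‖ ≤ E) →
      ‖MvPolynomial.eval x B‖ ≤ C * E ^ D
  mv : ∀ (m : ℕ) (G : (Fin m → ℂ) → ℂ) (c : Fin m → ℂ) (r : ℝ), 0 < r →
    DifferentiableOn ℂ G (ball c r) →
    ENNReal.ofReal (‖G c‖ ^ 2 * (Real.pi * r ^ 2) ^ m) ≤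
      ∫⁻ y in ball c r, ENNReal.ofReal (‖G y‖ ^ 2)

end Vale.Agent.P253W.C
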