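import Vale.Agent.P253W.C.Defs

/-!
# P253W, row C.DET: the determinant trick
-/

open scoped Manifold ContDiff Bundle ENNReal Topology ComplexConjugate ComplexOrder Matrix
open Bundle IsManifold MeasureTheory Set Metric Filter Bornology Vale.Agent.P253.Mfd
  Vale.Agent.P253Z
open Vale.Agent.P272.K (Cm jacM Chart)
open Vale.Agent.P272.GJ (ddb)

set_option linter.unusedSectionVars false

noncomputable section

namespace Vale.Agent.P253W.C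

variable {n : ℕ} {M : Type} [MetricSpace M] [ChartedSpace (Cm n) M] [IsManifold 𝓘(ℂ, Cm n) 1 M]
  [IsManifold 𝓘(ℝ, Cm n) ∞ M] [RiemannianBundle fun x : M => TangentSpace 𝓘(ℝ, Cm n) x]
  [IsContMDiffRiemannianBundle 𝓘(ℝ, Cm n) ∞ (Cm n) fun x : M => TangentSpace 𝓘(ℝ, Cm n) x]
  [IsRiemannianManifold 𝓘(ℝ, Cm n) M] [CompleteSpace M] [ConnectedSpace M] [NoncompactSpace M]
  [MeasurableSpace M] [BorelSpace M] {μ : Measure M} {F : Flow n M} {A : Fam F} {T : F.TA μ}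

namespace Det

variable {f : ℂ → M}

theorem ex_z (hp : PCF T) (hr : MER) (hf : T.PC f) : ∃ (z : Fin n → M → ℂ) (m : ℕ) (c C N : ℝ),
    (∀ i, z i ∈ T.A) ∧ 0 < c ∧ 0 ≤ N ∧ ∀ᶠ τ in cobounded ℂ, c * ‖τ‖ ^ m ≤ ‖F.jc z (f τ)‖ ∧
      ‖F.jc z (f τ)‖ ≤ C * ‖τ‖ ^ m ∧
      ∀ i, F.H 1 (f τ) (da n (z i) (f τ)) ≤ Real.exp (N * lg τ) := by
  obtain ⟨z, hz, hJ⟩ := T.eta (f 0)
  obtain ⟨h1, h2, -⟩ := hp.pb f hf _ (T.jac z hz)
  obtain ⟨m, c, C, ρ, hc, h3⟩ := hr.ent _ h1 h2 ⟨0, hJ⟩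
  choose N hN using fun i => hp.dzt f hf (z i) (hz i) 1 one_pos
  refine ⟨z, m, c, C, ∑ i, |N i|, hz, hc, Finset.sum_nonneg fun i _ => abs_nonneg _, ?_⟩
  filter_upwards [ex_mem ρ, eventually_all.2 fun i => ev_iff.1 (hN i), ev_lg] with τ h4 h5 h6
  refine ⟨(h3 τ h4).1, (h3 τ h4).2, fun i => (h5 i).trans (Real.exp_le_exp.2
    (mul_le_mul_of_nonneg_right ((le_abs_self _).trans ?_) h6))⟩
  exact Finset.single_le_sum (f := fun i => |N i|) (fun i _ => abs_nonneg _) (Finset.mem_univ i)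

theorem pb_sum {h : Fin n → ℂ → ℂ} (hp : ∀ i, PB (h i)) : ∃ K : ℝ, ∀ᶠ τ in cobounded ℂ,
    ∑ i, ‖h i τ‖ ^ 2 ≤ n * Real.exp (K * lg τ) := by
  choose N hN using hp
  refine ⟨(∑ i, N i : ℕ), ?_⟩
  filter_upwards [eventually_all.2 fun i => ev_iff.1 (hN i), ex_mem 1] with τ h1 h2
  have h3 : 1 ≤ ‖τ‖ := le_of_lt h2
  rw [lg, Real.exp_nat_mul, Real.exp_log (by positivity)]
  refine (Finset.sum_le_card_nsmul _ _ ((‖τ‖ ^ 2) ^ ∑ i, N i) fun i _ => ?_).trans (by simp)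
  rw [← pow_mul, mul_comm, pow_mul]
  exact pow_le_pow_left₀ (norm_nonneg _) ((h1 i).trans (pow_le_pow_right₀ h3
    (Finset.single_le_sum (f := N) (fun i _ => Nat.zero_le _) (Finset.mem_univ i)))) 2

end Det

theorem det (_p : P3 A T) (hm : MAP n M) (h1 : HZ1 F) (hp : PCF T) (he : EIG n) (hr : MER) :
    DET T := by
  intro f hf
  obtain ⟨z, m, c, C, N, hz, hc, hN, h2⟩ := Det.ex_z hp hr hf
  obtain ⟨K, hK⟩ := Det.pb_sum fun i => (hp.pb f hf _ (hz i)).2.2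
  refine ⟨n * N + K + 1, ev_iff.2 ?_⟩
  filter_upwards [h2, hK, ex_mem 1, ev_const (n ^ n * n / c ^ 2) one_pos] with τ h3 h4 h5 h6
  obtain ⟨h3, -, h7⟩ := h3
  have t1 : 1 ≤ ‖τ‖ := le_of_lt h5
  have h8 : c ≤ ‖F.jc z (f τ)‖ := (le_mul_of_one_le_right hc.le (one_le_pow₀ t1)).trans h3
  obtain ⟨-, a2, a3, a4⟩ := h1 1 zero_le_one z (f τ)
  obtain ⟨-, a5, a6⟩ := a4 (norm_pos_iff.1 (hc.trans_le h8))
  have hE : 1 ≤ Real.exp (N * lg τ) := Real.one_le_exp (mul_nonneg hN (lg_nonneg t1))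
  obtain ⟨b1, b2⟩ := he.inv _ _ a5 hE (fun i => (a2 i).trans_le (h7 i))
    (Dz n z (f τ) *ᵥ d1 n f τ)
  rw [← a6] at b1 b2
  simp only [← hm.der z f univ (fun i => ((T.mem _).1 (hz i)).1) isOpen_univ hf.hol τ
    (mem_univ _)] at b2
  rw [a3, mul_pow, ← Real.exp_nat_mul] at b2
  change sp F 1 f τ ≤ _ at *
  have e1 : Real.exp ((n * N + K + 1) * lg τ - F.u 1 (f τ)) * Real.exp (F.u 1 (f τ)) =
      Real.exp (n * (N * lg τ)) * Real.exp (K * lg τ) * Real.exp (lg τ) := by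
    simp only [← Real.exp_add]; congr 1; ring
  have e2 : (n : ℝ) ^ n * n ≤ c ^ 2 * Real.exp (lg τ) := by
    rw [one_mul, div_le_iff₀' (by positivity)] at h6
    exact h6.trans (mul_le_mul_of_nonneg_left (by linarith [Real.add_one_le_exp (lg τ)])
      (by positivity))
  rcases le_total (F.nv 1 (f τ) (d1 n f τ)) 0 with h0 | h0
  · exact h0.trans (Real.exp_pos _).le
  refine le_of_mul_le_mul_right (a := c ^ 2 * Real.exp (F.u 1 (f τ))) ?_ (by positivity)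
  calc _ ≤ ‖F.jc z (f τ)‖ ^ 2 * Real.exp (F.u 1 (f τ)) * F.nv 1 (f τ) (d1 n f τ) := by
        rw [mul_comm]; unfold sp; gcongr
    _ ≤ n ^ n * Real.exp (n * (N * lg τ)) * (n * Real.exp (K * lg τ)) :=
        b2.trans (mul_le_mul_of_nonneg_left h4 (by positivity))
    _ = n ^ n * n * (Real.exp (n * (N * lg τ)) * Real.exp (K * lg τ)) := by ring
    _ ≤ c ^ 2 * Real.exp (lg τ) * (Real.exp (n * (N * lg τ)) * Real.exp (K * lg τ)) := by gcongr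
    _ = _ := by rw [mul_left_comm _ (c ^ 2), e1]; ring

end Vale.Agent.P253W.C
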