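import Vale.Agent.P253W.C.Defs0

/-!
# P253W, row C.EIG: inequalities for positive matrices
-/

open scoped ComplexConjugate ComplexOrder Matrix
open Matrix

noncomputable section

namespace Vale.Agent.P253W.C

namespace Eig

variable {m : ℕ}

theorem dot_diag (l : Fin m → ℝ) (y : Fin m → ℂ) :
    (star y ⬝ᵥ (diagonal (fun i => (l i : ℂ)) *ᵥ y)).re = ∑ i, l i * ‖y i‖ ^ 2 := by
  rw [dotProduct, Complex.re_sum]
  refine Finset.sum_congr rfl fun i _ => ?_
  rw [mulVec_diagonal, Pi.star_apply, mul_left_comm, Complex.star_def, Complex.conj_mul',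
    ← Complex.ofReal_pow, ← Complex.ofReal_mul, Complex.ofReal_re]

theorem qv_conj (U : Matrix (Fin m) (Fin m) ℂ) (l : Fin m → ℝ) (v : Fin m → ℂ) :
    qv (U * diagonal (fun i => (l i : ℂ)) * Uᴴ) v = ∑ i, l i * ‖(Uᴴ *ᵥ star v) i‖ ^ 2 := by
  rw [← dot_diag, qv, star_mulVec, conjTranspose_conjTranspose, star_star, ← mulVec_mulVec,
    ← mulVec_mulVec, dotProduct_mulVec v U]

theorem nrm_conj {U : Matrix (Fin m) (Fin m) ℂ} (hU : U * Uᴴ = 1) (v : Fin m → ℂ) :
    ∑ i, ‖(Uᴴ *ᵥ star v) i‖ ^ 2 = ∑ i, ‖v i‖ ^ 2 := by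
  have h := qv_conj U (fun _ => 1) v
  have h1 := qv_conj (1 : Matrix (Fin m) (Fin m) ℂ) (fun _ => 1) v
  simp only [Complex.ofReal_one, diagonal_one, mul_one, one_mul, hU, conjTranspose_one,
    one_mulVec, Pi.star_apply, norm_star] at h h1
  rw [← h, h1]

/-- the spectral theorem -/
theorem spec {P : Matrix (Fin m) (Fin m) ℂ} (h : P.IsHermitian) :
    ∃ U : Matrix (Fin m) (Fin m) ℂ, U * Uᴴ = 1 ∧ Uᴴ * U = 1 ∧
      P = U * diagonal (fun i => (h.eigenvalues i : ℂ)) * Uᴴ :=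
  ⟨h.eigenvectorUnitary, h.eigenvectorUnitary.2.2, h.eigenvectorUnitary.2.1, h.spectral_theorem⟩

theorem det_re {P : Matrix (Fin m) (Fin m) ℂ} (h : P.IsHermitian) :
    P.det.re = ∏ i, h.eigenvalues i := by
  rw [h.det_eq_prod_eigenvalues]
  exact (congrArg Complex.re (Complex.ofReal_prod _ _).symm).trans (Complex.ofReal_re _)

theorem exists_vec {P : Matrix (Fin m) (Fin m) ℂ} (h : P.IsHermitian) (i : Fin m) :
    ∃ v : Fin m → ℂ, ∑ i, ‖v i‖ ^ 2 = 1 ∧ qv P v = h.eigenvalues i := by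
  obtain ⟨U, h1, h2, h3⟩ := spec h
  have h4 : Uᴴ *ᵥ star (star (U *ᵥ Pi.single i 1)) = Pi.single i 1 := by
    rw [star_star, mulVec_mulVec, h2, one_mulVec]
  refine ⟨star (U *ᵥ Pi.single i 1), ?_, ?_⟩
  · rw [← nrm_conj h1, h4, Finset.sum_eq_single i] <;> simp +contextual
  · conv_lhs => rw [h3]
    rw [qv_conj, h4, Finset.sum_eq_single i] <;> simp +contextual

theorem inv_eq {U : Matrix (Fin m) (Fin m) ℂ} (h1 : U * Uᴴ = 1) (h2 : Uᴴ * U = 1) {l : Fin m → ℝ}
    (hl : ∀ i, 0 < l i) : (U * diagonal (fun i => (l i : ℂ)) * Uᴴ)⁻¹ =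
      U * diagonal (fun i => (((l i)⁻¹ : ℝ) : ℂ)) * Uᴴ := by
  refine inv_eq_right_inv ?_
  have h3 : (fun i => (l i : ℂ) * ((l i)⁻¹ : ℝ)) = fun _ => 1 := funext fun i => by
    rw [← Complex.ofReal_mul, mul_inv_cancel₀ (hl i).ne', Complex.ofReal_one]
  simp only [Matrix.mul_assoc]
  rw [← Matrix.mul_assoc Uᴴ, h2, Matrix.one_mul, ← Matrix.mul_assoc (diagonal _),
    diagonal_mul_diagonal, h3, diagonal_one, Matrix.one_mul, h1]

end Eig

open Eig

/-- **Row EIG.** -/
theorem eig (m : ℕ) : EIG m where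
  inv P E hP hE hd c := by
    obtain ⟨U, h1, h2, h3⟩ := spec hP.1
    have hl := hP.eigenvalues_pos
    set l := hP.1.eigenvalues
    have h4 : ∀ i, l i ≤ m * E := fun i => by
      have h5 : ∑ j, l j = ∑ j, (P j j).re := by
        rw [← Complex.re_sum]
        exact ((congrArg Complex.re hP.1.trace_eq_sum_eigenvalues).trans
          ((congrArg Complex.re (Complex.ofReal_sum _ _).symm).trans (Complex.ofReal_re _))).symm
      refine (Finset.single_le_sum (fun j _ => (hl j).le) (Finset.mem_univ i)).trans ?_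
      rw [h5]
      simpa using Finset.sum_le_card_nsmul Finset.univ (fun j => (P j j).re) E fun j _ => hd j
    have h5 : qv P⁻¹ c = ∑ i, (l i)⁻¹ * ‖(Uᴴ *ᵥ star c) i‖ ^ 2 := by
      rw [← qv_conj, ← inv_eq h1 h2 hl, ← h3]
    rw [h5, ← nrm_conj h1, det_re hP.1, Finset.mul_sum, Finset.mul_sum, Finset.mul_sum]
    refine ⟨Finset.sum_le_sum fun i _ => ?_, Finset.sum_le_sum fun i _ => ?_⟩
    · rw [← mul_assoc]
      exact le_mul_of_one_le_left (by positivity) ((le_mul_inv_iff₀ (hl i)).2 (by simpa using h4 i))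
    · rw [← mul_assoc]
      refine mul_le_mul_of_nonneg_right ?_ (by positivity)
      have h6 : (1 : ℝ) ≤ m * E := one_le_mul_of_one_le_of_one_le (by exact_mod_cast i.pos) hE
      rw [← Finset.mul_prod_erase _ _ (Finset.mem_univ i), mul_comm (l i),
        mul_inv_cancel_right₀ (hl i).ne']
      refine (Finset.prod_le_prod (fun j _ => (hl j).le) fun j _ => h4 j).trans ?_
      rw [Finset.prod_const]
      exact pow_le_pow_right₀ h6 ((Finset.card_le_univ _).trans (by simp))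
  low P l hP hl h := by
    have h1 : ∀ i, l ≤ hP.eigenvalues i := fun i => by
      obtain ⟨v, h1, h2⟩ := exists_vec hP i
      simpa [h1, h2] using h v
    refine ⟨hP.posDef_iff_eigenvalues_pos.2 fun i => hl.trans_le (h1 i), ?_⟩
    rw [det_re hP]
    simpa using Finset.prod_le_prod (s := Finset.univ) (fun _ _ => hl.le) fun i _ => h1 i
  up P L hP h := by
    have h1 : ∀ i, hP.1.eigenvalues i ≤ L := fun i => by
      obtain ⟨v, h1, h2⟩ := exists_vec hP.1 i
      simpa [h1, h2] using h v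
    rw [det_re hP.1]
    simpa using Finset.prod_le_prod (s := Finset.univ) (fun i _ => (hP.eigenvalues_pos i).le)
      fun i _ => h1 i
  onb P hP := by
    obtain ⟨U, h1, h2, h3⟩ := spec hP.1
    have hl := hP.eigenvalues_pos
    set l := hP.1.eigenvalues
    let Dg : Matrix (Fin m) (Fin m) ℂ := diagonal fun i => ((√(l i))⁻¹ : ℝ)
    refine ⟨(U * Dg)ᴴᵀ, fun v => ?_, ?_⟩
    · have h4 : Uᴴ *ᵥ star ((U * Dg)ᴴᵀ *ᵥ v) = Dg *ᵥ star v := by
        rw [mulVec_transpose, star_vecMul, conjTranspose_conjTranspose, mulVec_mulVec,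
          ← Matrix.mul_assoc, h2, Matrix.one_mul]
      rw [h3, qv_conj, h4]
      refine Finset.sum_congr rfl fun i _ => ?_
      rw [mulVec_diagonal, norm_mul, Pi.star_apply, norm_star, Complex.norm_real, mul_pow,
        Real.norm_eq_abs, sq_abs, inv_pow, Real.sq_sqrt (hl i).le, mul_inv_cancel_left₀ (hl i).ne']
    · have h4 : ‖U.det‖ ^ 2 = 1 := by
        have h5 := congrArg (fun A => ‖det A‖) h1
        simpa [sq] using h5
      rw [det_transpose, det_conjTranspose, norm_star, det_mul, norm_mul, mul_pow, h4, one_mul,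
        det_diagonal, norm_prod, det_re hP.1, ← Finset.prod_pow, ← Finset.prod_mul_distrib]
      refine Finset.prod_eq_one fun i _ => ?_
      rw [Complex.norm_real, Real.norm_eq_abs, sq_abs, inv_pow, Real.sq_sqrt (hl i).le,
        inv_mul_cancel₀ (hl i).ne']
  col L hm := by
    have : Nonempty (Fin m) := ⟨⟨0, hm⟩⟩
    obtain ⟨i, hi⟩ := Finite.exists_max fun i => ‖L *ᵥ Pi.single i 1‖
    refine ⟨i, ?_⟩
    have h := det_le (A := L) (abv := IsAbsoluteValue.toAbsoluteValue (‖·‖ : ℂ → ℝ))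
      (x := ‖L *ᵥ Pi.single i 1‖) fun a j => by
        refine le_trans ?_ (hi j)
        simpa using norm_le_pi_norm (L *ᵥ Pi.single j 1) a
    simpa using h
  dual P ξ B hP hB h := by
    have h1 := h (star (P⁻¹ *ᵥ ξ))
    have h2 : ξ ⬝ᵥ star (P⁻¹ *ᵥ ξ) = star (star ξ ⬝ᵥ (P⁻¹ *ᵥ ξ)) := by
      rw [star_dotProduct, star_star, dotProduct_comm]
    rw [qv, star_star, mulVec_mulVec, mul_nonsing_inv _ hP.det_pos.ne'.isUnit, one_mulVec,
      dotProduct_comm (star _), h2, norm_star, Complex.star_def, Complex.conj_re] at h1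
    set t := star ξ ⬝ᵥ (P⁻¹ *ᵥ ξ)
    have h3 : t.re ^ 2 ≤ ‖t‖ ^ 2 := by
      rw [← sq_abs]
      exact pow_le_pow_left₀ (abs_nonneg _) (Complex.abs_re_le_norm t) 2
    nlinarith

end Vale.Agent.P253W.C
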