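import Vale.Agent.P253W.C.Defs0

/-!
# P253W, block C: reduction of the rank
-/

open scoped Topology ComplexConjugate ComplexOrder Matrix
open Set Metric Filter Matrix
open Vale.Agent.P272.GJ (ddb ddb_eq)

noncomputable section

namespace Vale.Agent.P253W.C

namespace Red

variable {m : ℕ} {H : Matrix (Fin (m + 1)) (Fin (m + 1)) ℂ}

theorem hf_eq {n : ℕ} (H : Matrix (Fin n) (Fin n) ℂ) (x y : Fin n → ℂ) :
    hf H x y = ∑ i, ∑ j, conj (x i) * H i j * y j := by
  simp [hf, dotProduct, mulVec, Finset.mul_sum, mul_assoc]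

theorem hf_conj {n : ℕ} {H : Matrix (Fin n) (Fin n) ℂ} (h : H.IsHermitian) (x y : Fin n → ℂ) :
    conj (hf H x y) = hf H y x := by
  rw [hf_eq, hf_eq, Finset.sum_comm]
  simp only [map_sum, map_mul, Complex.conj_conj]
  refine Finset.sum_congr rfl fun i _ => Finset.sum_congr rfl fun j _ => ?_
  rw [show conj (H j i) = H i j from h.apply i j]
  ring

theorem hf_cons (H : Matrix (Fin (m + 1)) (Fin (m + 1)) ℂ) (a b : ℂ) (x : Fin m → ℂ) :
    hf H (Fin.cons a (b • x)) (Fin.cons a (b • x)) = conj a * a * H 0 0 +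
      conj a * hf H (Pi.single 0 1) (Fin.cons 0 x) * b +
      conj b * hf H (Fin.cons 0 x) (Pi.single 0 1) * a +
      conj b * b * hf H (Fin.cons 0 x) (Fin.cons 0 x) := by
  rw [show (Fin.cons a (b • x) : Fin (m + 1) → ℂ) = a • Pi.single 0 1 + b • Fin.cons 0 x from
    funext (Fin.cases (by simp) (by simp)),
    show H 0 0 = hf H (Pi.single 0 1) (Pi.single 0 1) by simp [hf_eq, Pi.single_apply]]
  simp only [hf, star_add, star_smul, mulVec_add, mulVec_smul, add_dotProduct, dotProduct_add,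
    smul_dotProduct, dotProduct_smul, smul_eq_mul, Complex.star_def]
  ring

theorem re_cons (h : H.IsHermitian) (a b : ℂ) (x : Fin m → ℂ) :
    (hf H (Fin.cons a (b • x)) (Fin.cons a (b • x))).re = (H 0 0).re * ‖a‖ ^ 2 +
      2 * (conj a * hf H (Pi.single 0 1) (Fin.cons 0 x) * b).re +
      (hf H (Fin.cons 0 x) (Fin.cons 0 x)).re * ‖b‖ ^ 2 := by
  have e : conj b * hf H (Fin.cons 0 x) (Pi.single 0 1) * a =
      conj (conj a * hf H (Pi.single 0 1) (Fin.cons 0 x) * b) := by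
    rw [← hf_conj h, map_mul, map_mul, Complex.conj_conj]; ring
  rw [hf_cons, e, Complex.conj_mul', Complex.conj_mul', ← Complex.ofReal_pow, ← Complex.ofReal_pow]
  simp only [Complex.add_re, Complex.re_ofReal_mul, Complex.conj_re]
  ring

theorem hf_red (H : Matrix (Fin (m + 1)) (Fin (m + 1)) ℂ) (x : Fin m → ℂ) :
    hf (red H) x x = H 0 0 * hf H (Fin.cons 0 x) (Fin.cons 0 x) -
      hf H (Fin.cons 0 x) (Pi.single 0 1) * hf H (Pi.single 0 1) (Fin.cons 0 x) := by
  simp only [hf_eq, red, of_apply, Fin.sum_univ_succ, Fin.cons_zero, Fin.cons_succ,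
    Pi.single_eq_same, Pi.single_eq_of_ne (Fin.succ_ne_zero _), map_zero, map_one,
    zero_mul, mul_zero, one_mul, mul_one, Finset.sum_const_zero, add_zero, zero_add,
    Finset.sum_mul_sum, Finset.mul_sum _ _ (H 0 0), ← Finset.sum_sub_distrib]
  exact Finset.sum_congr rfl fun _ _ => Finset.sum_congr rfl fun _ _ => by ring

theorem diag_re {n : ℕ} {H : Matrix (Fin n) (Fin n) ℂ} (h : H.IsHermitian) (i : Fin n) :
    H i i = (H i i).re := (h.coe_re_apply_self i).symm

theorem re_red (h : H.IsHermitian) (x : Fin m → ℂ) : (hf (red H) x x).re =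
    (H 0 0).re * (hf H (Fin.cons 0 x) (Fin.cons 0 x)).re -
      ‖hf H (Pi.single 0 1) (Fin.cons 0 x)‖ ^ 2 := by
  rw [hf_red, ← hf_conj h (Pi.single 0 1), Complex.conj_mul', diag_re h, ← Complex.ofReal_pow]
  simp only [Complex.sub_re, Complex.re_ofReal_mul, Complex.ofReal_re]

theorem re_pos {n : ℕ} {H : Matrix (Fin n) (Fin n) ℂ} (h : H.PosDef) (i : Fin n) :
    0 < (H i i).re := (Complex.pos_iff.1 h.diag_pos).1

theorem red_herm (h : H.IsHermitian) : (red H).IsHermitian := IsHermitian.ext fun i j => by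
  simp only [red, of_apply, star_sub, star_mul', h.apply]
  ring

theorem red_pos (h : H.PosDef) : (red H).PosDef := by
  refine .of_dotProduct_mulVec_pos (red_herm h.1) fun x hx => Complex.pos_iff.2 ⟨?_,
    (Complex.conj_eq_iff_im.1 (hf_conj (red_herm h.1) x x)).symm⟩
  have a0 := re_pos h 0
  have := h.re_dotProduct_pos (x := Fin.cons (-hf H (Pi.single 0 1) (Fin.cons 0 x))
    ((((H 0 0).re : ℝ) : ℂ) • x)) fun e => hx (funext fun i => by
      simpa [a0.ne'] using congrFun e i.succ)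
  change 0 < (hf _ _ _).re at this ⊢
  rw [re_cons h.1, map_neg, neg_mul, Complex.conj_mul', ← Complex.ofReal_pow, norm_neg,
    Complex.norm_real, Real.norm_eq_abs, sq_abs] at this
  rw [re_red h.1]
  refine pos_of_mul_pos_left ?_ a0.le
  simp only [neg_mul, Complex.neg_re, Complex.re_ofReal_mul, Complex.ofReal_re] at this
  linarith

theorem det_red (h : H 0 0 ≠ 0) : H 0 0 * (red H).det = H 0 0 ^ m * H.det := by
  have e := det_eq_of_forall_row_eq_smul_add_const (B := H)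
    (A := of fun i j => H i j + (Fin.cons 0 fun i => -(H i.succ 0 / H 0 0) : Fin _ → ℂ) i * H 0 j)
    _ 0 rfl fun _ _ => rfl
  rw [← e, det_succ_column_zero, Fin.sum_univ_succ, Finset.sum_eq_zero fun i _ => by simp [h],
    show red H = H 0 0 • of fun i j => H i.succ j.succ + -(H i.succ 0 / H 0 0) * H 0 j.succ from ?_,
    det_smul, Fintype.card_fin, mul_left_comm]
  · simp only [Fin.val_zero, pow_zero, of_apply, Fin.cons_zero, zero_mul, add_zero, one_mul]
    rfl
  · ext i j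
    simp only [red, of_apply, Matrix.smul_apply, smul_eq_mul]
    field_simp
    ring

theorem det_re {n : ℕ} {H : Matrix (Fin n) (Fin n) ℂ} (h : H.PosDef) :
    0 < H.det.re := (Complex.pos_iff.1 h.det_pos).1

theorem det_red_re (h : H.PosDef) : (H 0 0).re * (red H).det.re = (H 0 0).re ^ m * H.det.re := by
  have := congrArg Complex.re (det_red h.diag_pos.ne')
  rwa [diag_re h.1, ← Complex.ofReal_pow, Complex.re_ofReal_mul, Complex.re_ofReal_mul] at this

theorem red_diag (h : H.IsHermitian) (i : Fin m) :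
    (red H i i).re ≤ (H 0 0).re * (H i.succ i.succ).re := by
  rw [red, of_apply, ← h.apply 0 i.succ, diag_re h, Complex.star_def, Complex.mul_conj',
    ← Complex.ofReal_pow, Complex.sub_re, Complex.re_ofReal_mul, Complex.ofReal_re]
  exact sub_le_self _ (sq_nonneg _)

/-- the inequality of Hadamard -/
theorem hadamard {n : ℕ} {H : Matrix (Fin n) (Fin n) ℂ} (h : H.PosDef) :
    H.det.re ≤ ∏ i, (H i i).re := by
  induction n with
  | zero => simp
  | succ n ih =>
    have a0 := re_pos h 0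
    refine le_of_mul_le_mul_left ?_ (pow_pos a0 n)
    rw [← det_red_re h, Fin.prod_univ_succ, mul_left_comm]
    refine mul_le_mul_of_nonneg_left ((ih (red_pos h)).trans ((Finset.prod_le_prod
      (fun i _ => (re_pos (red_pos h) i).le) fun i _ => red_diag h.1 i).trans_eq ?_)) a0.le
    simp [Finset.prod_mul_distrib]

theorem ex_max {a b : ℝ} {τ : ℂ} (h : τ ∈ ex (max a b)) : τ ∈ ex a ∧ τ ∈ ex b :=
  (max_lt_iff (a := ‖τ‖)).1 h

theorem up_add {w v : ℂ → ℝ} {k l : ℝ} (h : Up w k) (h' : Up v l) :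
    Up (fun τ => w τ + v τ) (k + l) := fun η hη => by
  obtain ⟨a, ha⟩ := h _ (half_pos hη)
  obtain ⟨b, hb⟩ := h' _ (half_pos hη)
  exact ⟨max a b, fun τ hτ => (add_le_add (ha τ (ex_max hτ).1)
    (hb τ (ex_max hτ).2)).trans_eq (by ring)⟩

theorem up_le {w v : ℂ → ℝ} {k : ℝ} (ρ : ℝ) (h : Up v k) (e : ∀ τ ∈ ex ρ, w τ ≤ v τ) : Up w k :=
  fun η hη => let ⟨a, ha⟩ := h η hη
    ⟨max a ρ, fun τ hτ => (e τ (ex_max hτ).2).trans (ha τ (ex_max hτ).1)⟩

theorem up_sum {ι : Type} (t : Finset ι) {w : ι → ℂ → ℝ} {k : ℝ} (h : ∀ i, Up (w i) k) :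
    Up (fun τ => ∑ i ∈ t, w i τ) (t.card * k) := by
  classical
  induction t using Finset.induction_on with
  | empty => exact fun η hη => ⟨1, fun τ hτ => by
      simpa [lg] using mul_nonneg hη.le (Real.log_nonneg (one_le_pow₀ (n := 2) (le_of_lt hτ)))⟩
  | insert a t ha ih =>
    simpa [Finset.sum_insert ha, Finset.card_insert_of_notMem ha, add_mul, add_comm]
      using up_add (h a) ih

theorem ddb_congr {φ ψ : ℂ → ℝ} {z : ℂ} (h : φ =ᶠ[𝓝 z] ψ) : ddb φ z = ddb ψ z := by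
  have h1 : ∀ v : ℂ, (fun w => fderiv ℝ φ w v) =ᶠ[𝓝 z] fun w => fderiv ℝ ψ w v := fun v =>
    h.eventuallyEq_nhds.mono fun w hw => by simp only [hw.fderiv_eq]
  rw [ddb, ddb, (h1 1).fderiv_eq, (h1 Complex.I).fderiv_eq]

theorem ddb_add {φ ψ : ℂ → ℝ} {z : ℂ} (h : ContDiffAt ℝ 2 φ z) (h' : ContDiffAt ℝ 2 ψ z) :
    ddb (fun w => φ w + ψ w) z = ddb φ z + ddb ψ z := by
  rw [ddb_eq (h.add h'), ddb_eq h, ddb_eq h']
  have h1 : (fderiv ℝ fun w => φ w + ψ w) =ᶠ[𝓝 z] fun w => fderiv ℝ φ w + fderiv ℝ ψ w := by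
    filter_upwards [h.eventually (by simp), h'.eventually (by simp)] with w hw hw'
    exact fderiv_fun_add (hw.differentiableAt (by norm_num)) (hw'.differentiableAt (by norm_num))
  rw [h1.fderiv_eq, fderiv_fun_add
    ((h.fderiv_right (m := 1) (by norm_num)).differentiableAt (by norm_num))
    ((h'.fderiv_right (m := 1) (by norm_num)).differentiableAt (by norm_num))]
  simp only [_root_.add_apply]
  ring

theorem ddb_min {φ : ℂ → ℝ} {z : ℂ} (h : ContDiffAt ℝ 2 φ z) (hm : IsLocalMin φ z) :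
    0 ≤ ddb φ z := by
  have key : ∀ v : ℂ, 0 ≤ fderiv ℝ (fderiv ℝ φ) z v v := fun v => by
    have l : ∀ t : ℝ, HasDerivAt (fun t : ℝ => z + t • v) v t := fun t => by
      simpa using ((hasDerivAt_id t).smul_const v).const_add z
    have c : Tendsto (fun t : ℝ => z + t • v) (𝓝 0) (𝓝 z) := by
      simpa using (l 0).continuousAt.tendsto
    have m : IsLocalMin (fun t : ℝ => φ (z + t • v)) 0 :=
      (c.eventually hm).mono fun t ht => by simpa using ht
    have d1 : deriv (fun t : ℝ => φ (z + t • v)) =ᶠ[𝓝 0] fun t => fderiv ℝ φ (z + t • v) v :=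
      (c.eventually (h.eventually (by simp))).mono fun t ht =>
        ((ht.differentiableAt (by norm_num)).hasFDerivAt.comp_hasDerivAt t (l t)).deriv
    have d2 : deriv (deriv fun t : ℝ => φ (z + t • v)) 0 = fderiv ℝ (fderiv ℝ φ) z v v := by
      rw [d1.deriv_eq]
      simpa using (((((h.fderiv_right (m := 1) (by norm_num)).differentiableAt
        (by norm_num)).hasFDerivAt.comp_hasDerivAt_of_eq 0 (l 0) (by simp))).clm_apply
          (hasDerivAt_const (0 : ℝ) v)).deriv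
    by_contra! n
    have e : (fun t : ℝ => φ (z + t • v)) =ᶠ[𝓝 0] fun _ => φ (z + (0 : ℝ) • v) :=
      (m.and (isLocalMax_of_deriv_deriv_neg (d2 ▸ n) m.deriv_eq_zero
        (h.continuousAt.comp_of_eq (l 0).continuousAt (by simp)))).mono
          fun t ht => le_antisymm ht.2 ht.1
    rw [← d2, e.deriv.deriv_eq] at n
    simp at n
  rw [ddb_eq h]
  exact div_nonneg (add_nonneg (key _) (key _)) (by norm_num)

theorem cd_hf {n : ℕ} {H : ℂ → Matrix (Fin n) (Fin n) ℂ} {x y : ℂ → Fin n → ℂ} {z : ℂ}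
    (h : ∀ i j, ContDiffAt ℝ 2 (fun τ => H τ i j) z) (hx : AnalyticAt ℂ x z)
    (hy : AnalyticAt ℂ y z) : ContDiffAt ℝ 2 (fun τ => hf (H τ) (x τ) (y τ)) z := by
  simp only [hf_eq]
  exact ContDiffAt.sum fun i _ => ContDiffAt.sum fun j _ =>
    ((Complex.conjCLE.contDiff.contDiffAt.comp z
      ((analyticAt_pi_iff.1 hx i).contDiffAt.restrict_scalars ℝ)).mul (h i j)).mul
        ((analyticAt_pi_iff.1 hy j).contDiffAt.restrict_scalars ℝ)

theorem cd_re {f : ℂ → ℂ} {z : ℂ} (h : ContDiffAt ℝ 2 f z) :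
    ContDiffAt ℝ 2 (fun τ => (f τ).re) z := Complex.reCLM.contDiff.contDiffAt.comp z h

theorem an_cons {a : ℂ → ℂ} {x : ℂ → Fin m → ℂ} {z : ℂ} (ha : AnalyticAt ℂ a z)
    (hx : AnalyticAt ℂ x z) : AnalyticAt ℂ (fun τ => (Fin.cons (a τ) (x τ) : Fin (m + 1) → ℂ)) z :=
  analyticAt_pi_iff.2 (Fin.cases ha (analyticAt_pi_iff.1 hx))

end Red

open Red in
/-- **RED** -/
theorem red_neg (h1 : R2A) : RED := fun m ρ H h => by
  have op : ∀ τ ∈ ex ρ, ex ρ ∈ 𝓝 τ := fun τ hτ =>
    (isOpen_lt continuous_const continuous_norm).mem_nhds hτ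
  have sm : ∀ τ ∈ ex ρ, ∀ i j, ContDiffAt ℝ 2 (fun s => H s i j) τ := fun τ hτ i j =>
    (h.sm i j).contDiffAt (op τ hτ)
  have n2 : ∀ τ ∈ ex ρ, ∀ x : ℂ → Fin m → ℂ, AnalyticAt ℂ x τ → N2 (fun s => (H s 0 0).re)
      (fun s => hf (H s) (Pi.single 0 1) (Fin.cons 0 (x s)))
      (fun s => (hf (H s) (Fin.cons 0 (x s)) (Fin.cons 0 (x s))).re) τ := fun τ hτ x hx a b ha hb =>
    (h.neg τ hτ _ (an_cons ha (hb.smul hx))).trans_eq (ddb_congr
      (mem_of_superset (op τ hτ) fun s hs => re_cons (h.pos s hs).1 _ _ _))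
  obtain ⟨C, hC⟩ := h.up
  obtain ⟨D, hD⟩ := h.low
  have lo := up_le (w := fun τ => -Real.log (H τ 0 0).re) ρ (up_add hD
    (up_sum Finset.univ fun i : Fin m => hC i.succ)) fun τ hτ => by
      have := Real.log_le_log (det_re (h.pos τ hτ)) (hadamard (h.pos τ hτ))
      rw [Real.log_prod fun i _ => (re_pos (h.pos τ hτ) i).ne', Fin.sum_univ_succ] at this
      linarith
  refine ⟨⟨fun i j => ((h.sm _ _).mul (h.sm _ _)).sub ((h.sm _ _).mul (h.sm _ _)),
    fun τ hτ => red_pos (h.pos τ hτ), fun τ hτ x hx => ?_, ⟨_, fun i => up_le ρ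
      (up_add (hC 0) (hC i.succ)) fun τ hτ => ?_⟩, _, up_le ρ (up_add (up_add hD (hC 0))
        (up_sum (Finset.univ : Finset (Fin m)) fun _ => lo)) fun τ hτ => ?_⟩, ⟨_, lo⟩,
    fun τ hτ => ⟨?_, det_red_re (h.pos τ hτ), re_red (h.pos τ hτ).1⟩⟩
  · have c := an_cons (analyticAt_const (v := (0 : ℂ))) hx
    by_cases e : x τ = 0
    · refine ddb_min (cd_re (cd_hf (fun i j => ((sm τ hτ _ _).mul (sm τ hτ _ _)).sub
        ((sm τ hτ _ _).mul (sm τ hτ _ _))) hx hx)) (mem_of_superset (op τ hτ) fun s hs => ?_)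
      simpa [e, hf] using (red_pos (h.pos s hs)).posSemidef.re_dotProduct_nonneg (x s)
    · exact (h1 _ _ _ τ (cd_re (sm τ hτ 0 0)) (cd_hf (sm τ hτ) analyticAt_const c)
        (cd_re (cd_hf (sm τ hτ) c c)) (re_pos (h.pos τ hτ) 0) (sub_pos.1 (re_red (h.pos τ hτ).1 _ ▸
          (red_pos (h.pos τ hτ)).re_dotProduct_pos e)) (n2 τ hτ x hx)).1.trans_eq (ddb_congr
            (mem_of_superset (op τ hτ) fun s hs => (re_red (h.pos s hs).1 _).symm))
  · rw [← Real.log_mul (re_pos (h.pos τ hτ) _).ne' (re_pos (h.pos τ hτ) _).ne']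
    exact Real.log_le_log (re_pos (red_pos (h.pos τ hτ)) i) (red_diag (h.pos τ hτ).1 i)
  · have := congrArg Real.log (det_red_re (h.pos τ hτ))
    rw [Real.log_mul (re_pos (h.pos τ hτ) _).ne' (det_re (red_pos (h.pos τ hτ))).ne',
      Real.log_mul (pow_pos (re_pos (h.pos τ hτ) _) _).ne' (det_re (h.pos τ hτ)).ne',
      Real.log_pow] at this
    simp only [Finset.sum_const, Finset.card_univ, Fintype.card_fin, nsmul_eq_mul]
    linarith
  · have a0 := re_pos (h.pos τ hτ) 0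
    have a1 := cd_re (sm τ hτ 0 0)
    have k : ∀ a : ℂ → ℂ, AnalyticAt ℂ a τ → ContDiffAt ℝ 2 (fun s => (H s 0 0).re * ‖a s‖ ^ 2) τ ∧
        0 ≤ ddb (fun s => (H s 0 0).re * ‖a s‖ ^ 2) τ := fun a ha =>
      ⟨a1.mul ((ha.contDiffAt.restrict_scalars ℝ).norm_sq ℂ), by
        have := n2 τ hτ _ (analyticAt_const (v := 0)) a _ ha (analyticAt_const (v := 0))
        unfold q2 at this
        simpa using this⟩
    have := (h1 _ _ (fun _ => 0) τ a1 contDiffAt_const a1 a0 (by simpa using a0.ne')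
      fun a b ha hb => by
        unfold q2
        simpa [ddb_add (k a ha).1 (k b hb).1] using add_nonneg (k a ha).2 (k b hb).2).2
    refine nonneg_of_mul_nonneg_left (le_trans (by positivity) this) ?_
    simpa using a0.ne'

end Vale.Agent.P253W.C
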