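import Vale.Agent.P253W.C.Basic
import Vale.Agent.P253W.C.Red

/-!
# P253W, block C, row FRA: an orthogonal frame for the slopes
-/

open scoped Topology ComplexConjugate ComplexOrder Matrix
open Set Filter Bornology Matrix
open Vale.Agent.P272.GJ (ddb)

noncomputable section

namespace Vale.Agent.P253W.C

open Red

namespace Fra

variable {f g : ℂ → ℂ}

theorem pb_of {N : ℕ} (h : ∀ᶠ τ in cobounded ℂ, ‖f τ‖ ≤ ‖τ‖ ^ N) : PB f := ⟨N, ev_iff.2 h⟩

theorem pb_const (c : ℂ) : PB fun _ => c := ⟨1, ‖c‖, fun τ hτ => by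
  rw [pow_one]; exact le_of_lt hτ⟩

theorem pb_le (h : PB f) (e : ∀ τ, ‖g τ‖ ≤ ‖f τ‖) : PB g :=
  let ⟨N, ρ, h⟩ := h
  ⟨N, ρ, fun τ hτ => (e τ).trans (h τ hτ)⟩

theorem pb_mul (h : PB f) (h' : PB g) : PB fun τ => f τ * g τ := by
  obtain ⟨N, h⟩ := h
  obtain ⟨N', h'⟩ := h'
  refine pb_of (N := N + N') ?_
  filter_upwards [ev_iff.1 h, ev_iff.1 h'] with τ h1 h2
  rw [norm_mul, pow_add]
  exact mul_le_mul h1 h2 (norm_nonneg _) (by positivity)

theorem pb_add (h : PB f) (h' : PB g) : PB fun τ => f τ + g τ := by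
  obtain ⟨N, h⟩ := h
  obtain ⟨N', h'⟩ := h'
  refine pb_of (N := N + N' + 1) ?_
  filter_upwards [ev_iff.1 h, ev_iff.1 h', ex_mem 2] with τ h1 h2 h3
  have h4 : 2 ≤ ‖τ‖ := le_of_lt h3
  have h5 := pow_le_pow_right₀ (one_le_two.trans h4) (Nat.le_add_right N N')
  have h6 := pow_le_pow_right₀ (one_le_two.trans h4) (Nat.le_add_left N' N)
  have h7 := mul_le_mul_of_nonneg_left h4 (pow_nonneg (norm_nonneg τ) (N + N'))
  rw [pow_succ]
  linarith [norm_add_le (f τ) (g τ)]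

theorem pb_sum {ι : Type} (t : Finset ι) {F : ι → ℂ → ℂ} (h : ∀ i, PB (F i)) :
    PB fun τ => ∑ i ∈ t, F i τ := by
  classical
  induction t using Finset.induction_on with
  | empty => simpa using pb_const 0
  | insert a t ha ih => simpa [Finset.sum_insert ha] using pb_add (h a) ih

theorem entry_le {n : ℕ} {H : Matrix (Fin n) (Fin n) ℂ} (h : H.PosDef) (i j : Fin n) :
    ‖H i j‖ ^ 2 ≤ (H i i).re * (H j j).re := by
  have h1 := (Complex.nonneg_iff.1 (h.posSemidef.submatrix ![i, j]).det_nonneg).1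
  rw [det_fin_two] at h1
  simp only [submatrix_apply, cons_val_zero, cons_val_one] at h1
  rw [← h.1.apply j i, diag_re h.1 i, Complex.star_def, Complex.mul_conj', ← Complex.ofReal_pow,
    Complex.sub_re, Complex.re_ofReal_mul, Complex.ofReal_re] at h1
  exact sub_nonneg.1 h1

theorem pb_entry {n : ℕ} {ρ : ℝ} {H : ℂ → Matrix (Fin n) (Fin n) ℂ} (h : Neg ρ H) (i j : Fin n) :
    PB fun τ => H τ i j := by
  obtain ⟨C, hC⟩ := h.up
  refine pb_of_exp (C := C + C + 1) ?_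
  filter_upwards [((hC i).add (hC j)).ev one_pos, ex_mem ρ] with τ h1 hτ
  refine le_trans ?_ (Real.exp_le_exp.2 h1)
  rw [Real.exp_add, Real.exp_log (re_pos (h.pos τ hτ) i), Real.exp_log (re_pos (h.pos τ hτ) j)]
  exact entry_le (h.pos τ hτ) i j

theorem up_hf {n : ℕ} {ρ : ℝ} {H : ℂ → Matrix (Fin n) (Fin n) ℂ} (h : Neg ρ H)
    {x : ℂ → Fin n → ℂ} (hx : ∀ i, PB fun τ => x τ i)
    (hp : ∀ᶠ τ in cobounded ℂ, 0 < (hf (H τ) (x τ) (x τ)).re) :
    ∃ C : ℝ, Up (fun τ => Real.log (hf (H τ) (x τ) (x τ)).re) C := by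
  have h1 : PB fun τ => hf (H τ) (x τ) (x τ) := by
    simp only [hf_eq]
    exact pb_sum _ fun i => pb_sum _ fun j => pb_mul (pb_mul (pb_le (hx i) fun τ =>
      (Complex.norm_conj _).le) (pb_entry h i j)) (hx j)
  obtain ⟨C, hC⟩ := h1.up
  refine ⟨_, (hC.const_mul (c := 1 / 2) (by norm_num)).of_le (hp.mono fun τ hτ => ?_)⟩
  have := Real.log_le_log hτ (Complex.re_le_norm _)
  rw [Real.log_pow]
  push_cast
  linarith

theorem cont_det {n : ℕ} {ρ : ℝ} {H : ℂ → Matrix (Fin n) (Fin n) ℂ} (h : Neg ρ H) :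
    ContinuousOn (fun τ => Real.log (H τ).det.re) (ex ρ) := by
  have h1 : ContinuousOn H (ex ρ) :=
    continuousOn_pi.2 fun i => continuousOn_pi.2 fun j => (h.sm i j).continuousOn
  exact (Complex.continuous_re.comp_continuousOn
    ((Continuous.matrix_det continuous_id).comp_continuousOn h1)).log
      fun τ hτ => (det_re (h.pos τ hτ)).ne'

/-- the new frame -/
def fr {m : ℕ} (h : Fin m → ℂ) (Θ : Matrix (Fin m) (Fin m) ℂ) :
    Matrix (Fin (m + 1)) (Fin (m + 1)) ℂ :=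
  (of (Fin.cons (Pi.single 0 1) fun j => Fin.cons (-h j) (Θᵀ j)))ᵀ

theorem det_fr {m : ℕ} (h : Fin m → ℂ) (Θ : Matrix (Fin m) (Fin m) ℂ) : (fr h Θ).det = Θ.det := by
  rw [det_succ_column_zero, Fin.sum_univ_succ, Finset.sum_eq_zero fun i _ => by simp [fr]]
  simp only [fr, Fin.val_zero, pow_zero, transpose_apply, of_apply, Fin.cons_zero,
    Pi.single_eq_same, one_mul, add_zero]
  rfl

end Fra

open Fra

theorem fra (h1 : SH) (h2 : RED) (h3 : R2) : FRA := by
  intro m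
  induction m with
  | zero =>
    intro ρ H _
    refine ⟨0, fun _ => 1, 0, fun i => i.elim0, fun _ _ => det_one, fun i => i.elim0,
      lo_iff.2 fun η hη => ev_lg.mono fun τ hτ s hs hs1 => ?_⟩
    simp only [det_isEmpty, Complex.one_re, Real.log_one, Real.circleAverage_const,
      Finset.univ_eq_empty, Finset.sum_empty]
    nlinarith [Real.log_nonpos hs.le hs1]
  | succ m ih =>
    intro ρ H h
    obtain ⟨hr, hca, hp⟩ := h2 m ρ H h
    have sa : ContDiffOn ℝ 2 (fun τ => (H τ 0 0).re) (ex ρ) :=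
      Complex.reCLM.contDiff.comp_contDiffOn (h.sm 0 0)
    have sl := sa.log fun τ hτ => (re_pos (h.pos τ hτ) 0).ne'
    obtain ⟨C, hC⟩ := h.up
    obtain ⟨a, ua, la, -⟩ := h1 _ ρ C sl (fun τ hτ => (hp τ hτ).1) (hC 0)
    obtain ⟨ρ', Θ, k, hΘ, hdet, hk, hlo⟩ := ih ρ _ hr
    have key : ∀ j, H2 (fun s => (H s 0 0).re)
        (fun s => (hf (H s) (Fin.cons 0 ((Θ s)ᵀ j)) (Fin.cons 0 ((Θ s)ᵀ j))).re)
        (fun s => hf (H s) (Pi.single 0 1) (Fin.cons 0 ((Θ s)ᵀ j))) (max ρ ρ') a (k j) := by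
      intro j
      have op : ∀ τ ∈ ex (max ρ ρ'), ex ρ ∈ 𝓝 τ := fun τ hτ =>
        (isOpen_ex ρ).mem_nhds (ex_max hτ).1
      have sm : ∀ τ ∈ ex (max ρ ρ'), ∀ i j, ContDiffAt ℝ 2 (fun s => H s i j) τ :=
        fun τ hτ i j => (h.sm i j).contDiffAt (op τ hτ)
      have an : ∀ τ ∈ ex (max ρ ρ'), AnalyticAt ℂ (fun s => (Θ s)ᵀ j) τ := fun τ hτ =>
        analyticAt_pi_iff.2 fun i => (hΘ i j).1.analyticAt ((isOpen_ex ρ').mem_nhds (ex_max hτ).2)
      have c := fun τ hτ => an_cons (analyticAt_const (v := (0 : ℂ))) (an τ hτ)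
      have ps : ∀ τ ∈ ex (max ρ ρ'), 0 < (H τ 0 0).re ∧
          ‖hf (H τ) (Pi.single 0 1) (Fin.cons 0 ((Θ τ)ᵀ j))‖ ^ 2 < (H τ 0 0).re *
            (hf (H τ) (Fin.cons 0 ((Θ τ)ᵀ j)) (Fin.cons 0 ((Θ τ)ᵀ j))).re := fun τ hτ => by
        refine ⟨re_pos (h.pos τ (ex_max hτ).1) 0, sub_pos.1 ?_⟩
        rw [← (hp τ (ex_max hτ).1).2.2]
        refine (hr.pos τ (ex_max hτ).1).re_dotProduct_pos fun e => ?_
        exact zero_ne_one ((det_eq_zero_of_column_eq_zero j (congrFun e)).symm.trans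
          (hdet τ (ex_max hτ).2))
      refine ⟨sa.mono (ex_mono (le_max_left _ _)),
        fun τ hτ => (cd_hf (sm τ hτ) analyticAt_const (c τ hτ)).contDiffWithinAt,
        fun τ hτ => (cd_re (cd_hf (sm τ hτ) (c τ hτ) (c τ hτ))).contDiffWithinAt, ps,
        fun τ hτ x y hx hy => (h.neg τ (ex_max hτ).1 _ (an_cons hx (hy.smul (an τ hτ)))).trans_eq
          (Red.ddb_congr (mem_of_superset (op τ hτ) fun s hs => re_cons (h.pos s hs).1 _ _ _)),
        ua, la, (hk j).of_le (mem_of_superset (ex_mem ρ) fun τ hτ => ?_), hca,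
        up_hf h (Fin.cases (pb_const 0) fun i => (hΘ i j).2)
          (mem_of_superset (ex_mem (max ρ ρ')) fun τ hτ => ?_)⟩
      · exact (congrArg Real.log ((hp τ hτ).2.2 _)).ge
      · exact pos_of_mul_pos_right ((sq_nonneg _).trans_lt (ps τ hτ).2) (ps τ hτ).1.le
    choose r g hg pg ug using fun j => h3 _ _ _ _ _ _ (key j)
    obtain ⟨R, hR⟩ := (Set.finite_range r).bddAbove
    have e1 : ∀ j, ex (max R ρ') ⊆ ex (r j) := fun j =>
      ex_mono ((hR ⟨j, rfl⟩).trans (le_max_left _ _))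
    have e2 : ex (max R ρ') ⊆ ex ρ' := ex_mono (le_max_right _ _)
    refine ⟨max R ρ', fun τ => fr (fun j => g j τ) (Θ τ), Fin.cons a fun j => k j - a,
      fun i j => ?_, fun τ hτ => (det_fr _ _).trans (hdet τ (e2 hτ)), fun j => ?_, ?_⟩
    · refine Fin.cases ⟨differentiableOn_const _, pb_const _⟩ (fun j => ?_) j
      exact Fin.cases ⟨((hg j).mono (e1 j)).neg, pb_le (pg j) fun τ => (norm_neg _).le⟩
        (fun i => ⟨(hΘ i j).1.mono e2, (hΘ i j).2⟩) i
    · refine Fin.cases (by simpa [fr, hf_eq, Pi.single_apply] using ua) (fun j => ?_) j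
      refine (ug j).of_le (mem_of_superset (ex_mem ρ) fun τ hτ => le_of_eq (congrArg Real.log ?_))
      have := re_cons (h.pos τ hτ).1 (-g j τ) 1 ((Θ τ)ᵀ j)
      rw [one_smul, norm_neg, norm_one, one_pow, mul_one, mul_one, map_neg, neg_mul,
        Complex.neg_re, mul_neg, ← sub_eq_add_neg] at this
      exact this
    · have c1 := sl.continuousOn
      have c2 := cont_det hr
      have c3 : ContinuousOn (fun τ => m * Real.log (H τ 0 0).re) (ex ρ) :=
        continuousOn_const.mul c1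
      have h4 := ((la.add hlo c1 c2).sub (ua.const_mul (Nat.cast_nonneg m)) (c1.add c2) c3).of_le
        ((c1.add c2).sub c3) (cont_det h) fun τ hτ => by
          have := congrArg Real.log (hp τ hτ).2.1
          rw [Real.log_mul (re_pos (h.pos τ hτ) _).ne' (det_re (hr.pos τ hτ)).ne',
            Real.log_mul (pow_pos (re_pos (h.pos τ hτ) _) _).ne' (det_re (h.pos τ hτ)).ne',
            Real.log_pow] at this
          linarith
      convert h4 using 1
      simp only [Fin.sum_univ_succ, Fin.cons_zero, Fin.cons_succ, Finset.sum_sub_distrib,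
        Finset.sum_const, Finset.card_univ, Fintype.card_fin, nsmul_eq_mul]
      ring

end Vale.Agent.P253W.C
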