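import Vale.Agent.P253W.C.Defs0

/-!
# P253W, row C.FRB: the frame of 5.3
-/

open scoped ComplexConjugate ComplexOrder Matrix Topology
open Matrix Set Metric Filter

noncomputable section

namespace Vale.Agent.P253W.C

namespace Frb

variable {m : ℕ}

theorem lg_eq (τ : ℂ) : lg τ = 2 * Real.log ‖τ‖ := by
  rw [lg, Real.log_pow, Nat.cast_ofNat]

theorem exists_big (ρ A : ℝ) : ∃ ρ' : ℝ, ρ ≤ ρ' ∧ 1 ≤ ρ' ∧ ∀ τ ∈ ex ρ', A ≤ Real.log ‖τ‖ :=
  ⟨max (max ρ 1) (Real.exp A), le_max_of_le_left (le_max_left _ _),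
    le_max_of_le_left (le_max_right _ _), fun _ h =>
      (Real.le_log_iff_exp_le ((Real.exp_pos A).trans ((le_max_right _ _).trans_lt h))).2
        ((le_max_right _ _).trans h.le)⟩

theorem le_of_lo_up {w : ℂ → ℝ} {a b ρ : ℝ} (hw : ContinuousOn w (ex ρ)) (h1 : Lo w a)
    (h2 : Up w b) : a ≤ b := by
  by_contra h
  have hη : 0 < (a - b) / 4 := by linarith
  obtain ⟨ρ1, h1⟩ := h1 _ hη
  obtain ⟨ρ2, h2⟩ := h2 _ hη
  set η := (a - b) / 4 with hη'
  obtain ⟨ρ3, h3, h4, h5⟩ := exists_big (max (max ρ ρ2 + 1) (max ρ1 2))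
    (|b + η| * Real.log 2 / η + 1)
  have hτ : ‖((ρ3 + 1 : ℝ) : ℂ)‖ = ρ3 + 1 := by
    rw [Complex.norm_real, Real.norm_of_nonneg (by linarith)]
  set τ : ℂ := ((ρ3 + 1 : ℝ) : ℂ)
  simp only [max_le_iff] at h3
  have h7 := le_max_left ρ ρ2
  have h8 := le_max_right ρ ρ2
  have h6 : ∀ x ∈ sphere τ |1|, ρ3 ≤ ‖x‖ ∧ ‖x‖ ≤ ρ3 + 2 := fun x hx => by
    have := abs_norm_sub_norm_le x τ
    rw [← dist_eq_norm, mem_sphere.1 hx, abs_one, abs_le, hτ] at this
    constructor <;> linarith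
  have h9 := h1 τ (by change ρ1 < _; linarith) 1 one_pos le_rfl
  have h10 : Real.circleAverage w τ 1 ≤ (b + η) * lg τ + |b + η| * (2 * Real.log 2) := by
    refine Real.circleAverage_mono_on_of_le_circle
      (hw.mono fun x hx => ?_).circleIntegrable' fun x hx => ?_
    · change ρ < _
      linarith [(h6 x hx).1]
    · obtain ⟨hx1, hx2⟩ := h6 x hx
      refine (h2 x (by change ρ2 < _; linarith)).trans ?_
      have e1 : Real.log ‖x‖ ≤ Real.log 2 + Real.log ‖τ‖ := by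
        rw [← Real.log_mul two_ne_zero (by linarith)]
        exact Real.log_le_log (by linarith) (by linarith)
      have e2 : Real.log ‖τ‖ ≤ Real.log 2 + Real.log ‖x‖ := by
        rw [← Real.log_mul two_ne_zero (by linarith)]
        exact Real.log_le_log (by linarith) (by linarith)
      have e3 : |lg x - lg τ| ≤ 2 * Real.log 2 := by
        rw [lg_eq, lg_eq, abs_le]
        constructor <;> linarith
      have e4 := (le_abs_self _).trans ((abs_mul (b + η) (lg x - lg τ)).le.trans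
        (mul_le_mul_of_nonneg_left e3 (abs_nonneg _)))
      linarith
  have h11 := h5 τ (by change ρ3 < _; linarith)
  rw [Real.log_one, mul_zero, add_zero, lg_eq] at h9
  rw [lg_eq] at h10
  have h12 := mul_le_mul_of_nonneg_left h11 hη.le
  rw [mul_add, mul_div_cancel₀ _ hη.ne'] at h12
  have h13 : a = b + 4 * η := by linarith
  have h14 : 0 ≤ |b + η| * Real.log 2 := mul_nonneg (abs_nonneg _) (Real.log_nonneg one_le_two)
  rw [h13] at h9
  nlinarith

theorem diffOn_det {A : ℂ → Matrix (Fin m) (Fin m) ℂ} {s : Set ℂ}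
    (h : ∀ i j, DifferentiableOn ℂ (fun τ => A τ i j) s) :
    DifferentiableOn ℂ (fun τ => (A τ).det) s := by
  simp only [det_apply']
  exact DifferentiableOn.fun_sum fun σ _ =>
    (DifferentiableOn.fun_finsetProd fun i _ => h _ _).const_mul _

theorem qv_inv {H Z W : Matrix (Fin m) (Fin m) ℂ} (hH : IsUnit H.det) (h : Z * W = 1)
    (c : Fin m → ℂ) : qv (Zᴴ * H * Z)⁻¹ c = qv H⁻¹ (Wᵀ *ᵥ c) := by
  have h1 : (Zᴴ * H * Z)⁻¹ = W * H⁻¹ * Wᴴ := inv_eq_right_inv (by
    simp only [Matrix.mul_assoc]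
    rw [← Matrix.mul_assoc Z, h, Matrix.one_mul, ← Matrix.mul_assoc H, mul_nonsing_inv _ hH,
      Matrix.one_mul, ← conjTranspose_mul, mul_eq_one_comm.1 h, conjTranspose_one])
  rw [h1, qv, qv, mulVec_transpose, star_vecMul, ← mulVec_mulVec, ← mulVec_mulVec,
    dotProduct_mulVec c W]

theorem re_conj_mul (z d : ℂ) : (star z * d * z).re = ‖z‖ ^ 2 * d.re := by
  rw [mul_right_comm, Complex.star_def, Complex.conj_mul', ← Complex.ofReal_pow,
    Complex.re_ofReal_mul]

theorem diag_entry (H Θ : Matrix (Fin m) (Fin m) ℂ) (a : Fin m → ℂ) (j : Fin m) :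
    ((Θ * diagonal a)ᴴ * H * (Θ * diagonal a)) j j = star (a j) * hf H (Θᵀ j) (Θᵀ j) * a j := by
  rw [conjTranspose_mul, diagonal_conjTranspose, Matrix.mul_assoc, Matrix.mul_assoc,
    diagonal_mul, ← Matrix.mul_assoc, ← Matrix.mul_assoc, mul_diagonal, Matrix.mul_assoc,
    mul_assoc]
  rfl

/-- the estimate at one point -/
theorem point (h2 : EIG m) {H Θ : Matrix (Fin m) (Fin m) ℂ} (hH : H.PosDef) (hΘ : Θ.det = 1)
    {a : Fin m → ℂ} (ha : ∀ j, a j ≠ 0) {E : ℝ} (hE : 1 ≤ E)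
    (h3 : ∀ j, ‖a j‖ ^ 2 * (hf H (Θᵀ j) (Θᵀ j)).re ≤ E)
    (h4 : 1 ≤ E * ((∏ j, ‖a j‖ ^ 2) * H.det.re)) (c : Fin m → ℂ) :
    ∑ i, ‖c i‖ ^ 2 ≤ m * E * qv H⁻¹ ((adjugate Θ)ᵀ *ᵥ fun j => (a j)⁻¹ * c j) ∧
      qv H⁻¹ ((adjugate Θ)ᵀ *ᵥ fun j => (a j)⁻¹ * c j) ≤ E * (m * E) ^ m * ∑ i, ‖c i‖ ^ 2 := by
  have h5 : Θ * diagonal a * (diagonal (fun j => (a j)⁻¹) * adjugate Θ) = 1 := by
    rw [Matrix.mul_assoc, ← Matrix.mul_assoc (diagonal a), diagonal_mul_diagonal]
    simp [ha, mul_adjugate, hΘ]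
  have h6 : ((Θ * diagonal a)ᴴ * H * (Θ * diagonal a)).PosDef :=
    hH.conjTranspose_mul_mul_same (mulVec_injective_iff_isUnit.2 (IsUnit.of_mul_eq_one _ h5))
  obtain ⟨h7, h8⟩ := h2.inv _ E h6 hE (fun j => by rw [diag_entry, re_conj_mul]; exact h3 j) c
  have h9 : (diagonal (fun j => (a j)⁻¹) * adjugate Θ)ᵀ *ᵥ c =
      (adjugate Θ)ᵀ *ᵥ fun j => (a j)⁻¹ * c j := by
    rw [transpose_mul, diagonal_transpose, ← mulVec_mulVec]
    exact congrArg _ (funext fun j => mulVec_diagonal _ _ _)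
  rw [qv_inv hH.det_pos.ne'.isUnit h5, h9] at h7 h8
  rw [det_mul, det_mul, det_conjTranspose, re_conj_mul, det_mul, hΘ, one_mul, det_diagonal,
    norm_prod, ← Finset.prod_pow] at h8
  refine ⟨h7, ?_⟩
  set q := qv H⁻¹ ((adjugate Θ)ᵀ *ᵥ fun j => (a j)⁻¹ * c j)
  have h10 := mul_le_mul_of_nonneg_left h8 (zero_le_one.trans hE)
  rcases le_total q 0 with h | h
  · exact h.trans (by positivity)
  · nlinarith

end Frb

open Frb

/-- **Row FRB.** -/
theorem frb (h1 : FRA) (h2 : ∀ m, EIG m) : FRB := by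
  intro m ρ δ H hH hu hl
  obtain ⟨ρ1, Θ, k, hΘ, hd, hk, hlo⟩ := h1 m ρ H hH
  have hc : ContinuousOn (fun τ => Real.log (H τ).det.re) (ex ρ) := by
    refine ContinuousOn.log (Complex.continuous_re.comp_continuousOn
      ((continuous_id.matrix_det).comp_continuousOn (continuousOn_pi.2 fun i =>
        continuousOn_pi.2 fun j => (hH.sm i j).continuousOn))) fun τ hτ => ?_
    exact (Complex.pos_iff.1 (hH.pos τ hτ).det_pos).1.ne'
  have hs := le_of_lo_up hc hlo hu
  let n : Fin m → ℤ := fun j => ⌈k j⌉ - 1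
  refine ⟨max ρ1 0, fun τ => (adjugate (Θ τ))ᵀ * diagonal fun j => τ ^ n j, fun j => k j - n j,
    fun j => ?_, fun i j => ?_, fun η hη => ?_⟩
  · have := Int.le_ceil (k j)
    have := Int.ceil_lt_add_one (k j)
    simp only [n, Int.cast_sub, Int.cast_one]
    constructor <;> linarith
  · simp only [mul_diagonal, transpose_apply, adjugate_apply]
    refine ((diffOn_det (s := ex ρ1) fun a b => ?_).mono fun τ (hτ : max ρ1 0 < ‖τ‖) =>
      show ρ1 < ‖τ‖ from (le_max_left _ _).trans_lt hτ).mul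
      (differentiableOn_zpow _ _ (Or.inl fun (h : max ρ1 0 < ‖(0 : ℂ)‖) => ?_))
    · simp only [updateRow_apply]
      split_ifs
      exacts [differentiableOn_const _, (hΘ a b).1]
    · exact ((le_max_right _ _).trans_lt h).ne' norm_zero
  · set ε := η / (4 * (m + 1)) with hε
    have hε0 : 0 < ε := by positivity
    choose ρ2 hρ2 using fun j => hk j ε hε0
    obtain ⟨ρ3, hρ3⟩ := hl ε hε0
    obtain ⟨ρ4, hρ4⟩ := Finite.exists_le ρ2
    obtain ⟨ρ5, h3, h4, h5⟩ := exists_big (max (max ρ ρ1) (max ρ3 ρ4))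
      (2 / η * ((m + 1) * Real.log (m + 1)))
    simp only [max_le_iff] at h3
    refine ⟨ρ5, fun τ hτ c => ?_⟩
    have hτ' : ρ5 < ‖τ‖ := hτ
    have hr : 0 < ‖τ‖ := by linarith
    have hτ0 : τ ≠ 0 := norm_pos_iff.1 hr
    have hL : 0 ≤ Real.log ‖τ‖ := Real.log_nonneg (by linarith)
    have h6 := h5 τ hτ
    set L := Real.log ‖τ‖ with hL'
    have hp : ∀ s : ℝ, ‖τ‖ ^ s = Real.exp (L * s) := fun s => Real.rpow_def_of_pos hr s
    let a : Fin m → ℂ := fun j => τ ^ (-n j) * (‖τ‖ ^ (-(k j - n j)) : ℝ)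
    have ha : ∀ j, ‖a j‖ ^ 2 = Real.exp (-(2 * L * k j)) := fun j => by
      rw [norm_mul, norm_zpow, Complex.norm_real, Real.norm_of_nonneg (by positivity),
        ← Real.rpow_intCast, hp, hp, ← Real.exp_add, ← Real.exp_nat_mul]
      congr 1
      push_cast
      ring
    have hH' := hH.pos τ (by change ρ < _; linarith)
    obtain ⟨h7, h8⟩ := point (h2 m) hH' (hd τ (by change ρ1 < _; linarith)) (a := a)
      (fun j => by
        have := ha j
        intro h
        rw [h, norm_zero, zero_pow two_ne_zero] at this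
        exact (Real.exp_pos _).ne this)
      (E := Real.exp (2 * L * ε)) (Real.one_le_exp (by positivity))
      (fun j => by
        have h9 := (Real.le_exp_log _).trans (Real.exp_le_exp.2
          (hρ2 j τ (by change ρ2 j < _; linarith [hρ4 j])))
        refine (mul_le_mul_of_nonneg_left h9 (by positivity)).trans (le_of_eq ?_)
        rw [ha, ← Real.exp_add, lg_eq]
        congr 1
        ring)
      (by
        have h9 := hρ3 τ (by change ρ3 < _; linarith)
        rw [← Real.exp_log (Complex.pos_iff.1 hH'.det_pos).1, Finset.prod_congr rfl fun j _ => ha j,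
          ← Real.exp_sum, ← Real.exp_add, ← Real.exp_add, Finset.sum_neg_distrib,
          ← Finset.mul_sum]
        rw [lg_eq] at h9
        exact Real.one_le_exp (by nlinarith))
      fun j => (‖τ‖ ^ (-(k j - n j)) : ℝ) * c j
    have h9 : (fun j => (a j)⁻¹ * (((‖τ‖ ^ (-(k j - n j)) : ℝ) : ℂ) * c j)) =
        diagonal (fun j => τ ^ n j) *ᵥ c := funext fun j => by
      have : ((‖τ‖ ^ (-(k j - n j)) : ℝ) : ℂ) ≠ 0 := Complex.ofReal_ne_zero.2 (by positivity)
      rw [mulVec_diagonal, mul_inv, _root_.zpow_neg, inv_inv, mul_assoc, inv_mul_cancel_left₀ this]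
    have h10 : ∑ j, ‖((‖τ‖ ^ (-(k j - n j)) : ℝ) : ℂ) * c j‖ ^ 2 =
        ∑ j, ‖c j‖ ^ 2 * ‖τ‖ ^ (-(2 * (k j - n j))) := Finset.sum_congr rfl fun j _ => by
      rw [norm_mul, mul_pow, mul_comm, Complex.norm_real, Real.norm_of_nonneg (by positivity),
        hp, hp, ← Real.exp_nat_mul]
      congr 2
      push_cast
      ring
    rw [h9, h10, mulVec_mulVec] at h7 h8
    have h11 : Real.exp (2 * L * ε) * ((m + 1) * Real.exp (2 * L * ε)) ^ m * (m + 1) ≤
        ‖τ‖ ^ η := by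
      have e1 : (m + 1 : ℝ) = Real.exp (Real.log (m + 1)) := (Real.exp_log (by positivity)).symm
      have e2 : ε * (m + 1) = η / 4 := by rw [hε]; field_simp
      have e3 := mul_le_mul_of_nonneg_left h6 (by positivity : 0 ≤ η / 2)
      have e4 : η / 2 * (2 / η * ((m + 1) * Real.log (m + 1))) = (m + 1) * Real.log (m + 1) := by
        field_simp
      rw [hp]
      set l := Real.log (m + 1 : ℝ)
      conv_lhs => rw [e1, ← Real.exp_add, ← Real.exp_nat_mul, ← Real.exp_add, ← Real.exp_add]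
      exact Real.exp_le_exp.2 (by nlinarith)
    have hE : 1 ≤ Real.exp (2 * L * ε) := Real.one_le_exp (by positivity)
    set E := Real.exp (2 * L * ε)
    have hm : (0 : ℝ) ≤ m := m.cast_nonneg
    have h12 : 1 ≤ ((m + 1) * E) ^ m := one_le_pow₀ (by nlinarith)
    have h13 : (m * E) ^ m ≤ ((m + 1) * E) ^ m := pow_le_pow_left₀ (by positivity) (by nlinarith) _
    have h14 : 0 ≤ ∑ j, ‖c j‖ ^ 2 * ‖τ‖ ^ (-(2 * (k j - n j))) := by positivity
    set S := ∑ j, ‖c j‖ ^ 2 * ‖τ‖ ^ (-(2 * (k j - n j)))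
    set q := qv (H τ)⁻¹ (((adjugate (Θ τ))ᵀ * diagonal fun j => τ ^ n j) *ᵥ c)
    set F := ((m + 1) * E) ^ m
    constructor
    · rw [Real.rpow_neg hr.le, inv_mul_le_iff₀ (by positivity)]
      rcases Nat.eq_zero_or_pos m with rfl | hm0
      · simp [S, q, qv]
      · have h15 : 0 ≤ q := nonneg_of_mul_nonneg_right (h14.trans h7) (by positivity)
        refine h7.trans (mul_le_mul_of_nonneg_right (le_trans ?_ h11) h15)
        nlinarith [mul_le_mul_of_nonneg_left h12 (by positivity : 0 ≤ E * (m + 1))]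
    · refine h8.trans (mul_le_mul_of_nonneg_right (le_trans ?_ h11) h14)
      have := mul_le_mul_of_nonneg_left h13 (by positivity : 0 ≤ E)
      nlinarith [mul_nonneg (mul_nonneg (zero_le_one.trans hE) (zero_le_one.trans h12)) hm]

end Vale.Agent.P253W.C
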