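import Vale.Agent.P253W.C.Det

/-!
# P253W, row C.FRM: the frame along a polynomial curve
-/

open scoped Manifold ContDiff Bundle ENNReal Topology ComplexConjugate ComplexOrder Matrix
open Bundle IsManifold MeasureTheory Set Metric Filter Bornology Vale.Agent.P253.Mfd
  Vale.Agent.P253Z
open Vale.Agent.P272.K (Cm jacM Chart)
open Vale.Agent.P272.GJ (ddb)

set_option linter.unusedSectionVars false

noncomputable section

namespace Vale.Agent.P253W.C

variable {n : ℕ} {M : Type} [MetricSpace M] [ChartedSpace (Cm n) M] [IsManifold 𝓘(ℂ, Cm n) 1 M]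
  [IsManifold 𝓘(ℝ, Cm n) ∞ M] [RiemannianBundle fun x : M => TangentSpace 𝓘(ℝ, Cm n) x]
  [IsContMDiffRiemannianBundle 𝓘(ℝ, Cm n) ∞ (Cm n) fun x : M => TangentSpace 𝓘(ℝ, Cm n) x]
  [IsRiemannianManifold 𝓘(ℝ, Cm n) M] [CompleteSpace M] [ConnectedSpace M] [NoncompactSpace M]
  [MeasurableSpace M] [BorelSpace M] {μ : Measure M} {F : Flow n M} {A : Fam F} {T : F.TA μ}

theorem frame_of (_p : P3 A T) (h1 : HZ1 F) (h2 : HZ2 F) (hp : PCF T) (hr : MER) (hb : FRB) :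
    T.FRAME A.d := by
  intro f ν hf hν
  obtain ⟨z, m, c, C, N, hz, hc, hN, h3⟩ := Det.ex_z hp hr hf
  have hs : ∀ i, IsSec n 0 (z i) := fun i => ((T.mem _).1 (hz i)).1
  have hJ : ∀ᶠ τ in cobounded ℂ, F.jc z (f τ) ≠ 0 := by
    filter_upwards [h3, ex_mem 0] with τ h4 h5
    exact norm_pos_iff.1 ((mul_pos hc (pow_pos h5 m)).trans_le h4.1)
  obtain ⟨ρ, hρ⟩ := ev_iff.2 hJ
  have hd : ∀ η : ℝ, 0 < η → ∀ᶠ τ in cobounded ℂ,
      |Real.log (Hz F z 1 (f τ)).det.re - (m + ν) * lg τ| ≤ η * lg τ := fun η hη => by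
    filter_upwards [h3, hJ, ex_mem 0, ev_iff.1 (hν.nu η hη),
      ev_const (2 * Real.log C) (half_pos hη), ev_const (-(2 * Real.log c)) (half_pos hη)] with τ h4 h5 h6 h7 h8 h9
    have t0 : 0 < ‖τ‖ := h6
    have j0 := norm_pos_iff.2 h5
    have c0 : 0 < C := (mul_pos_iff_of_pos_right (pow_pos t0 m)).1 (j0.trans_le h4.2.1)
    have a1 := Real.log_le_log (by positivity) h4.1
    have a2 := Real.log_le_log j0 h4.2.1
    rw [Real.log_mul (by positivity) (by positivity), Real.log_pow] at a1 a2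
    rw [(h1 1 zero_le_one z (f τ)).2.2.1, Real.log_mul (by positivity) (by positivity),
      Real.log_exp, Real.log_pow]
    change |_ - ν * lg τ| ≤ _ at h7
    rw [lg_eq] at h7 h8 h9 ⊢
    rw [abs_le] at h7 ⊢
    push_cast
    constructor <;> linarith [h7.1, h7.2]
  have u1 : Up (fun τ => Real.log (Hz F z 1 (f τ)).det.re) (m + ν) := up_iff.2 fun η hη => by
    filter_upwards [hd η hη] with τ h
    linarith [(abs_le.1 h).2]
  have u2 : Up (fun τ => -Real.log (Hz F z 1 (f τ)).det.re) (-(m + ν)) := up_iff.2 fun η hη => by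
    filter_upwards [hd η hη] with τ h
    linarith [(abs_le.1 h).1]
  obtain ⟨b1, b2, -⟩ := h2 1 one_pos z f (ex ρ) hs (isOpen_ex ρ) (hf.hol.mono (subset_univ _))
  have hP := fun τ (hτ : τ ∈ ex ρ) => (h1 1 zero_le_one z (f τ)).2.2.2 (hρ τ hτ)
  obtain ⟨ρ', Y, k, hk, hY, hm⟩ := hb n ρ (m + ν) (fun τ => Hz F z 1 (f τ))
    ⟨b1, fun τ hτ => (hP τ hτ).2.1, b2, ⟨N, fun i => (up_lg N).of_le (by
      filter_upwards [h3, ex_mem ρ] with τ h4 h5
      exact (Real.log_le_iff_le_exp (Complex.pos_iff.1 (hP τ h5).2.1.diag_pos).1).2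
        (((h1 1 zero_le_one z (f τ)).2.1 i).trans_le (h4.2.2 i)))⟩, _, u2⟩ u1 u2
  refine ⟨k, fun i τ => (Dz n z (f τ))⁻¹ *ᵥ fun j => Y τ j i, fun i => (hk i).1, fun i => (hk i).2,
    ⟨max ρ ρ', fun i => ?_⟩, fun η hη => ev_iff.2 ?_⟩
  · exact (h2 1 one_pos z f (ex (max ρ ρ')) hs (isOpen_ex _) (hf.hol.mono (subset_univ _))).2.2
      (fun τ hτ => hρ τ (ex_mono (le_max_left _ _) hτ)) _
      (differentiableOn_pi.2 fun j => (hY j i).mono (ex_mono (le_max_right _ _)))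
  · filter_upwards [ev_iff.1 (hm η hη), ex_mem ρ] with τ h4 h5 v
    obtain ⟨a1, -, a2⟩ := hP τ h5
    have e : Dz n z (f τ) *ᵥ ∑ i, v i • (Dz n z (f τ))⁻¹ *ᵥ (fun j => Y τ j i) = Y τ *ᵥ v := by
      simp only [Matrix.mulVec_sum, Matrix.mulVec_smul, Matrix.mulVec_mulVec,
        Matrix.mul_nonsing_inv _ a1.isUnit, Matrix.one_mulVec]
      funext j
      simp [Matrix.mulVec, dotProduct, mul_comm]
    rw [a2, e]
    exact h4 v

end Vale.Agent.P253W.C
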