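import Vale.Agent.P253W.C.Defs0

/-!
# P253W, block C, row HOR1: the theorem of Hörmander on a plane domain
-/

open scoped Topology ComplexConjugate InnerProductSpace ContDiff
open Set Metric Filter MeasureTheory Complex
open Vale.Agent.P272.GJ (ddb)
open Vale.Agent.P253.R2.H66

noncomputable section

namespace Vale.Agent.P253W.C

namespace Hor1

variable {Q : Set ℂ} {φ ρ : ℂ → ℝ} {f β : ℂ → ℂ}

lemma ddb_eq {z : ℂ} (h : ContDiffAt ℝ 2 φ z) :
    (dz (dzb fun w => (φ w : ℂ)) z).re = ddb φ z := by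
  have h1 : (dzb fun w => (φ w : ℂ)) =ᶠ[𝓝 z] fun w =>
      (1 / 2 : ℂ) * ((fderiv ℝ φ w 1 : ℂ) + I * (fderiv ℝ φ w I : ℂ)) := by
    filter_upwards [h.eventually (by simp)] with w hw
    have h2 : HasFDerivAt (fun w => (φ w : ℂ)) (ofRealCLM.comp (fderiv ℝ φ w)) w :=
      ofRealCLM.hasFDerivAt.comp w (hw.differentiableAt two_ne_zero).hasFDerivAt
    rw [dzb, h2.fderiv]
    rfl
  have h3 : ∀ v, HasFDerivAt (fun w => (fderiv ℝ φ w v : ℂ))
      (ofRealCLM.comp (fderiv ℝ (fun w => fderiv ℝ φ w v) z)) z := fun v =>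
    ofRealCLM.hasFDerivAt.comp z ((((h.fderiv_right (m := 1) (by norm_num)).differentiableAt
      one_ne_zero).clm_apply (differentiableAt_const v)).hasFDerivAt)
  have h4 := (((h3 1).add ((h3 I).const_mul I)).const_mul (1 / 2 : ℂ)).fderiv
  rw [dz_congr h1, dz]
  erw [h4]
  simp [ddb]
  ring

lemma zero_off (hβ : β ∈ testSub ℂ Q) {z : ℂ} (hz : z ∉ Q) : β z = 0 ∧ dz β z = 0 :=
  ⟨image_eq_zero_of_notMem_tsupport fun h => hz (hβ.2.2 h),
    dz_eq_zero_of_notMem fun h => hz (hβ.2.2 h)⟩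

lemma basic (hQ : IsOpen Q) (hφ : ContDiffOn ℝ 2 φ Q) (hβ : β ∈ testSub ℂ Q) :
    IntegrableOn (fun z => ddb φ z * (Real.exp (φ z) * ‖β z‖ ^ 2)) Q ∧
    ∫ z in Q, ddb φ z * (Real.exp (φ z) * ‖β z‖ ^ 2) ≤
      ∫ z in Q, Real.exp (φ z) * ‖dz β z‖ ^ 2 := by
  have hp : ContDiffOn ℝ 2 (fun w => (φ w : ℂ)) Q := ofRealCLM.contDiff.comp_contDiffOn hφ
  have h0 : dzb (fun _ : ℂ => (1 : ℂ →L[ℂ] ℂ)) = fun _ => 0 := funext fun z => dzb_const _ z
  have he : ∀ (z b : ℂ), (⟪b, (cexp (φ z) • (1 : ℂ →L[ℂ] ℂ)) b⟫_ℂ).re =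
      Real.exp (φ z) * ‖b‖ ^ 2 := fun z b => by
    rw [smul_apply, inner_smul_right, ← ofReal_exp, re_ofReal_mul, one_apply_eq_self,
      ← inner_self_eq_norm_sq (𝕜 := ℂ)]
    rfl
  obtain ⟨h1, -, h2⟩ := basic_ineq (k := fun w => cexp (φ w) • (1 : ℂ →L[ℂ] ℂ))
    (ρ := fun w => (dz (dzb fun w => (φ w : ℂ)) w).re) hQ (hp.cexp.smul contDiffOn_const)
    (fun z _ v w => by
      rw [smul_apply, smul_apply, inner_smul_right, inner_smul_left, ← ofReal_exp, conj_ofReal]
      rfl)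
    (continuous_re.comp_continuousOn (contDiffOn_dz (n := 1) (m := 0) hQ
      (contDiffOn_dzb (n := 2) (m := 1) hQ hp (by norm_num)) (by norm_num)).continuousOn)
    (fun z hz => curvGE_exp hQ contDiffOn_const (fun _ _ _ _ => rfl) hp
      (fun _ _ => conj_ofReal _) hz fun b c => by
        rw [h0, dz_const]
        simpa using inner_self_nonneg (𝕜 := ℂ) (x := c))
    (by exact_mod_cast contDiff_infty.1 hβ.1 2) hβ.2.1 hβ.2.2
  simp only [he] at h1 h2
  have h3 : EqOn (fun z => (dz (dzb fun w => (φ w : ℂ)) z).re * (Real.exp (φ z) * ‖β z‖ ^ 2))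
      (fun z => ddb φ z * (Real.exp (φ z) * ‖β z‖ ^ 2)) Q := fun z hz => by
    simp only [ddb_eq (hφ.contDiffAt (hQ.mem_nhds hz))]
  refine ⟨h1.integrableOn.congr_fun h3 hQ.measurableSet, ?_⟩
  rw [← setIntegral_congr_fun hQ.measurableSet h3, setIntegral_eq_integral_of_forall_compl_eq_zero
    fun z hz => by simp [(zero_off hβ hz).1], setIntegral_eq_integral_of_forall_compl_eq_zero
    fun z hz => by simp [(zero_off hβ hz).2]]
  exact h2

lemma dz_cont (hβ : β ∈ testSub ℂ Q) : Continuous (dz β) :=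
  continuousOn_univ.1 (contDiffOn_dz (n := 1) (m := 0) isOpen_univ
    (hβ.1.of_le (by exact_mod_cast le_top)).contDiffOn (by norm_num)).continuousOn

/-- functions which are continuous on `Q` and vanish off the support of a test function -/
lemma memLp (hQ : IsOpen Q) (hβ : β ∈ testSub ℂ Q) {g : ℂ → ℂ} (hg : ContinuousOn g Q)
    (h0 : ∀ z ∉ tsupport β, g z = 0) (p : ENNReal) : MemLp g p (volume.restrict Q) := by
  have h1 := tsupport_subset_of_eventually h0
  exact ((continuous_of_tsupport' hQ hg (h1.trans hβ.2.2)).memLp_of_hasCompactSupport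
    (hβ.2.1.mono' ((subset_tsupport _).trans h1))).restrict _

lemma cs {r e : ℝ} (hr : 0 < r) (t a b : ℝ) :
    2 * t * (a * b) ≤ t ^ 2 * (a ^ 2 / r * Real.exp (-e)) + r * (Real.exp e * b ^ 2) := by
  have h0 := Real.exp_pos e
  have h1 : t ^ 2 * (a ^ 2 / r * Real.exp (-e)) + r * (Real.exp e * b ^ 2) - 2 * t * (a * b) =
      (t * a - r * Real.exp e * b) ^ 2 / (r * Real.exp e) := by
    rw [Real.exp_neg]
    field_simp
    ring
  have h2 : 0 ≤ (t * a - r * Real.exp e * b) ^ 2 / (r * Real.exp e) := by positivity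
  linarith

lemma bound (hQ : IsOpen Q) (hρ : ∀ z ∈ Q, 0 < ρ z) {N : ℝ} (hN : 0 ≤ N)
    (h1 : IntegrableOn (fun z => ρ z * (Real.exp (φ z) * ‖β z‖ ^ 2)) Q)
    (h2 : ∫ z in Q, ρ z * (Real.exp (φ z) * ‖β z‖ ^ 2) ≤ N ^ 2)
    (h3 : IntegrableOn (fun z => ⟪f z, β z⟫_ℂ) Q)
    (hi : IntegrableOn (fun z => ‖f z‖ ^ 2 / ρ z * Real.exp (-φ z)) Q) :
    ‖∫ z in Q, ⟪f z, β z⟫_ℂ‖ ≤ √(∫ z in Q, ‖f z‖ ^ 2 / ρ z * Real.exp (-φ z)) * N := by
  set A := ∫ z in Q, ‖f z‖ ^ 2 / ρ z * Real.exp (-φ z) with hA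
  have hA0 : 0 ≤ A := setIntegral_nonneg hQ.measurableSet fun z hz => by
    have := hρ z hz
    positivity
  have h4 : ∀ t : ℝ, 0 ≤ A * (t * t) + (-(2 * ∫ z in Q, ‖⟪f z, β z⟫_ℂ‖)) * t + N ^ 2 := by
    intro t
    have h5 := setIntegral_mono_on (h3.norm.const_mul (2 * t)) ((hi.const_mul (t ^ 2)).add h1)
      hQ.measurableSet fun z hz => by
        rw [RCLike.inner_apply, norm_mul, RCLike.norm_conj, mul_comm ‖β z‖]
        exact cs (hρ z hz) t _ _
    simp only [Pi.add_apply] at h5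
    rw [integral_const_mul, integral_add (hi.const_mul _) h1, integral_const_mul] at h5
    nlinarith
  have h5 := discrim_le_zero h4
  rw [discrim] at h5
  refine (norm_integral_le_integral_norm _).trans (le_of_sq_le_sq ?_ (by positivity))
  rw [mul_pow, Real.sq_sqrt hA0]
  nlinarith

lemma solve (hQ : IsOpen Q) (hφ : ContDiffOn ℝ 2 φ Q) (hρ : ∀ z ∈ Q, 0 < ddb φ z)
    (hf : ContinuousOn f Q) (hi : IntegrableOn (fun z => ‖f z‖ ^ 2 / ddb φ z * Real.exp (-φ z)) Q) :
    ∃ w : ℂ → ℂ, MemLp w 2 (volume.restrict Q) ∧ ∀ β ∈ testSub ℂ Q,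
      ∫ z in Q, ⟪f z, β z⟫_ℂ = ∫ z in Q, ⟪(Real.exp (φ z / 2) : ℂ) * w z, dz β z⟫_ℂ := by
  have hB : ContinuousOn (fun z => (Real.exp (φ z / 2) : ℂ)) Q :=
    continuous_ofReal.comp_continuousOn (hφ.continuousOn.div_const 2).rexp
  have hT : ∀ β ∈ testSub ℂ Q,
      MemLp (fun z => (Real.exp (φ z / 2) : ℂ) * dz β z) 2 (volume.restrict Q) := fun β hβ =>
    memLp hQ hβ (hB.mul (dz_cont hβ).continuousOn)
      (fun z hz => by rw [Pi.mul_apply, dz_eq_zero_of_notMem hz, mul_zero]) 2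
  have hL : ∀ β ∈ testSub ℂ Q, IntegrableOn (fun z => ⟪f z, β z⟫_ℂ) Q := fun β hβ =>
    memLp_one_iff_integrable.1 (memLp hQ hβ (hf.inner hβ.1.continuous.continuousOn)
      (fun z hz => by rw [image_eq_zero_of_notMem_tsupport hz, inner_zero_right]) 1)
  have hd : ∀ β ∈ testSub ℂ Q, ∀ z, DifferentiableAt ℝ β z := fun β hβ z =>
    (hβ.1.differentiable (by simp)) z
  let T : testSub ℂ Q →ₗ[ℂ] Lp ℂ 2 (volume.restrict Q) :=
    { toFun := fun β => (hT β.1 β.2).toLp _
      map_add' := fun a b => by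
        rw [← MemLp.toLp_add (hT a.1 a.2) (hT b.1 b.2)]
        refine MemLp.toLp_congr _ _ (Eventually.of_forall fun z => ?_)
        have : dz (a.1 + b.1) z = dz a.1 z + dz b.1 z := dz_add (hd _ a.2 z) (hd _ b.2 z)
        simp only [Submodule.coe_add, this, mul_add, Pi.add_apply]
      map_smul' := fun c a => by
        rw [RingHom.id_apply, ← MemLp.toLp_const_smul]
        refine MemLp.toLp_congr _ _ (Eventually.of_forall fun z => ?_)
        have : dz (c • a.1) z = _ := dz_mul (differentiableAt_const c) (hd _ a.2 z)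
        simp only [Submodule.coe_smul, this, dz_const, Pi.smul_apply, smul_eq_mul]
        ring }
  let L : testSub ℂ Q →ₗ[ℂ] ℂ :=
    { toFun := fun β => ∫ z in Q, ⟪f z, β.1 z⟫_ℂ
      map_add' := fun a b => by
        rw [← integral_add (hL _ a.2) (hL _ b.2)]
        simp only [Submodule.coe_add, Pi.add_apply, inner_add_right]
      map_smul' := fun c a => by
        rw [RingHom.id_apply, smul_eq_mul, ← integral_const_mul]
        simp only [Submodule.coe_smul, Pi.smul_apply, inner_smul_right] }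
  have hn : ∀ β : testSub ℂ Q, ∫ z in Q, Real.exp (φ z) * ‖dz β.1 z‖ ^ 2 = ‖T β‖ ^ 2 := by
    intro β
    rw [← inner_self_eq_norm_sq (𝕜 := ℂ), L2.inner_def, ← integral_re (L2.integrable_inner _ _)]
    refine integral_congr_ae ((hT β.1 β.2).coeFn_toLp.mono fun z hz => ?_)
    have h1 : T β z = _ := hz
    simp only
    rw [inner_self_eq_norm_sq, h1, norm_mul, mul_pow, norm_real, Real.norm_eq_abs, sq_abs,
      sq (Real.exp _), ← Real.exp_add, add_halves]
  obtain ⟨w, -, hw⟩ := riesz_range T L (Real.sqrt_nonneg _) fun β =>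
    bound hQ hρ (norm_nonneg (T β)) (basic hQ hφ β.2).1 ((basic hQ hφ β.2).2.trans_eq (hn β))
      (hL _ β.2) hi
  refine ⟨w, Lp.memLp w, fun β hβ => (hw ⟨β, hβ⟩).trans ?_⟩
  rw [L2.inner_def]
  refine integral_congr_ae ((hT β hβ).coeFn_toLp.mono fun z hz => ?_)
  have h1 : T ⟨β, hβ⟩ z = _ := hz
  simp only
  rw [h1, RCLike.inner_apply, RCLike.inner_apply, map_mul, conj_ofReal]
  ring

end Hor1

open Hor1 in
theorem hor1 : HOR1 := by
  intro Q φ l hQ hφ hρ hl hi
  have hf : ContinuousOn (dzb l) Q :=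
    (contDiffOn_dzb (n := 1) (m := 0) hQ hl (by norm_num)).continuousOn
  obtain ⟨w, hw, h1⟩ := solve hQ hφ hρ hf hi
  have hB : ContinuousOn (fun z => (Real.exp (φ z / 2) : ℂ)) Q :=
    continuous_ofReal.comp_continuousOn (hφ.continuousOn.div_const 2).rexp
  have h2 : LocallyIntegrableOn (fun z => (Real.exp (φ z / 2) : ℂ) * w z) Q :=
    (locallyIntegrableOn_of_locallyIntegrable_restrict
      (hw.locallyIntegrable one_le_two)).continuousOn_mul hB hQ.isLocallyClosed
  obtain ⟨h, hh, he⟩ := weyl_vec hQ (X := fun z => l z + (Real.exp (φ z / 2) : ℂ) * w z)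
    ((hl.continuousOn.locallyIntegrableOn hQ.measurableSet).add h2) fun β hβ => by
      have i1 : IntegrableOn (fun z => ⟪l z, dz β z⟫_ℂ) Q := memLp_one_iff_integrable.1
        (memLp hQ hβ (hl.continuousOn.inner (dz_cont hβ).continuousOn)
          (fun z hz => by rw [dz_eq_zero_of_notMem hz, inner_zero_right]) 1)
      have i2 : IntegrableOn (fun z => ⟪dzb l z, β z⟫_ℂ) Q := memLp_one_iff_integrable.1
        (memLp hQ hβ (hf.inner hβ.1.continuous.continuousOn)
          (fun z hz => by rw [image_eq_zero_of_notMem_tsupport hz, inner_zero_right]) 1)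
      have i3 : IntegrableOn (fun z => ⟪(Real.exp (φ z / 2) : ℂ) * w z, dz β z⟫_ℂ) Q := by
        refine ((memLp hQ hβ (hB.mul (dz_cont hβ).continuousOn) (fun z hz => by
          rw [Pi.mul_apply, dz_eq_zero_of_notMem hz, mul_zero]) 2).integrable_mul hw.star).congr
          (Eventually.of_forall fun z => ?_)
        simp only [Pi.mul_apply, Pi.star_apply, RCLike.inner_apply, map_mul, conj_ofReal,
          RCLike.star_def]
        ring
      have ht : tsupport (fun z => ⟪l z, β z⟫_ℂ) ⊆ tsupport β :=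
        tsupport_subset_of_zero fun z hz => by rw [hz, inner_zero_right]
      have h3 := integral_dz_eq_zero (contDiff_of_tsupport (n := 1) hQ
        (hl.inner ℂ (hβ.1.of_le (by exact_mod_cast le_top)).contDiffOn) (ht.trans hβ.2.2))
        (hβ.2.1.mono' ((subset_tsupport _).trans ht))
      rw [← setIntegral_eq_integral_of_forall_compl_eq_zero (s := Q) fun z hz =>
        dz_eq_zero_of_notMem fun h => hz (hβ.2.2 (ht h)),
        setIntegral_congr_fun hQ.measurableSet fun z hz => dz_inner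
          ((hl.contDiffAt (hQ.mem_nhds hz)).differentiableAt one_ne_zero)
          (hβ.1.differentiable (by simp) z), integral_add i1 i2, h1 β hβ] at h3
      simp only [inner_add_left]
      rw [integral_add i1 i3, h3]
  refine ⟨h, hh, (hw.integrable_norm_pow two_ne_zero).congr (he.mono fun z hz => ?_)⟩
  simp only at hz ⊢
  rw [← hz, sub_add_cancel_left, norm_neg, norm_mul, mul_pow, norm_real, Real.norm_eq_abs, sq_abs,
    sq (Real.exp _), ← Real.exp_add, add_halves, mul_right_comm, ← Real.exp_add, add_neg_cancel,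
    Real.exp_zero, one_mul]

end Vale.Agent.P253W.C
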