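import Vale.Agent.P253W.C.Defs
import Vale.Agent.P253W.V.Alg
import Vale.Agent.P253Z.B1a

/-!
# P253W, row C.HZ1: the matrix of the scalar products of the differentials
-/

open scoped Manifold ContDiff Bundle ENNReal Topology ComplexConjugate ComplexOrder Matrix
open Bundle IsManifold MeasureTheory Set Metric Filter Bornology Vale.Agent.P253.Mfd
  Vale.Agent.P253Z
open Vale.Agent.P272.K (Cm jacM Chart)
open Vale.Agent.P272.GJ (ddb)

set_option linter.unusedSectionVars false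

noncomputable section

namespace Vale.Agent.P253W.C

variable {n : ℕ} {M : Type} [MetricSpace M] [ChartedSpace (Cm n) M] [IsManifold 𝓘(ℂ, Cm n) 1 M]
  [IsManifold 𝓘(ℝ, Cm n) ∞ M] [RiemannianBundle fun x : M => TangentSpace 𝓘(ℝ, Cm n) x]
  [IsContMDiffRiemannianBundle 𝓘(ℝ, Cm n) ∞ (Cm n) fun x : M => TangentSpace 𝓘(ℝ, Cm n) x]
  [IsRiemannianManifold 𝓘(ℝ, Cm n) M] [CompleteSpace M] [ConnectedSpace M] [NoncompactSpace M]
  [MeasurableSpace M] [BorelSpace M] {μ : Measure M} {F : Flow n M} {A : Fam F} {T : F.TA μ}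

namespace Hz1

open V.Alg

theorem hf_eq (D g : Mx n) (c : Cm n) :
    (hf (D.map (starRingEnd ℂ) * g⁻¹ * Dᵀ) c c).re = hq g (c ᵥ* D) := by
  rw [hf, hq, ← Matrix.mulVec_mulVec, ← Matrix.mulVec_mulVec, Matrix.dotProduct_mulVec,
    Matrix.mulVec_transpose, star_vecMul']

theorem qv_eq {D g : Mx n} (hD : D.det ≠ 0) (hg : g.det ≠ 0) (v : Cm n) :
    qv (D.map (starRingEnd ℂ) * g⁻¹ * Dᵀ)⁻¹ (D *ᵥ v) = qf g v := by
  have h : star (D *ᵥ v) = D.map (starRingEnd ℂ) *ᵥ star v := by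
    funext i
    simp [Matrix.mulVec, dotProduct]
  rw [qv, qf, h, Matrix.mul_inv_rev, Matrix.mul_inv_rev, Matrix.nonsing_inv_nonsing_inv _ hg.isUnit,
    Matrix.mulVec_mulVec, Matrix.mul_assoc, Matrix.nonsing_inv_mul_cancel_right _ _ (unit_conj hD),
    ← Matrix.mulVec_mulVec, ← Matrix.vecMul_transpose, ← Matrix.dotProduct_mulVec,
    Matrix.mulVec_mulVec, Matrix.mul_nonsing_inv _ (unit_T hD), Matrix.one_mulVec]

theorem pos {D g : Mx n} (hD : D.det ≠ 0) (hg : g.PosDef) :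
    (D.map (starRingEnd ℂ) * g⁻¹ * Dᵀ).PosDef := by
  have h : D.map (starRingEnd ℂ) = Dᵀᴴ := by ext i j; simp
  rw [h]
  exact hg.inv.conjTranspose_mul_mul_same
    (Matrix.mulVec_injective_of_isUnit ((Matrix.isUnit_iff_isUnit_det _).2 (unit_T hD)))

theorem det_eq (D : Mx n) {g : Mx n} (hg : g.PosDef) :
    (D.map (starRingEnd ℂ) * g⁻¹ * Dᵀ).det.re = ‖D.det‖ ^ 2 / g.det.re := by
  have h1 : g.det = (g.det.re : ℂ) :=
    Complex.ext rfl (by simpa using (Complex.pos_iff.1 hg.det_pos).2.symm)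
  rw [Matrix.det_mul, Matrix.det_mul, det_conj, Matrix.det_transpose, Matrix.det_nonsing_inv,
    Ring.inverse_eq_inv', mul_right_comm, Complex.conj_mul', h1, ← Complex.ofReal_inv,
    ← Complex.ofReal_pow, ← Complex.ofReal_mul, Complex.ofReal_re, Complex.ofReal_re,
    div_eq_mul_inv]

theorem gx_pos (hF : F.Is) {t : ℝ} (ht : 0 ≤ t) (x : M) : (F.gx t x).PosDef :=
  hF.pos t ht _ (b1a.chart x) _ (mem_chart_target _ x)

end Hz1

theorem hz1 (p : P3 A T) : HZ1 F := by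
  intro t ht z x
  have hg := Hz1.gx_pos p.is ht x
  have h0 := V.Alg.det_pos hg
  have h1 := norm_pos_iff.2 (p.is.ne x)
  refine ⟨fun c => Hz1.hf_eq _ _ c, fun i => ?_, ?_, fun h => ?_⟩
  · have h2 := Hz1.hf_eq (Dz n z x) (F.gx t x) (Pi.single i 1)
    rw [Matrix.single_one_vecMul, hf, Matrix.mulVec_single_one, ← Pi.single_star, star_one,
      single_one_dotProduct] at h2
    exact h2
  · rw [Hz, Hz1.det_eq _ hg, Flow.u, Real.exp_log (by positivity), Flow.jc, norm_div]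
    change ‖(Dz n z x).det‖ ^ 2 / _ = (‖(Dz n z x).det‖ / _) ^ 2 * _
    field_simp
  · have h2 : (Dz n z x).det ≠ 0 := (div_ne_zero_iff.1 h).1
    exact ⟨h2, Hz1.pos h2 hg, fun v => (Hz1.qv_eq h2 hg.det_pos.ne' v).symm⟩

end Vale.Agent.P253W.C
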