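import Vale.Agent.P253W.C.Hz1
import Vale.Agent.P253W.V.Arf
import Vale.Agent.P253W.T.Dj

/-!
# P253W, row C.HZ2: the matrix of the scalar products of the differentials along a curve
-/

open scoped Manifold ContDiff Bundle ENNReal Topology ComplexConjugate ComplexOrder Matrix
open Bundle IsManifold MeasureTheory Set Metric Filter Bornology Vale.Agent.P253.Mfd
  Vale.Agent.P253Z
open Vale.Agent.P272.K (Cm jacM Chart)
open Vale.Agent.P272.GJ (ddb)

set_option linter.unusedSectionVars false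

noncomputable section

namespace Vale.Agent.P253W.C

namespace Hz2

open V.Alg

variable {n : ℕ}

theorem an_det {B : ℂ → Mx n} {s : Set ℂ} (h : ∀ i j, ContDiffOn ℂ ∞ (fun q => B q i j) s) :
    ContDiffOn ℂ ∞ (fun q => (B q).det) s := by
  simp only [Matrix.det_apply']
  exact ContDiffOn.sum fun σ _ => contDiffOn_const.mul (contDiffOn_prod fun i _ => h _ _)

theorem an_inv {B : ℂ → Mx n} {s : Set ℂ} (h : ∀ i j, ContDiffOn ℂ ∞ (fun q => B q i j) s)
    (h0 : ∀ q ∈ s, (B q).det ≠ 0) (i j : Fin n) :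
    ContDiffOn ℂ ∞ (fun q => (B q)⁻¹ i j) s := by
  simp only [Matrix.inv_def, Ring.inverse_eq_inv', Matrix.smul_apply, smul_eq_mul,
    Matrix.adjugate_apply]
  refine ((an_det h).inv h0).mul (an_det fun k l => ?_)
  simp only [Matrix.updateRow_apply]
  split_ifs
  · exact contDiffOn_const
  · exact h k l

theorem ddb_exp {w : ℂ → ℝ} {τ : ℂ} (h : ContDiffAt ℝ 2 w τ) (h0 : 0 ≤ ddb w τ) :
    0 ≤ ddb (fun s => Real.exp (w s)) τ := by
  have h1 : ContDiffAt ℝ 2 (fun s => Real.exp (w τ) * w s) τ := contDiffAt_const.mul h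
  have h2 := ddb_nonneg_of_isLocalMin (h.exp.sub h1) (Eventually.of_forall fun s => by
    have h3 := mul_le_mul_of_nonneg_left (Real.add_one_le_exp (w s - w τ)) (Real.exp_pos (w τ)).le
    rw [← Real.exp_add, add_sub_cancel] at h3
    change Real.exp (w τ) - Real.exp (w τ) * w τ ≤ Real.exp (w s) - Real.exp (w τ) * w s
    linarith)
  rw [ddb_sub h.exp h1, ddb_mul _ h] at h2
  linarith [mul_nonneg (Real.exp_pos (w τ)).le h0]

variable {M : Type} [MetricSpace M] [ChartedSpace (Cm n) M] [IsManifold 𝓘(ℂ, Cm n) 1 M]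
  {z : Fin n → M → ℂ} {e : Chart n M} {f : ℂ → M} {U : Set ℂ}

/-- the differentials in the chart `e` -/
def De (z : Fin n → M → ℂ) (e : Chart n M) (w : Cm n) : Mx n :=
  Matrix.of fun i => P253W.T.dv (z i) e w

theorem dz_eq (hz : ∀ i, IsSec n 0 (z i)) (he : Hc e) {x : M} (hx : x ∈ e.source) :
    Dz n z x = De z e (e x) * jacM (pc n x) e x := by
  ext i j
  exact congrFun (P253W.T.DjA.dv_ch (hz i) (B1aP.chart x) he (mem_chart_source _ x) hx) j

theorem de_an (hz : ∀ i, IsSec n 0 (z i)) (he : Hc e) {w : Cm n} (hw : w ∈ e.target)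
    (i j : Fin n) : AnalyticAt ℂ (fun y => De z e y i j) w := by
  refine (B1aP.analyticAt_entry (P253W.T.DjA.mp_an hz he hw) i j).congr ?_
  filter_upwards [e.open_target.mem_nhds hw] with y hy
  exact (congrFun (congrFun (P253W.T.DjA.mat_eq hz he hy) i) j).symm

theorem de_sm (hz : ∀ i, IsSec n 0 (z i)) (he : Hc e) (hU : IsOpen U) (hf : H1 n f U)
    (i j : Fin n) : ContDiffOn ℂ ∞ (fun s => De z e (e (f s)) i j) (U ∩ f ⁻¹' e.source) :=
  fun s hs => ContDiffAt.comp_contDiffWithinAt (f := fun s => e (f s)) s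
    (de_an hz he (e.map_source hs.2) i j).contDiffAt ((V.Arf.chart_sm hU hf he).2 s hs)

theorem al (hz : ∀ i, IsSec n 0 (z i)) (hU : IsOpen U) (hf : H1 n f U)
    (h0 : ∀ τ ∈ U, (Dz n z (f τ)).det ≠ 0) {y : ℂ → Cm n} (hy : DifferentiableOn ℂ y U) :
    Al f (fun τ => (Dz n z (f τ))⁻¹ *ᵥ y τ) U := fun e he => by
  have h1 : ∀ q ∈ U ∩ f ⁻¹' e.source, (De z e (e (f q))).det ≠ 0 := fun q hq => by
    have h2 := h0 q hq.1
    rw [dz_eq hz he hq.2, Matrix.det_mul] at h2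
    exact left_ne_zero_of_mul h2
  have h2 : DifferentiableOn ℂ (fun q => (De z e (e (f q)))⁻¹ *ᵥ y q) (U ∩ f ⁻¹' e.source) :=
    differentiableOn_pi.2 fun i => by
      simp only [Matrix.mulVec, dotProduct]
      exact DifferentiableOn.fun_sum fun j _ =>
        ((an_inv (de_sm hz he hU hf) h1 i j).differentiableOn (by simp)).mul
          ((differentiableOn_pi.1 hy j).mono inter_subset_left)
  refine h2.congr fun q hq => ?_
  beta_reduce
  rw [tv, dz_eq hz he hq.2, Matrix.mul_inv_rev, Matrix.mulVec_mulVec,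
    Matrix.mul_nonsing_inv_cancel_left _ _
      (B1aP.jac_ne (B1aP.chart _) he (mem_chart_source _ _) hq.2).isUnit]

variable [RiemannianBundle fun x : M => TangentSpace 𝓘(ℝ, Cm n) x] {F : Flow n M} {t : ℝ}

theorem hz_eq (b : F.Bas1) (ht : 0 ≤ t) (hz : ∀ i, IsSec n 0 (z i)) (he : Hc e) {x : M}
    (hx : x ∈ e.source) : Hz F z t x =
      (De z e (e x)).map (starRingEnd ℂ) * (F.g t e (e x))⁻¹ * (De z e (e x))ᵀ := by
  have hJ := B1aP.jac_ne (B1aP.chart x) he (mem_chart_source _ x) hx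
  rw [Hz, dz_eq hz he hx, Flow.gx, b.g_ch t ht _ e (B1aP.chart x) he x (mem_chart_source _ x) hx,
    inv_pb, Matrix.map_mul, Matrix.transpose_mul]
  simp only [Matrix.mul_assoc]
  rw [Matrix.mul_nonsing_inv_cancel_left _ _ (unit_conj hJ),
    Matrix.nonsing_inv_mul_cancel_left _ _ (unit_T hJ)]

theorem g_sm (b : F.Bas1) (ht : 0 ≤ t) (he : Hc e) (hU : IsOpen U) (hf : H1 n f U)
    (i j : Fin n) : ContDiffOn ℝ ∞ (fun s => F.g t e (e (f s)) i j) (U ∩ f ⁻¹' e.source) :=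
  fun s hs => ContDiffAt.comp_contDiffWithinAt (f := fun s => e (f s)) s
    (b.g_at t ht e he _ (e.map_source hs.2) i j)
    (((V.Arf.chart_sm hU hf he).2.restrict_scalars ℝ) s hs)

theorem sm (hF : F.Is) (b : F.Bas1) (ht : 0 ≤ t) (hz : ∀ i, IsSec n 0 (z i)) (hU : IsOpen U)
    (hf : H1 n f U) (i j : Fin n) : ContDiffOn ℝ 2 (fun τ => Hz F z t (f τ) i j) U :=
    fun τ hτ => by
  have he := B1aP.chart (n := n) (f τ)
  have h0 := (V.Arf.chart_sm hU hf he).1.mem_nhds ⟨hτ, mem_chart_source _ _⟩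
  have h1 := fun i j => (de_sm hz he hU hf i j).restrict_scalars ℝ
  have h2 := sm_mul (sm_mul (A := fun s => (De z _ (chartAt (Cm n) (f τ) (f s))).map (starRingEnd ℂ))
    (fun i j => (Complex.conjCLE : ℂ →L[ℝ] ℂ).contDiff.comp_contDiffOn (h1 i j))
    (sm_inv (g_sm b ht he hU hf) fun q hq =>
      (hF.pos t ht _ he _ (OpenPartialHomeomorph.map_source _ hq.2)).det_pos.ne'))
    (B := fun s => (De z _ (chartAt (Cm n) (f τ) (f s)))ᵀ) (fun i j => h1 j i) i j
  refine (((h2.contDiffAt h0).of_le Bu.two_le).congr_of_eventuallyEq ?_).contDiffWithinAt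
  filter_upwards [h0] with s hs
  rw [hz_eq b ht hz he hs.2]

theorem neg0 (hF : F.Is) (b : F.Bas1) (hL : F.LYH) (ht : 0 < t) (he : Hc e) {W : Set ℂ}
    (hW : IsOpen W) {E ξ : ℂ → Cm n} (hE : ContDiffOn ℂ ∞ E W) (hξ : ContDiffOn ℂ ∞ ξ W)
    (h : ∀ s ∈ W, E s ∈ e.target) {τ : ℂ} (hτ : τ ∈ W) :
    0 ≤ ddb (fun s => hq (F.g t e (E s)) (ξ s)) τ := by
  have h0 := hW.mem_nhds hτ
  have hp := fun s hs => hF.pos t ht.le e he _ (h s hs)
  by_cases h1 : ξ τ = 0
  · have h2 : ContDiffOn ℝ ∞ (fun s => hq (F.g t e (E s)) (ξ s)) W :=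
      sm_hq (fun i j s hs => (b.g_at t ht.le e he _ (h s hs) i j).comp_contDiffWithinAt s
        ((hE.restrict_scalars ℝ) s hs)) (fun s hs => (hp s hs).det_pos.ne')
        (contDiffOn_pi.1 (hξ.restrict_scalars ℝ))
    refine ddb_nonneg_of_isLocalMin ((h2.contDiffAt h0).of_le Bu.two_le) ?_
    filter_upwards [h0] with s hs
    rw [h1, hq, Matrix.mulVec_zero, dotProduct_zero]
    exact (Complex.nonneg_iff.1 ((hp s hs).inv.posSemidef.dotProduct_mulVec_nonneg _)).1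
  · have h2 : ContDiffOn ℂ ∞ (fun s => (E s, ξ s, ((Real.log t / 2 : ℝ) : ℂ))) W :=
      hE.prodMk (hξ.prodMk contDiffOn_const)
    have h3 : ContDiffAt ℝ 2 (F.G e) (E τ, ξ τ, ((Real.log t / 2 : ℝ) : ℂ)) :=
      ((b.G_sm e he).contDiffAt (((e.open_target.preimage continuous_fst).inter
        (isOpen_ne.preimage continuous_snd.fst)).mem_nhds ⟨h τ hτ, h1⟩)).of_le Bu.two_le
    have h4 := h3.comp τ (((h2.restrict_scalars ℝ).contDiffAt h0).of_le Bu.two_le)
    have h5 := (hL e he _ (h τ hτ) h1 _).trans_eq (Bu.levi2_comp hW h2 hτ h3 1).symm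
    have h6 := ddb_exp h4 (by
      rw [P272.GJ.ddb_eq h4]
      rw [P253.R2.H451.levi2, smul_eq_mul, mul_one] at h5
      positivity)
    refine h6.trans_eq (ddb_congr ?_)
    filter_upwards [h0, (hξ.continuousOn.continuousAt h0).eventually_ne h1] with s hs hs'
    have h7 : Real.exp (2 * (Real.log t / 2)) = t := by
      rw [mul_div_cancel₀ _ two_ne_zero, Real.exp_log ht]
    simp only [Function.comp, Flow.G, Complex.ofReal_re, h7]
    exact Real.exp_log (hq_pos (hp s hs) hs')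

theorem neg (hF : F.Is) (b : F.Bas1) (hL : F.LYH) (ht : 0 < t) (hz : ∀ i, IsSec n 0 (z i))
    (hU : IsOpen U) (hf1 : H1 n f U) {τ : ℂ} (hτ : τ ∈ U) {x : ℂ → Fin n → ℂ}
    (hx : AnalyticAt ℂ x τ) : 0 ≤ ddb (fun s => (hf (Hz F z t (f s)) (x s) (x s)).re) τ := by
  have he := B1aP.chart (n := n) (f τ)
  obtain ⟨h1, h2⟩ := V.Arf.chart_sm hU hf1 he
  have hW := h1.inter (isOpen_analyticAt ℂ x)
  have h0 : τ ∈ U ∩ f ⁻¹' (chartAt (Cm n) (f τ)).source ∩ {s | AnalyticAt ℂ x s} :=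
    ⟨⟨hτ, mem_chart_source _ _⟩, hx⟩
  have h4 : ContDiffOn ℂ ∞ x (U ∩ f ⁻¹' (chartAt (Cm n) (f τ)).source ∩ {s | AnalyticAt ℂ x s}) :=
    fun s hs => (show AnalyticAt ℂ x s from hs.2).contDiffAt.contDiffWithinAt
  have h3 := neg0 hF b hL ht he hW (h2.mono inter_subset_left)
    (ξ := fun s => x s ᵥ* De z (chartAt (Cm n) (f τ)) (chartAt (Cm n) (f τ) (f s)))
    (contDiffOn_pi.2 fun j => by
      simp only [Matrix.vecMul, dotProduct]
      exact ContDiffOn.sum fun i _ => (contDiffOn_pi.1 h4 i).mul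
        ((de_sm hz he hU hf1 i j).mono inter_subset_left))
    (fun s hs => OpenPartialHomeomorph.map_source _ hs.1.2) h0
  refine h3.trans_eq (ddb_congr ?_)
  filter_upwards [hW.mem_nhds h0] with s hs
  rw [hz_eq b ht.le hz he hs.1.2, Hz1.hf_eq]

end Hz2

variable {n : ℕ} {M : Type} [MetricSpace M] [ChartedSpace (Cm n) M] [IsManifold 𝓘(ℂ, Cm n) 1 M]
  [IsManifold 𝓘(ℝ, Cm n) ∞ M] [RiemannianBundle fun x : M => TangentSpace 𝓘(ℝ, Cm n) x]
  [IsContMDiffRiemannianBundle 𝓘(ℝ, Cm n) ∞ (Cm n) fun x : M => TangentSpace 𝓘(ℝ, Cm n) x]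
  [IsRiemannianManifold 𝓘(ℝ, Cm n) M] [CompleteSpace M] [ConnectedSpace M] [NoncompactSpace M]
  [MeasurableSpace M] [BorelSpace M] {μ : Measure M} {F : Flow n M} {A : Fam F} {T : F.TA μ}

theorem hz2 (p : P3 A T) (h1 : HZ1 F) : HZ2 F := fun t ht z _ _ hz hU hf =>
  ⟨Hz2.sm p.is p.b1 ht.le hz hU hf, fun _ hτ _ hx => Hz2.neg p.is p.b1 p.lyh ht hz hU hf hτ hx,
    fun h _ hy => Hz2.al hz hU hf
      (fun τ hτ => ((h1 t ht.le z _).2.2.2 (h τ hτ)).1) hy⟩

end Vale.Agent.P253W.C
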