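import Vale.Agent.P253W.C.Defs0

/-!
# P253W, block C: the inequality of Jensen, three circles, roots, means over balls
-/

open scoped Topology ENNReal Real
open Set Metric Filter MeasureTheory
open Real (circleAverage)
open ENNReal (ofReal)

noncomputable section

namespace Vale.Agent.P253W.C

namespace Jb

section rot

variable {E : Type} [NormedAddCommGroup E] [NormedSpace ℂ E] [MeasureSpace E] [BorelSpace E]
  [SecondCountableTopology E] [SFinite (volume : Measure E)]
  [(volume : Measure E).IsAddLeftInvariant]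
  (hr : ∀ c : Circle, MeasurePreserving (fun w : E => (c : ℂ) • w) volume volume)
include hr

theorem ball_eq {F : E → ℝ≥0∞} (hF : Measurable F) (c : E) (R : ℝ) :
    ofReal (2 * π) * ∫⁻ w in ball c R, F w =
      ∫⁻ w in ball (0 : E) R, ∫⁻ θ in Ioc 0 (2 * π), F (c + circleMap 0 1 θ • w) := by
  have h : ∀ θ : ℝ, ∫⁻ w in ball (0 : E) R, F (c + circleMap 0 1 θ • w) = ∫⁻ w in ball c R, F w :=
    fun θ => by
      have := ((measurePreserving_add_left volume c).comp (hr (Circle.exp θ))).setLIntegral_comp_preimage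
        (s := ball c R) measurableSet_ball hF
      convert this using 3
      · ext w; simp [norm_smul]
      · simp [circleMap]
  rw [← lintegral_lintegral_swap (f := fun θ w => F (c + circleMap 0 1 θ • w))
    (hF.comp (by fun_prop : Continuous fun p : ℝ × E =>
      c + (circleMap 0 1 p.1 : ℂ) • p.2).measurable).aemeasurable]
  simp only [h]
  rw [lintegral_const, Measure.restrict_apply_univ, Real.volume_Ioc, sub_zero, mul_comm]

theorem le_ball {f : E → ℝ} {c : E} {R a : ℝ} (hf : ContinuousOn f (ball c R))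
    (h : ∀ w ∈ ball (0 : E) R, a ≤ circleAverage (fun u => f (c + u • w)) 0 1) :
    ofReal a * volume (ball (0 : E) R) ≤ ∫⁻ w in ball c R, ofReal (f w) := by
  classical
  have m : ∀ w ∈ ball (0 : E) R, ∀ θ, c + circleMap 0 1 θ • w ∈ ball c R := fun w hw θ => by
    simpa [norm_smul, mem_ball_iff_norm] using hw
  rw [← setLIntegral_congr_fun (f := fun w => ofReal ((ball c R).piecewise f 0 w)) measurableSet_ball
    fun w hw => by simp [hw], ← ENNReal.mul_le_mul_iff_right (a := ofReal (2 * π)) (by positivity)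
    ENNReal.ofReal_ne_top, ball_eq hr (hf.measurable_piecewise (g := 0) continuousOn_const
      measurableSet_ball).ennreal_ofReal, ← mul_assoc, ← setLIntegral_const]
  refine setLIntegral_mono' measurableSet_ball fun w hw => ?_
  simp only [piecewise_eq_of_mem _ _ _ (m w hw _)]
  have i : IntegrableOn (fun θ => f (c + circleMap 0 1 θ • w)) (Ioc 0 (2 * π)) :=
    (hf.comp_continuous (by fun_prop) (m w hw)).integrableOn_Ioc
  rw [← ENNReal.ofReal_mul (by positivity), lintegral_congr (g := fun θ => ofReal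
    (max (f (c + circleMap 0 1 θ • w)) 0)) fun θ => by simp, ← ofReal_integral_eq_lintegral_ofReal i.pos_part
      (.of_forall fun θ => le_max_right _ _)]
  refine ENNReal.ofReal_le_ofReal (le_trans ?_ (integral_mono i i.pos_part fun θ => le_max_left _ _))
  have := h w hw
  rwa [circleAverage, smul_eq_mul, intervalIntegral.integral_of_le (by positivity),
    le_inv_mul_iff₀ (by positivity)] at this

theorem ball_le {f : E → ℝ} {R a : ℝ} (hf : Measurable f) (h0 : ∀ w ∈ ball (0 : E) R, 0 ≤ f w)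
    (h : ∀ w ∈ ball (0 : E) R, CircleIntegrable (fun u => f (u • w)) 0 1 ∧
      circleAverage (fun u => f (u • w)) 0 1 ≤ a) :
    ∫⁻ w in ball 0 R, ofReal (f w) ≤ ofReal a * volume (ball (0 : E) R) := by
  rw [← ENNReal.mul_le_mul_iff_right (a := ofReal (2 * π)) (by positivity) ENNReal.ofReal_ne_top,
    ball_eq hr hf.ennreal_ofReal, ← mul_assoc, ← setLIntegral_const]
  refine setLIntegral_mono' measurableSet_ball fun w hw => ?_
  simp only [zero_add]
  rw [← ENNReal.ofReal_mul (by positivity), ← ofReal_integral_eq_lintegral_ofReal (h w hw).1.1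
    (.of_forall fun θ => h0 _ (by simpa [norm_smul] using hw))]
  have := (h w hw).2
  rw [circleAverage, smul_eq_mul, intervalIntegral.integral_of_le (by positivity),
    inv_mul_le_iff₀ (by positivity)] at this
  exact ENNReal.ofReal_le_ofReal this

end rot

theorem rot1 (c : Circle) : MeasurePreserving (fun w : ℂ => (c : ℂ) • w) volume volume :=
  (rotation c).measurePreserving

theorem log_le {g : ℂ → ℂ} (h : AnalyticOnNhd ℂ g (closedBall 0 |1|)) (h0 : g 0 ≠ 0) :
    Real.log ‖g 0‖ ≤ circleAverage (Real.log ‖g ·‖) 0 1 := by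
  rw [h.circleAverage_log_norm one_ne_zero h0, le_add_iff_nonneg_left]
  refine finsum_nonneg fun u => ?_
  by_cases hu : u ∈ closedBall (0 : ℂ) |1|
  · refine mul_nonneg (by exact_mod_cast MeromorphicOn.AnalyticOnNhd.divisor_nonneg h u) ?_
    rcases eq_or_ne u 0 with rfl | e
    · simp
    · exact Real.log_nonneg (by
        simpa using (one_le_inv₀ (norm_pos_iff.2 e)).2 (by simpa using hu))
  · rw [Function.locallyFinsuppWithin.apply_eq_zero_of_notMem _ hu]; simp

theorem jen (φ : ℂ → ℝ) (q : ℂ → ℂ) (R L N : ℝ) (hR : 0 < R) (hL : 0 ≤ L) (hN : 0 ≤ N)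
    (hc : ContinuousOn φ (ball 0 R))
    (hs : ∀ (c : ℂ) (r : ℝ), 0 < r → closedBall c r ⊆ ball 0 R → φ c ≤ circleAverage φ c r)
    (hq : DifferentiableOn ℂ q (ball 0 R)) (h1 : ∀ τ ∈ ball (0 : ℂ) R, ‖q τ‖ ≤ Real.exp L)
    (h2 : Real.exp (-L) ≤ ‖q 0‖)
    (h3 : ∀ τ ∈ ball (0 : ℂ) R, q τ ≠ 0 → φ τ ≤ L - N * Real.log ‖q τ‖)
    (τ : ℂ) (hτ : τ ∈ ball (0 : ℂ) (R / 4)) : φ τ ≤ 20 * (1 + N) * L := by
  classical
  have q0 : q 0 ≠ 0 := norm_pos_iff.1 ((Real.exp_pos _).trans_le h2)
  have an := hq.analyticOnNhd isOpen_ball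
  have s1 : ball τ (R / 2) ⊆ ball 0 (3 * R / 4) := ball_subset_ball' (by
    have := mem_ball.1 hτ; linarith)
  have s2 : ball (0 : ℂ) (3 * R / 4) ⊆ ball 0 R := ball_subset_ball (by linarith)
  let q' := (ball (0 : ℂ) R).piecewise q 0
  have e : ∀ z ∈ ball (0 : ℂ) R, q' z = q z := fun z hz => piecewise_eq_of_mem _ _ _ hz
  have k1 := le_ball rot1 (a := φ τ) (hc.mono (s1.trans s2)) fun w hw => by
    rcases eq_or_ne w 0 with rfl | w0
    · simp [Real.circleAverage_const]
    refine (hs τ ‖w‖ (norm_pos_iff.2 w0) ((closedBall_subset_ball (by simpa using hw)).trans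
      (s1.trans s2))).trans_eq ?_
    rw [Real.circleAverage_eq_integral_add w.arg, circleAverage]
    congr 2
    funext θ
    congr 1
    simp only [circleMap, Complex.ofReal_add, add_mul, Complex.exp_add]
    rw [mul_left_comm, Complex.norm_mul_exp_arg_mul_I w]
    simp
  have k2 := ball_le rot1 (f := fun z => L + N * (L - Real.log ‖q' z‖)) (R := 3 * R / 4)
    (a := L + N * (L + L)) (by
      have := hq.continuousOn.measurable_piecewise (g := 0) continuousOn_const measurableSet_ball
      fun_prop) (fun w hw => by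
      refine add_nonneg hL (mul_nonneg hN (sub_nonneg.2 ?_))
      rw [e w (s2 hw)]
      rcases eq_or_ne (q w) 0 with h | h
      · simpa [h]
      · exact (Real.log_le_iff_le_exp (norm_pos_iff.2 h)).2 (h1 w (s2 hw))) fun w hw => by
      have m : ∀ u ∈ closedBall (0 : ℂ) |1|, u • w ∈ ball (0 : ℂ) R := fun u hu => s2 (by
        rw [mem_ball_zero_iff, norm_smul] at *
        exact (mul_le_of_le_one_left (norm_nonneg _) (by simpa using hu)).trans_lt hw)
      have a : AnalyticOnNhd ℂ (fun u : ℂ => q' (u • w)) (closedBall 0 |1|) := fun u hu =>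
        ((an _ (m u hu)).congr ((isOpen_ball.eventually_mem (m u hu)).mono fun z hz =>
          (e z hz).symm)).comp (f := fun u : ℂ => u • w) (by fun_prop)
      have i := (a.mono sphere_subset_closedBall).meromorphicOn.circleIntegrable_log_norm
      have j := ((circleIntegrable_const L 0 1).sub i).const_smul (a := N)
      refine ⟨(circleIntegrable_const L 0 1).add j, ?_⟩
      have := log_le a (by simpa [e 0 (mem_ball_self hR)])
      rw [zero_smul, e 0 (mem_ball_self hR)] at this
      have := (Real.le_log_iff_exp_le (norm_pos_iff.2 q0)).2 h2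
      erw [Real.circleAverage_fun_add (circleIntegrable_const L 0 1) j, Real.circleAverage_smul,
        Real.circleAverage_sub (circleIntegrable_const L 0 1) i, Real.circleAverage_const,
        smul_eq_mul]
      gcongr
      linarith
  have k3 := k1.trans ((lintegral_mono_set s1).trans ((setLIntegral_mono_ae' measurableSet_ball
    ((ae_restrict_iff' measurableSet_ball).1 (ae_restrict_of_ae_restrict_of_subset s2
      (ae_restrict_le_codiscreteWithin measurableSet_ball (an.preimage_zero_mem_codiscreteWithin q0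
        (mem_ball_self hR) (isConnected_ball hR)))) |>.mono fun z hz h =>
      ENNReal.ofReal_le_ofReal (by
        have := h3 z (s2 h) (hz h)
        rw [e z (s2 h)]
        nlinarith [mul_nonneg hN hL]))).trans k2))
  have p : 0 ≤ L + N * (L + L) := by positivity
  simp only [Complex.volume_ball, ← mul_assoc] at k3
  rw [ENNReal.mul_le_mul_iff_left (by simp [← NNReal.coe_eq_zero]) ENNReal.coe_ne_top,
    ← ENNReal.ofReal_pow (by positivity), ← ENNReal.ofReal_pow (by positivity),
    ← ENNReal.ofReal_mul' (by positivity), ← ENNReal.ofReal_mul p,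
    ENNReal.ofReal_le_ofReal_iff (by positivity)] at k3
  nlinarith [mul_nonneg hN hL, sq_pos_of_pos hR, mul_nonneg (mul_nonneg hN hL) (sq_nonneg R),
    mul_nonneg hL (sq_nonneg R)]

theorem three (h : ℂ → ℂ) (ρ B : ℝ) (N : ℕ) (hB : 1 ≤ B) (hd : DiffContOnCl ℂ h (ball 0 ρ))
    (h1 : ∀ τ ∈ closedBall (0 : ℂ) 1, ‖h τ‖ ≤ B) (h2 : ∀ τ ∈ sphere (0 : ℂ) ρ, ‖h τ‖ ≤ B * ρ ^ N)
    (τ : ℂ) (hτ : τ ∈ closedBall (0 : ℂ) ρ) : ‖h τ‖ ≤ B * (1 + ‖τ‖) ^ N := by
  by_cases e : τ ∈ closedBall (0 : ℂ) 1
  · exact (h1 τ e).trans (le_mul_of_one_le_right (by linarith) (one_le_pow₀ (by simp)))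
  refine le_trans ?_ (mul_le_mul_of_nonneg_left (pow_le_pow_left₀ (norm_nonneg τ)
    (le_add_of_nonneg_left zero_le_one) N) (by linarith))
  by_cases e' : τ ∈ sphere (0 : ℂ) ρ
  · exact (mem_sphere_zero_iff_norm.1 e').symm ▸ h2 τ e'
  have n : ∀ z ∈ closure (closedBall (0 : ℂ) 1)ᶜ, 0 < ‖z‖ ^ N := fun z hz => by
    rw [closure_compl, interior_closedBall _ one_ne_zero, mem_compl_iff, mem_ball_zero_iff] at hz
    exact pow_pos (by linarith) N
  have := Complex.norm_le_of_forall_mem_frontier_norm_le (U := ball 0 ρ ∩ (closedBall 0 1)ᶜ)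
    (f := fun z => (z ^ N)⁻¹ • h z) (isBounded_ball.subset inter_subset_left)
    (((differentiable_id.pow N).diffContOnCl.inv fun z hz => by
      simpa using (n z (closure_mono inter_subset_right hz)).ne').smul (hd.mono inter_subset_left))
    (C := B) (fun z hz => ?_) (subset_closure ⟨lt_of_le_of_ne hτ e', e⟩)
  · rwa [norm_smul, norm_inv, norm_pow, inv_mul_le_iff₀ (n τ (subset_closure e)), mul_comm] at this
  rw [norm_smul, norm_inv, norm_pow]
  rcases frontier_inter_subset _ _ hz with ⟨a, b⟩ | ⟨-, b⟩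
  · have a := frontier_ball_subset_sphere a
    rw [inv_mul_le_iff₀ (n z b), mul_comm, mem_sphere_zero_iff_norm.1 a]
    exact h2 z a
  · have b := frontier_closedBall_subset_sphere ((frontier_compl _).subset b)
    simpa [mem_sphere_zero_iff_norm.1 b] using h1 z (sphere_subset_closedBall b)

theorem root (d : ℕ) (b : Fin (d + 1) → ℂ) (a : ℂ) (E : ℝ) (h : ∑ l, b l * a ^ (l : ℕ) = 0)
    (hb : ∀ l, ‖b l‖ ≤ E) : ‖a‖ * ‖b (Fin.last d)‖ ≤ (d + 1) * E := by
  have E0 := (norm_nonneg _).trans (hb 0)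
  have d0 : 0 ≤ d * E := by positivity
  rcases le_or_gt ‖a‖ 1 with e | e
  · nlinarith [hb (Fin.last d), norm_nonneg (b (Fin.last d))]
  refine le_of_mul_le_mul_right (le_trans ?_ (mul_le_mul_of_nonneg_right
    (show d * E ≤ _ by linarith) (by positivity))) (pow_pos (one_pos.trans e) d)
  rw [Fin.sum_univ_castSucc, add_comm, add_eq_zero_iff_eq_neg, Fin.val_last] at h
  rw [mul_assoc, ← norm_pow, ← norm_mul, h, norm_neg, ← norm_mul, Finset.mul_sum, norm_pow]
  refine (norm_sum_le_of_le _ (n := fun _ => E * ‖a‖ ^ d) fun l _ => ?_).trans_eq (by simp [mul_assoc])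
  rw [mul_left_comm, ← pow_succ', norm_mul, norm_pow]
  exact mul_le_mul (hb _) (pow_le_pow_right₀ e.le l.2) (by positivity) E0

theorem hom (ι : Type) [Fintype ι] (B : MvPolynomial ι ℂ) (D : ℕ) (h : B.IsHomogeneous D) :
    (∀ (x : ι → ℂ) (c : ℂ),
      MvPolynomial.eval (fun i => c * x i) B = c ^ D * MvPolynomial.eval x B) ∧
    ∃ C : ℝ, 0 ≤ C ∧ ∀ (x : ι → ℂ) (E : ℝ), 0 ≤ E → (∀ i, ‖x i‖ ≤ E) →
      ‖MvPolynomial.eval x B‖ ≤ C * E ^ D := by
  have e : ∀ s ∈ B.support, ∑ i, s i = D := fun s hs => by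
    rw [h.degree_eq_sum_deg_support hs]
    exact (Finset.sum_subset (Finset.subset_univ _) fun i _ => Finsupp.notMem_support_iff.1).symm
  refine ⟨fun x c => ?_, ∑ s ∈ B.support, ‖B.coeff s‖, by positivity, fun x E h0 hx => ?_⟩ <;>
    simp only [MvPolynomial.eval_eq', Finset.mul_sum, Finset.sum_mul]
  · refine Finset.sum_congr rfl fun s hs => ?_
    simp only [mul_pow, Finset.prod_mul_distrib, Finset.prod_pow_eq_pow_sum, e s hs, mul_left_comm]
  · refine norm_sum_le_of_le _ fun s hs => ?_
    rw [norm_mul, norm_prod, ← e s hs, ← Finset.prod_pow_eq_pow_sum]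
    gcongr with i
    rw [norm_pow]
    exact pow_le_pow_left₀ (norm_nonneg _) (hx i) _

theorem mv (m : ℕ) (G : (Fin m → ℂ) → ℂ) (c : Fin m → ℂ) (r : ℝ) (hr : 0 < r)
    (hG : DifferentiableOn ℂ G (ball c r)) : ofReal (‖G c‖ ^ 2 * (π * r ^ 2) ^ m) ≤
      ∫⁻ y in ball c r, ofReal (‖G y‖ ^ 2) := by
  refine le_trans (le_of_eq ?_) (le_ball (fun u => volume_preserving_pi fun _ => rot1 u)
    (a := ‖G c‖ ^ 2) (hG.continuousOn.norm.pow 2) fun w hw => ?_)
  · rw [ENNReal.ofReal_mul (by positivity), volume_pi_ball _ hr,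
      ENNReal.ofReal_pow (p := π * _) (by positivity), ENNReal.ofReal_mul Real.pi_pos.le,
      ENNReal.ofReal_pow hr.le]
    simp [mul_comm, ← NNReal.coe_real_pi]
  have d : DiffContOnCl ℂ (fun u : ℂ => G (c + u • w) ^ 2) (ball 0 |1|) :=
    DifferentiableOn.diffContOnCl ((hG.comp (by fun_prop) fun u hu => by
      rw [mem_ball_iff_norm, add_sub_cancel_left, norm_smul]
      exact (mul_le_of_le_one_left (norm_nonneg _) (by
        simpa using closure_ball_subset_closedBall hu)).trans_lt (by simpa using hw)).pow 2)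
  have := d.circleAverage
  simp only [zero_smul, add_zero] at this
  simp only [← norm_pow, ← this, circleAverage, norm_smul, smul_eq_mul]
  exact mul_le_mul (Real.norm_of_nonneg (by positivity)).le
    (intervalIntegral.norm_integral_le_integral_norm (by positivity)) (norm_nonneg _) (by positivity)

end Jb

/-- **JB** -/
theorem jb : JB :=
  ⟨Jb.jen, fun h ρ B N _ => Jb.three h ρ B N, Jb.root, Jb.hom, Jb.mv⟩

end Vale.Agent.P253W.C
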