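import Vale.Agent.P253W.C.Defs

/-! P253W, row C.L2H: the homogeneous form of the algebraic relations. -/

open scoped Manifold Bundle
open Bundle MeasureTheory MvPolynomial
open Vale.Agent.P272.K (Cm)

noncomputable section

namespace Vale.Agent.P253W.C

namespace L2h

variable {n : ℕ}

/-- the homogenisation in degree `D` -/
def hz (D : ℕ) (P : MvPolynomial (Fin n) ℂ) : MvPolynomial (Option (Fin n)) ℂ :=
  ∑ s ∈ P.support, C (coeff s P) * (X none ^ (D - ∑ i, s i) * ∏ i, X (some i) ^ s i)

variable {D : ℕ} {P : MvPolynomial (Fin n) ℂ}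

theorem deg_lt (h : P.totalDegree < D) {s : Fin n →₀ ℕ} (hs : s ∈ P.support) : ∑ i, s i < D := by
  have := le_totalDegree hs
  rw [Finsupp.sum_fintype _ _ fun _ => rfl] at this
  exact this.trans_lt h

theorem hz_hom (h : P.totalDegree < D) : (hz D P).IsHomogeneous D :=
  IsHomogeneous.sum _ _ _ fun s hs => by
    have := (isHomogeneous_X_pow (R := ℂ) (none : Option (Fin n)) (D - ∑ i, s i)).mul
      (IsHomogeneous.prod Finset.univ _ _ fun i _ => isHomogeneous_X_pow (some i) (s i))
    rw [Nat.sub_add_cancel (deg_lt h hs).le] at this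
    exact this.C_mul _

theorem hz_zero (h : P.totalDegree < D) {g : Option (Fin n) → ℂ} (h0 : g none = 0) :
    eval g (hz D P) = 0 := by
  rw [hz, map_sum]
  exact Finset.sum_eq_zero fun s hs => by simp [h0, Nat.sub_ne_zero_of_lt (deg_lt h hs)]

theorem hz_eval (h : P.totalDegree < D) {g : Option (Fin n) → ℂ} (h0 : g none ≠ 0) :
    eval g (hz D P) = g none ^ D * eval (fun i => g (some i) / g none) P := by
  rw [hz, map_sum, eval_eq', Finset.mul_sum]
  refine Finset.sum_congr rfl fun s hs => ?_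
  obtain ⟨e, rfl⟩ := Nat.exists_eq_add_of_le (deg_lt h hs).le
  simp only [map_mul, eval_C, map_pow, eval_X, map_prod, div_pow, Finset.prod_div_distrib,
    Finset.prod_pow_eq_pow_sum, Nat.add_sub_cancel_left, pow_add]
  field_simp

theorem ev_mem {M ι : Type} (A : Subalgebra ℂ (M → ℂ)) {g : ι → M → ℂ} (h : ∀ i, g i ∈ A)
    (B : MvPolynomial ι ℂ) : (fun x => eval (fun i => g i x) B) ∈ A := by
  induction B using MvPolynomial.induction_on with
  | C a => simp only [eval_C]; exact A.algebraMap_mem a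
  | add p q hp hq => simp only [map_add]; exact A.add_mem hp hq
  | mul_X p i hp => simp only [map_mul, eval_X]; exact A.mul_mem hp (h i)

end L2h

open L2h

variable {n : ℕ} {M : Type} [MetricSpace M] [ChartedSpace (Cm n) M]
  [RiemannianBundle fun x : M => TangentSpace 𝓘(ℝ, Cm n) x] {F : Flow n M} [MeasurableSpace M]
  {μ : Measure M}

theorem l2h (T : F.TA μ) : L2H T := by
  refine ⟨?_, ev_mem T.A T.z_mem⟩
  obtain ⟨m, g₀, g, -, a0, -, a, l0, l, h⟩ := T.l2r
  have mem : ∀ i : Option (Fin n), i.elim g₀ g ∈ T.A := fun i => by cases i; exacts [a0, a _]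
  refine ⟨m, fun i => i.elim g₀ g, mem, fun i => by cases i; exacts [l0, l _], ev_mem T.A mem,
    fun b hb => ?_⟩
  obtain ⟨R, -, ⟨x₀, h0, h1⟩, h2⟩ := h b hb
  set D := (Finset.univ.sup fun l : Fin (R.natDegree + 1) => (R.coeff l).totalDegree) + 1
  have hD : ∀ l : Fin (R.natDegree + 1), (R.coeff l).totalDegree < D := fun l =>
    Nat.lt_succ_of_le (Finset.le_sup (f := fun l : Fin (R.natDegree + 1) =>
      (R.coeff l).totalDegree) (Finset.mem_univ l))
  refine ⟨R.natDegree, D, fun l => hz D (R.coeff l), fun l => hz_hom (hD l), ⟨x₀, ?_⟩, fun x => ?_⟩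
  · rw [hz_eval (hD _) h0]
    exact mul_ne_zero (pow_ne_zero _ h0) h1
  · by_cases k : g₀ x = 0
    · exact Finset.sum_eq_zero fun l _ => by rw [hz_zero (hD l) k, zero_mul]
    · have := h2 x k
      rw [Polynomial.eval_map, Polynomial.eval₂_eq_sum_range, Finset.sum_range] at this
      simp only [fun l => hz_eval (g := fun i => Option.elim i g₀ g x) (hD l) k, mul_assoc,
        ← Finset.mul_sum]
      exact mul_eq_zero_of_right _ this

end Vale.Agent.P253W.C
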