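import Vale.Agent.P253W.C.Defs
import Vale.Agent.P253W.Y.Tr

/-!
# P253W, rows C.MAP and C.PUL: holomorphic maps into the manifold (helper1)
-/

open scoped Manifold ContDiff Bundle ENNReal Topology ComplexConjugate ComplexOrder Matrix
open Bundle IsManifold MeasureTheory Set Metric Filter Vale.Agent.P253.Mfd Vale.Agent.P253Z
open Vale.Agent.P272.K (Cm jacM Chart)

set_option linter.unusedSectionVars false

noncomputable section

namespace Vale.Agent.P253W.C

variable {n : ℕ} {M : Type} [MetricSpace M] [ChartedSpace (Cm n) M] [IsManifold 𝓘(ℂ, Cm n) 1 M]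

namespace Map

variable {E : Type} [NormedAddCommGroup E] [NormedSpace ℂ E] [FiniteDimensional ℂ E]

theorem diff {Φ : E → M} {U : Set E} {e : Chart n M} (hU : IsOpen U)
    (h : MDifferentiableOn 𝓘(ℂ, E) 𝓘(ℂ, Cm n) Φ U) (he : Hc e) {y : E} (hy : y ∈ U)
    (hx : Φ y ∈ e.source) : DifferentiableAt ℂ (fun w => e (Φ w)) y := by
  obtain ⟨h1, h2⟩ := V.Arf.chart_sm hU h he
  exact (h2.contDiffAt (h1.mem_nhds ⟨hy, hx⟩)).differentiableAt (by simp)

theorem hol {a : M → ℂ} {Φ : E → M} {U : Set E} (ha : IsSec n 0 a)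
    (h : MDifferentiableOn 𝓘(ℂ, E) 𝓘(ℂ, Cm n) Φ U) : DifferentiableOn ℂ (fun y => a (Φ y)) U :=
  mdifferentiableOn_iff_differentiableOn.1
    (((B1aP.sec_zero a).1 ha).comp_mdifferentiableOn h)

theorem der (z : Fin n → M → ℂ) (f : ℂ → M) (U : Set ℂ) (hz : ∀ i, IsSec n 0 (z i))
    (hU : IsOpen U) (hf : H1 n f U) (τ : ℂ) (hτ : τ ∈ U) (i : Fin n) :
    deriv (fun s => z i (f s)) τ = (Dz n z (f τ) *ᵥ d1 n f τ) i := by
  have hx := mem_chart_source (Cm n) (f τ)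
  have h1 : DifferentiableAt ℂ (fun w i => z i ((pc n (f τ)).symm w)) (pc n (f τ) (f τ)) :=
    differentiableAt_pi.2 fun i => by
      have := hz i _ (B1aP.chart (f τ)) _ (mem_chart_target _ _)
      rw [B1aP.co_zero] at this
      exact this.differentiableAt
  have h2 := hasDerivAt_pi.1 (h1.hasFDerivAt.comp_hasDerivAt τ
    (diff hU hf (B1aP.chart _) hτ hx).hasDerivAt) i
  rw [← Y.Tr.jc_mulVec h1] at h2
  refine (h2.congr_of_eventuallyEq ?_).deriv
  filter_upwards [(hf.continuousOn.continuousAt (hU.mem_nhds hτ)).eventually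
    (chart_source_mem_nhds (Cm n) (f τ))] with s hs
  rw [Function.comp, (pc n (f τ)).left_inv hs]

theorem lim (f : ℕ → ℂ → M) (g : ℂ → M) (U : Set ℂ) (hU : IsOpen U) (hf : ∀ k, H1 n (f k) U)
    (h : TendstoLocallyUniformlyOn f g atTop U) : H1 n g U := fun τ hτ => by
  have cg := h.continuousOn (Eventually.of_forall fun k => (hf k).continuousOn).frequently
  have t1 : ∀ s ∈ U, Tendsto (fun y : ℕ × ℂ => g y.2) (atTop ×ˢ 𝓝 s) (𝓝 (g s)) := fun s hs =>
    (cg.continuousAt (hU.mem_nhds hs)).tendsto.comp tendsto_snd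
  have t2 : ∀ s ∈ U, Tendsto (fun y : ℕ × ℂ => f y.1 y.2) (atTop ×ˢ 𝓝 s) (𝓝 (g s)) := fun s hs =>
    (t1 s hs).congr_uniformity (hU.nhdsWithin_eq hs ▸
      tendstoLocallyUniformlyOn_iff_forall_tendsto.1 h s hs)
  have h' := mem_chart_source (Cm n) (g τ)
  have he := B1aP.chart (n := n) (g τ)
  generalize chartAt (Cm n) (g τ) = e at h' he
  obtain ⟨p, hp, q, hq, h1⟩ := eventually_prod_iff.1
    ((t2 τ hτ).eventually (e.open_source.mem_nhds h'))
  obtain ⟨W, v1, hW, v2⟩ := _root_.mem_nhds_iff.1 (hq.and ((hU.eventually_mem hτ).and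
    ((cg.continuousAt (hU.mem_nhds hτ)).eventually (e.open_source.mem_nhds h'))))
  have h2 : TendstoLocallyUniformlyOn (fun k s => e (f k s)) (fun s => e (g s)) atTop W :=
    tendstoLocallyUniformlyOn_iff_forall_tendsto.2 fun s hs => by
      have c := (e.continuousAt (v1 hs).2.2).tendsto
      rw [hW.nhdsWithin_eq hs]
      exact ((c.comp (t1 s (v1 hs).2.1)).prodMk_nhds (c.comp (t2 s (v1 hs).2.1))).mono_right
        (nhds_le_uniformity _)
  have h3 : ∀ᶠ k in atTop, DifferentiableOn ℂ (fun s => e (f k s)) W := by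
    filter_upwards [hp] with k k1 s hs
    exact (diff hU (hf k) he (v1 hs).2.1 (h1 k1 (v1 hs).1)).differentiableWithinAt
  have h4 : H1 n (fun s => e.symm (e (g s))) W :=
    ((contMDiffOn_symm_of_mem_maximalAtlas he).mdifferentiableOn one_ne_zero).comp
      (h2.differentiableOn h3 hW).mdifferentiableOn fun s hs => e.map_source (v1 hs).2.2
  exact ((h4.mdifferentiableAt (hW.mem_nhds v2)).congr_of_eventuallyEq (by
    filter_upwards [hW.mem_nhds v2] with s hs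
      using (e.left_inv (v1 hs).2.2).symm)).mdifferentiableWithinAt

theorem scale (f : ℂ → M) (r s : ℝ) (hs : 0 < s) (h : H1 n f (ball 0 r)) :
    H1 n (fun τ => f (s * τ)) (ball 0 (r / s)) :=
  h.comp (DifferentiableOn.mdifferentiableOn (f := fun τ : ℂ => s * τ) (by fun_prop))
    fun τ hτ => by
      rw [mem_preimage, mem_ball_zero_iff, norm_mul, Complex.norm_of_nonneg hs.le]
      exact (lt_div_iff₀' hs).1 (mem_ball_zero_iff.1 hτ)

theorem cauchy (p : M) : ∃ δ B : ℝ, 0 < δ ∧ ∀ (f : ℂ → M) (r s : ℝ), 0 < s → s < r →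
    H1 n f (ball 0 r) → f 0 = p → (∀ τ ∈ closedBall (0 : ℂ) s, dist (f τ) p ≤ δ) →
    ‖d1 n f 0‖ * s ≤ B := by
  have hx := mem_chart_source (Cm n) p
  have h1 : ∀ᶠ x in 𝓝 p, ‖pc n p x‖ < ‖pc n p p‖ + 1 :=
    ((pc n p).continuousAt hx).norm.eventually_lt continuousAt_const (lt_add_one _)
  obtain ⟨δ, hδ, hb⟩ := nhds_basis_closedBall.mem_iff.1
    (h1.and (chart_source_mem_nhds (Cm n) p))
  refine ⟨δ, ‖pc n p p‖ + 1, hδ, fun f r s hs hr hf h0 hd => ?_⟩
  have h2 : DiffContOnCl ℂ (fun τ => pc n p (f τ)) (ball 0 s) := by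
    refine DifferentiableOn.diffContOnCl fun τ hτ => ?_
    rw [closure_ball _ hs.ne'] at hτ
    exact (diff isOpen_ball hf (B1aP.chart p) (closedBall_subset_ball hr hτ)
      (hb (hd τ hτ)).2).differentiableWithinAt
  rw [d1, h0, ← le_div_iff₀ hs]
  exact Complex.norm_deriv_le_of_forall_mem_sphere_norm_le hs h2 fun τ hτ =>
    (hb (hd τ (sphere_subset_closedBall hτ))).1.le

theorem line (Ψ : Cm n → M) (v : Cm n) (hv : ‖v‖ ≤ 1) (h : Hn Ψ (ball 0 1)) :
    H1 n (fun τ => Ψ (τ • v)) (ball 0 1) ∧ d1 n (fun τ => Ψ (τ • v)) 0 = dn Ψ 0 v := by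
  refine ⟨h.comp (DifferentiableOn.mdifferentiableOn (f := fun τ : ℂ => τ • v) (by fun_prop))
    fun τ hτ => ?_, ?_⟩
  · rw [mem_preimage, mem_ball_zero_iff, norm_smul]
    exact (mul_le_of_le_one_right (norm_nonneg _) hv).trans_lt (mem_ball_zero_iff.1 hτ)
  · have h1 := diff isOpen_ball h (B1aP.chart (Ψ 0)) (mem_ball_self one_pos) (mem_chart_source _ _)
    have h2 := h1.hasFDerivAt.comp_hasDerivAt_of_eq (0 : ℂ)
      ((hasDerivAt_id (0 : ℂ)).smul_const v) (zero_smul ℂ v).symm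
    rw [Y.Tr.dn_eq h1, d1, zero_smul, ← one_smul ℂ v, ← h2.deriv, one_smul]
    rfl

theorem lin (Ψ : Cm n → M) (U : Set (Cm n)) (L : Mx n) (hU : IsOpen U) (h : Hn Ψ U) :
    Hn (fun y => Ψ (L *ᵥ y)) {y | L *ᵥ y ∈ U} ∧ ∀ y, L *ᵥ y ∈ U → ∀ v,
      dn (fun y => Ψ (L *ᵥ y)) y v = dn Ψ (L *ᵥ y) (L *ᵥ v) := by
  have h0 : ∀ y, HasFDerivAt (fun y : Cm n => L *ᵥ y)
      (LinearMap.toContinuousLinearMap (Matrix.mulVecLin L)) y := fun y =>
    (LinearMap.toContinuousLinearMap (Matrix.mulVecLin L)).hasFDerivAt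
  refine ⟨h.comp (DifferentiableOn.mdifferentiableOn fun y _ =>
    (h0 y).differentiableAt.differentiableWithinAt) fun y hy => hy, fun y hy v => ?_⟩
  have h1 := diff hU h (B1aP.chart (Ψ (L *ᵥ y))) hy (mem_chart_source _ _)
  have h2 := h1.hasFDerivAt.comp y (h0 y)
  rw [Y.Tr.dn_eq (Ψ := fun y => Ψ (L *ᵥ y)) h2.differentiableAt, Y.Tr.dn_eq h1]
  exact congrFun (congrArg _ h2.fderiv) v

/-- the Jacobian matrix in a fixed chart -/
theorem jm_eq {Ψ : Cm n → M} {U : Set (Cm n)} {e : Chart n M} (hU : IsOpen U) (h : Hn Ψ U)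
    (he : Hc e) {y : Cm n} (hy : y ∈ U) (hx : Ψ y ∈ e.source) :
    jm Ψ y = jacM e (pc n (Ψ y)) (Ψ y) * Y.jc (fun w => e (Ψ w)) y := by
  have hp := mem_chart_source (Cm n) (Ψ y)
  have h1 := (B1aP.hol' he (B1aP.chart _) hx hp).differentiableAt
  refine Eq.trans (Y.Tr.jc_congr ?_) (Y.Tr.jc_comp (ψ := fun w => e (Ψ w)) h1 (diff hU h he hy hx))
  filter_upwards [(h.continuousOn.continuousAt (hU.mem_nhds hy)).eventually
    (e.open_source.mem_nhds hx)] with w hw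
  rw [Function.comp, e.left_inv hw]

end Map

/-- **Row MAP.** -/
theorem map (_ : B1a n M) : MAP n M :=
  ⟨fun _ _ _ => Map.hol, fun _ _ _ => Map.hol, Map.der, Map.lim, fun f r s _ => Map.scale f r s,
    Map.cauchy, Map.line, Map.lin⟩

variable [IsManifold 𝓘(ℝ, Cm n) ∞ M] [RiemannianBundle fun x : M => TangentSpace 𝓘(ℝ, Cm n) x]
  {F : Flow n M}

theorem pul' (hF : F.Is) : PUL F := by
  intro Ψ U hU h
  refine ⟨fun y hy => DifferentiableAt.differentiableWithinAt ?_, fun t ht y => ⟨?_, ?_⟩⟩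
  · have he := B1aP.chart (n := n) (Ψ y)
    have hx := mem_chart_source (Cm n) (Ψ y)
    generalize chartAt (Cm n) (Ψ y) = e at he hx
    obtain ⟨h1, h2⟩ := V.Arf.chart_sm hU h he
    have nb := h1.mem_nhds (⟨hy, hx⟩ : y ∈ U ∩ Ψ ⁻¹' e.source)
    have an : AnalyticAt ℂ (fun w => e (Ψ w)) y :=
      P268.analyticAt_of_differentiableOn h1 (h2.differentiableOn (by simp)) ⟨hy, hx⟩
    refine (((hF.sec e he _ (e.map_source hx)).comp (f := fun w => e (Ψ w)) an).mul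
      (B1aP.analyticAt_det an)).differentiableAt.congr_of_eventuallyEq ?_
    filter_upwards [nb] with w hw
    rw [jo, Map.jm_eq hU h he hw.1 hw.2, Matrix.det_mul, Y.Tr.jc_eq (Map.diff hU h he hw.1 hw.2),
      Pi.mul_apply, Function.comp, B1aP.co_at 1 _ hw.2, zpow_one]
    ring
  · exact (V.Alg.pb_psd _
      (hF.pos t ht _ (B1aP.chart _) _ (mem_chart_target _ _)).posSemidef).1
  · rw [← Y.Tr.u_eq hF Ψ t ht y, ← mul_assoc, ← Real.exp_add, add_neg_cancel, Real.exp_zero,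
      one_mul, jo, Y.om, mul_comm]

variable [IsContMDiffRiemannianBundle 𝓘(ℝ, Cm n) ∞ (Cm n) fun x : M => TangentSpace 𝓘(ℝ, Cm n) x]
  [IsRiemannianManifold 𝓘(ℝ, Cm n) M] [CompleteSpace M] [ConnectedSpace M] [NoncompactSpace M]
  [MeasurableSpace M] [BorelSpace M] {μ : Measure M} {A : Fam F} {T : F.TA μ}

/-- **Row PUL.** -/
theorem pul (p : P3 A T) : PUL F := pul' p.is

end Vale.Agent.P253W.C
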