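import Vale.Agent.P253W.C.Defs0

/-!
# P253W, block C, row MER: functions which are meromorphic at infinity
-/

set_option linter.all false

open scoped Topology
open Set Metric Filter Bornology

noncomputable section

namespace Vale.Agent.P253W.C

namespace Mer

theorem ev_ex {p : ℂ → Prop} : (∀ᶠ τ in cobounded ℂ, p τ) ↔ ∃ ρ, ∀ τ ∈ ex ρ, p τ := by
  rw [(hasBasis_cobounded_compl_closedBall (0 : ℂ)).eventually_iff]
  simp [ex]

theorem ord (h : ℂ → ℂ) (ρ : ℝ) (hd : DifferentiableOn ℂ h (ex ρ)) (hb : PB h) :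
    (∃ ρ' : ℝ, ∀ τ ∈ ex ρ', h τ = 0) ∨ ∃ (m : ℤ) (c C ρ' : ℝ), 0 < c ∧
      ∀ τ ∈ ex ρ', c * ‖τ‖ ^ m ≤ ‖h τ‖ ∧ ‖h τ‖ ≤ C * ‖τ‖ ^ m := by
  obtain ⟨N, hb⟩ := hb
  have o : IsOpen (ex ρ) := isOpen_lt continuous_const continuous_norm
  obtain ⟨U, h1, h2⟩ := mem_nhdsWithin_iff_exists_mem_nhds_inter.1 (tendsto_inv₀_nhdsNE_zero.eventually
    ((ev_ex.2 hb).and (ev_ex.2 ⟨ρ, fun _ h => h⟩)))
  have an := (Complex.differentiableOn_update_limUnder_of_bddAbove h1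
    (f := fun s => s ^ N * h s⁻¹) (fun s hs => ((differentiableAt_pow N).mul
      ((hd.differentiableAt (o.mem_nhds (h2 hs).2)).comp s
        (differentiableAt_inv hs.2))).differentiableWithinAt) ⟨1, by
      rintro _ ⟨s, hs, rfl⟩
      have := (h2 hs).1
      rw [norm_inv, inv_pow, inv_eq_one_div (_ ^ _),
        le_div_iff₀' (pow_pos (norm_pos_iff.2 hs.2) N)] at this
      simpa using this⟩).analyticAt h1
  set G := Function.update (fun s : ℂ => s ^ N * h s⁻¹) 0 _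
  have e : ∀ᶠ τ in cobounded ℂ, τ ≠ 0 ∧ h τ = τ ^ N * G τ⁻¹ :=
    (eventually_ne_cobounded 0).mono fun τ h0 => ⟨h0, by simp [G, h0]⟩
  by_cases z : ∀ᶠ s in 𝓝 0, G s = 0
  · exact .inl (ev_ex.1 ((e.and (tendsto_inv₀_cobounded.eventually z)).mono fun τ k => by
      rw [k.1.2, k.2, mul_zero]))
  obtain ⟨k, g, g1, g2, g3⟩ := an.exists_eventuallyEq_pow_smul_nonzero_iff.2 z
  have g0 := norm_pos_iff.2 g2
  obtain ⟨ρ', h'⟩ := ev_ex.1 (e.and (tendsto_inv₀_cobounded.eventually (g3.and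
    (g1.continuousAt.norm.eventually (Icc_mem_nhds (half_lt_self g0) (lt_two_mul_self g0))))))
  refine .inr ⟨N - k, ‖g 0‖ / 2, 2 * ‖g 0‖, ρ', half_pos g0, fun τ hτ => ?_⟩
  obtain ⟨⟨a, b⟩, c, d⟩ := h' τ hτ
  have p : 0 ≤ ‖τ‖ ^ (N - k : ℤ) := by positivity
  have : ‖h τ‖ = ‖g τ⁻¹‖ * ‖τ‖ ^ (N - k : ℤ) := by
    rw [b, c, zpow_sub₀ (norm_ne_zero_iff.2 a)]
    simp [div_eq_mul_inv]
    ring
  exact this ▸ ⟨mul_le_mul_of_nonneg_right d.1 p, mul_le_mul_of_nonneg_right d.2 p⟩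

theorem zero {h : ℂ → ℂ} (hd : Differentiable ℂ h) {m : ℤ} (hm : m < 0) {C ρ : ℝ}
    (hb : ∀ τ ∈ ex ρ, ‖h τ‖ ≤ C * ‖τ‖ ^ m) (τ : ℂ) : h τ = 0 :=
  hd.apply_eq_of_tendsto_cocompact τ (cobounded_eq_cocompact (α := ℂ) ▸
    squeeze_zero_norm' (ev_ex.2 ⟨ρ, hb⟩) (by
      simpa using ((tendsto_zpow_atTop_zero hm).comp tendsto_norm_cobounded_atTop).const_mul C))

end Mer

theorem mer : MER where
  ord := Mer.ord
  ent h hd hb := fun ⟨τ, hτ⟩ => by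
    rcases Mer.ord h 0 hd.differentiableOn hb with ⟨ρ, k⟩ | ⟨m, c, C, ρ, h0, k⟩
    · exact (hτ (Mer.zero hd (m := -1) (by simp) (C := 0) (ρ := ρ) (fun τ h => by simp [k τ h]) τ)).elim
    rcases lt_or_ge m 0 with e | e
    · exact (hτ (Mer.zero hd e (fun τ h => (k τ h).2) τ)).elim
    lift m to ℕ using e
    exact ⟨m, c, C, ρ, h0, by simpa using k⟩

end Vale.Agent.P253W.C
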