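import Vale.Agent.P253W.C.Curv

/-!
# P253W, row C.NU: the slope does not depend on the time
-/

open scoped Manifold ContDiff Bundle ENNReal Topology ComplexConjugate ComplexOrder Matrix
open Bundle IsManifold MeasureTheory Set Metric Filter Bornology Vale.Agent.P253.Mfd
  Vale.Agent.P253Z
open Vale.Agent.P272.K (Cm jacM Chart)
open Vale.Agent.P272.GJ (ddb)

set_option linter.unusedSectionVars false

noncomputable section

namespace Vale.Agent.P253W.C

variable {n : ℕ} {M : Type} [MetricSpace M] [ChartedSpace (Cm n) M] [IsManifold 𝓘(ℂ, Cm n) 1 M]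
  [IsManifold 𝓘(ℝ, Cm n) ∞ M] [RiemannianBundle fun x : M => TangentSpace 𝓘(ℝ, Cm n) x]
  [IsContMDiffRiemannianBundle 𝓘(ℝ, Cm n) ∞ (Cm n) fun x : M => TangentSpace 𝓘(ℝ, Cm n) x]
  [IsRiemannianManifold 𝓘(ℝ, Cm n) M] [CompleteSpace M] [ConnectedSpace M] [NoncompactSpace M]
  [MeasurableSpace M] [BorelSpace M] {μ : Measure M} {F : Flow n M} {A : Fam F} {T : F.TA μ}

theorem nu (p : P3 A T) (hc : CRV F A.d) (hp : PCF T) (hs : SH0) : NU T := by
  intro f hf
  have sh := fun t ht => Curv.sh p hc hp hs hf (t := t) ht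
  have cu : ∀ t, 0 ≤ t → ContinuousOn (fun τ => F.u t (f τ)) (ex 0) := fun t ht =>
    (hc.u t ht f hf.hol).1.continuous.continuousOn
  have hm : ∀ s t, 0 ≤ s → s ≤ t → slp (fun τ => F.u s (f τ)) ≤ slp fun τ => F.u t (f τ) :=
    fun s t h0 h => (sh s h0).2.2.le_up ((sh t (h0.trans h)).2.1.of_le (Eventually.of_forall
      fun τ => p.is.mono _ h0 (h0.trans h) h)) (cu s h0)
  refine ⟨hm, le_antisymm ?_ (hm 8 16 (by norm_num) (by norm_num))⟩
  obtain ⟨Φ, C, hΦ, hC⟩ := p.domu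
  obtain ⟨B, hB⟩ := hp.up f hf Φ hΦ
  have hb : ∀ t, 0 < t → slp (fun τ => F.u t (f τ)) + slp (fun τ => F.u 0 (f τ)) ≤ 2 * B + 0 :=
    fun t ht => by
    refine ((sh t ht.le).2.2.add (sh 0 le_rfl).2.2 (cu t ht.le) (cu 0 le_rfl)).le_up
      (((hB.const_mul zero_le_two).add (up_const (C * (1 + 2 * t) ^ 2 / t))).of_le
        (Eventually.of_forall fun τ => ?_)) ((cu t ht.le).add (cu 0 le_rfl))
    have h1 := hC (2 * t) (by linarith) t ⟨ht.le, by linarith⟩ (f τ)
    have h2 := (p.b2.psi_le t ht.le (f τ)).1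
    refine le_of_mul_le_mul_left ?_ ht
    rw [mul_add t (2 * _), mul_div_cancel₀ _ ht.ne']
    linarith
  set D := 2 * B - slp (fun τ => F.u 0 (f τ)) - slp fun τ => F.u 8 (f τ) with hD
  have hD0 : 0 ≤ D := by linarith [hb 8 (by norm_num)]
  refine le_of_forall_pos_le_add fun η hη => ?_
  set b := η / (η + D) with hb'
  have b0 : 0 < b := by positivity
  have b1 : 0 ≤ 1 - b := sub_nonneg.2 (div_le_one_of_le₀ (by linarith) (by positivity))
  have b2 : b * (η + D) = η := div_mul_cancel₀ _ (by positivity)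
  set σ := Real.log 8 + (Real.log 16 - Real.log 8) / b with hσ
  have h1 : slp (fun τ => F.u 16 (f τ)) ≤ (1 - b) * slp (fun τ => F.u 8 (f τ)) +
      b * slp fun τ => F.u (Real.exp σ) (f τ) := by
    refine (sh 16 (by norm_num)).2.2.le_up ((((sh 8 (by norm_num)).2.1.const_mul b1).add
      ((sh _ (Real.exp_pos σ).le).2.1.const_mul b0.le)).of_le
        (Eventually.of_forall fun τ => ?_)) (cu 16 (by norm_num))
    have h2 := (p.s3a.u_cvx (f τ)).2 (mem_univ (Real.log 8)) (mem_univ σ) b1 b0.le (by ring)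
    have h3 : (1 - b) • Real.log 8 + b • σ = Real.log 16 := by
      rw [smul_eq_mul, smul_eq_mul, hσ]; field_simp; ring
    simp only [h3] at h2
    rwa [Real.exp_log (by norm_num), Real.exp_log (by norm_num)] at h2
  nlinarith [mul_le_mul_of_nonneg_left (hb _ (Real.exp_pos σ)) b0.le, mul_pos b0 hη]

end Vale.Agent.P253W.C
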