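import Vale.Agent.P253W.C.Defs
import Vale.Agent.P253Z.SCH
import Vale.Agent.P253Z.B1a
import Vale.Agent.P272.K.Inv.Wirt

/-!
# P253W, row C.PCF: tame functions along polynomial curves
-/

open scoped Manifold ContDiff Bundle ENNReal Topology ComplexConjugate ComplexOrder Matrix
open Bundle IsManifold MeasureTheory Set Metric Filter Bornology Vale.Agent.P253.Mfd
  Vale.Agent.P253Z
open Vale.Agent.P272.K (Cm jacM Chart)

set_option linter.unusedSectionVars false

noncomputable section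

namespace Vale.Agent.P253W.C

variable {n : ℕ} {M : Type} [MetricSpace M] [ChartedSpace (Cm n) M] [IsManifold 𝓘(ℂ, Cm n) 1 M]
  [IsManifold 𝓘(ℝ, Cm n) ∞ M] [RiemannianBundle fun x : M => TangentSpace 𝓘(ℝ, Cm n) x]
  [IsContMDiffRiemannianBundle 𝓘(ℝ, Cm n) ∞ (Cm n) fun x : M => TangentSpace 𝓘(ℝ, Cm n) x]
  [IsRiemannianManifold 𝓘(ℝ, Cm n) M] [CompleteSpace M] [ConnectedSpace M] [NoncompactSpace M]
  [MeasurableSpace M] [BorelSpace M] {μ : Measure M} {F : Flow n M} {A : Fam F} {T : F.TA μ}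

namespace Pcf

theorem lin_eq (L : Cm n →L[ℂ] ℂ) (v : Cm n) : L v = ∑ j, L (Pi.single j 1) * v j := by
  conv_lhs => rw [pi_eq_sum_univ' v]
  simp only [map_sum, map_smul, smul_eq_mul, mul_comm]

theorem qv_eq (H : Mx n) (v : Cm n) :
    qv H v = (∑ j, ∑ k, H j k * (v j * conj (v k))).re := by
  simp only [qv, dotProduct, Matrix.mulVec, Finset.mul_sum, Pi.star_apply, RCLike.star_def]
  exact congrArg _ (Finset.sum_congr rfl fun j _ => Finset.sum_congr rfl fun k _ => by ring)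

/-- the gradient estimate -/
theorem grad (hn : 1 ≤ n) (he : EIG n) (hK : IsKahler (Cm n) M)
    (hnn : ∀ x : M, NonnegBisectionalAt (Cm n) x) (a : B1a n M) (b : B1b n M) {f : M → ℂ}
    (hf : IsSec n 0 f) {x : M} {B : ℝ} (hB : 0 < B) (h : ∀ y ∈ ball x 1, ‖f y‖ ≤ B) :
    hq (hm (pc n x) (pc n x x)) (da n f x) ≤ 81 * B ^ 2 := by
  have := properSpace_riemannian (Cm n) M
  have : Nonempty (Fin n) := ⟨⟨0, hn⟩⟩
  have hf' := (a.sec_zero f).1 hf
  have hc := a.chart x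
  have hx := mem_chart_source (Cm n) x
  have hz := mem_chart_target (Cm n) x
  have h1 := Sch.grad hK hnn hf' hB h (mem_closedBall_self zero_le_one)
  rw [dist_self, sub_zero, mul_one] at h1
  have e1 : Sch.S (Cm n) f x = _ := P253.R2.H451.Sn_eq (Sch.homQ ℂ) hf' hc hx
  have hd := (P253.R2.H451.differentiableOn_F hf' hc).differentiableAt
    ((chartAt (Cm n) x).open_target.mem_nhds hz)
  refine he.dual _ _ _ (b.wpos _ hc _ hz) (by positivity) fun v => ?_
  have h2 := P253.R2.H451.norm_le_Sq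
    (T := P253.R2.H451.dF f (chartAt (Cm n) x) (chartAt (Cm n) x x)) (Sch.homQ ℂ)
    ((localKahler_chartG hK hc).pos _ hz) fun _ => v
  rw [← e1, Fin.prod_univ_one, chartG_apply, b.quad _ hc _ hz] at h2
  have g2 := (b.psd _ (b.wpos _ hc _ hz).isHermitian).1 (b.wpos _ hc _ hz).posSemidef v
  have e2 : da n f x ⬝ᵥ v =
      fderiv ℂ (fun w => f ((chartAt (Cm n) x).symm w)) (chartAt (Cm n) x x) v := by
    rw [lin_eq]
    simp only [da, dotProduct, P272.K.dz_of_holo hd]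
  rw [qv_eq, ← Real.sq_sqrt g2, show 81 * B ^ 2 = (9 * B) ^ 2 by ring, ← mul_pow, e2]
  exact pow_le_pow_left₀ (norm_nonneg _)
    (h2.trans (mul_le_mul_of_nonneg_right h1 (Real.sqrt_nonneg _))) 2

theorem tm (a : B1a n M) {s : M → ℂ} (hs : s ∈ T.A) :
    F.Tm T.ga fun x => Real.log (max ‖s x‖ 1) := by
  obtain ⟨h1, C, h2⟩ := (T.mem s).1 hs
  refine ⟨a.psh s h1 1 one_pos, |C|, fun x => ?_⟩
  have h3 := zero_le_one.trans (T.ga_one (F.r x))
  rw [Real.log_le_iff_le_exp (by positivity), max_le_iff]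
  exact ⟨(h2 x).trans (Real.exp_le_exp.2 (mul_le_mul_of_nonneg_right (le_abs_self C) h3)),
    Real.one_le_exp (by positivity)⟩

theorem up {f : ℂ → M} (hf : T.PC f) {φ : M → ℝ} (h : F.Tm T.ga φ) :
    ∃ C : ℝ, Up (fun τ => φ (f τ)) C := by
  obtain ⟨C, hC⟩ := hf.tm φ h
  refine ⟨|C| * 2, (up_lg _).of_le ?_⟩
  filter_upwards [ex_mem 1, ev_const 2 one_pos] with τ h1 h2
  rw [mem_ex] at h1
  have h3 : Real.log (1 + ‖τ‖) ≤ Real.log (2 * ‖τ‖) :=
    Real.log_le_log (by positivity) (by linarith)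
  rw [Real.log_mul two_ne_zero (by positivity)] at h3
  have l2 : Real.log 2 ≤ 1 := by linarith [Real.log_le_sub_one_of_pos (two_pos (α := ℝ))]
  have h4 := Real.log_nonneg (show 1 ≤ 1 + ‖τ‖ by linarith)
  have h5 := lg_eq τ
  refine (hC τ).trans ((mul_le_mul_of_nonneg_right (le_abs_self C) (by linarith)).trans ?_)
  rw [mul_assoc]
  exact mul_le_mul_of_nonneg_left (by linarith) (abs_nonneg C)

theorem le_exp (z : ℂ) {B : ℝ} (h : Real.log (max ‖z‖ 1) ≤ B) : ‖z‖ ≤ Real.exp B :=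
  (le_max_left _ _).trans ((Real.log_le_iff_le_exp (by positivity)).1 h)

theorem pb_of {h : ℂ → ℂ} {C : ℝ} (hp : ∀ᶠ τ in cobounded ℂ, ‖h τ‖ ≤ Real.exp (C * lg τ)) :
    PB h := pb_of_exp (C := 2 * C) (hp.mono fun τ h1 => by
  rw [mul_assoc, show (2 : ℝ) = (2 : ℕ) by norm_num, Real.exp_nat_mul]
  exact pow_le_pow_left₀ (norm_nonneg _) h1 2)

end Pcf

open Pcf in
/-- **PCF** -/
theorem pcf (p : P3 A T) (hm : MAP n M) (he : EIG n) : PCF T := by
  have a : B1a n M := b1a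
  refine ⟨fun s hs => tm a hs, fun f hf φ h => up hf h, fun f hf s hs => ?_,
    fun s hs s' hs' h0 h0' h => ?_, fun f hf s hs t ht => ?_⟩
  · have h1 := differentiableOn_univ.1 (hm.hol s f univ ((T.mem s).1 hs).1 hf.hol)
    obtain ⟨C, hC⟩ := up hf (tm a hs)
    refine ⟨h1, pb_of ((hC.ev one_pos).mono fun τ h2 => le_exp _ h2), pb_of (C := C + 1) ?_⟩
    filter_upwards [hC.ball one_pos, ex_mem 2] with τ h2 h3
    rw [mem_ex] at h3
    rw [← div_one (Real.exp _)]
    exact Complex.norm_deriv_le_of_forall_mem_sphere_norm_le one_pos h1.diffContOnCl fun ζ hζ =>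
      le_exp _ (h2 ζ (closedBall_subset_closedBall (by linarith) (sphere_subset_closedBall hζ)))
  · obtain ⟨x, hx⟩ := Function.ne_iff.1 h0
    have h1 := ((a.sec_zero s).1 ((T.mem s).1 hs).1).continuous.continuousAt.eventually_ne hx
    refine h0' (a.ident 0 s' ((T.mem s').1 hs').1 x (h1.mono fun y hy => ?_))
    exact (mul_eq_zero.1 (congrFun h y)).resolve_left hy
  · obtain ⟨φ, h1, h2⟩ := p.ball t ht _ (tm a hs)
    obtain ⟨C, hC⟩ := up hf h1
    refine ⟨2 * (C + 1) + 1, ev_iff.2 ?_⟩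
    filter_upwards [hC.ev one_pos, ev_const (Real.log 81) one_pos] with τ h3 h4
    have := p.s3b.cpl t ht.le
    have h5 := grad (M := Wm (A.G t)) p.c.npos he (A.kahler t ht.le) (p.s3b.nn t ht.le)
      (p.s3b.all t ht.le).a (p.s3b.all t ht.le).b (f := s) ((T.mem s).1 hs).1 (x := f τ)
      (Real.exp_pos (φ (f τ))) fun y hy => le_exp _ (h2 (f τ) y (le_of_lt hy))
    have h6 := A.hm_eq t ht.le _ (a.chart (f τ)) _ (mem_chart_target _ (f τ))
    refine le_trans (le_of_eq ?_) (h5.trans ?_)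
    · exact congrArg (fun G => hq G (da n s (f τ))) h6.symm
    · rw [← Real.exp_log (show (0 : ℝ) < 81 by norm_num), ← Real.exp_nat_mul, ← Real.exp_add]
      exact Real.exp_le_exp.2 (by push_cast; linarith)

end Vale.Agent.P253W.C
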