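import Vale.Agent.P253W.C.Defs0

/-! P253W, row C.PP: point picking. -/

open Set Metric Filter MeasureTheory
open Vale.Agent.P272.GJ

noncomputable section

namespace Vale.Agent.P253W.C

namespace Pp

theorem ddb_add (w : ℂ → ℝ) (c z : ℂ) : ddb (fun x => w (x + c)) z = ddb w (z + c) := by
  simp only [ddb, fderiv_comp_add_right]
  rw [fderiv_comp_add_right (f := fun x => fderiv ℝ w x 1),
    fderiv_comp_add_right (f := fun x => fderiv ℝ w x Complex.I)]

/-- an upper bound of the Laplacian bounds the mean -/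
theorem mean_le {w : ℂ → ℝ} (hw : ContDiff ℝ 2 w) {c : ℂ} {δ B : ℝ} (hδ : 0 < δ)
    (h : ∀ τ ∈ closedBall c δ, ddb w τ ≤ B) : Real.circleAverage w c δ - w c ≤ B * δ ^ 2 := by
  have hφ : ∀ z ∈ closedBall (0 : ℂ) δ, ContDiffAt ℝ 2 (fun x => w (x + c)) z := fun z _ =>
    (hw.comp (contDiff_id.add contDiff_const)).contDiffAt
  have g := green_jensen hδ hφ
  rw [Real.circleAverage_map_add_const, zero_add] at g
  rw [← g, ← integral_Gr hδ, ← integral_const_mul]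
  refine setIntegral_mono_on (integrableOn_Gr_mul hδ (contOn_ddb hφ))
    ((integrableOn_Gr hδ).const_mul B) measurableSet_ball fun z hz => ?_
  rw [ddb_add, mul_comm B]
  refine mul_le_mul_of_nonneg_left (h _ ?_) (Gr_nonneg hz)
  simpa using (mem_ball_zero_iff.1 hz).le

theorem ex_le {v : ℂ → ℝ} (hv : Continuous v) (c : ℂ) {δ : ℝ} (hδ : 0 < δ) :
    ∃ τ ∈ sphere c δ, v τ ≤ Real.circleAverage v c δ := by
  obtain ⟨τ, h, k⟩ := (isCompact_sphere c δ).exists_isMinOn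
    (NormedSpace.sphere_nonempty.2 hδ.le) hv.continuousOn
  refine ⟨τ, h, ?_⟩
  rw [← Real.circleAverage_const (v τ) c δ]
  exact Real.circleAverage_mono (circleIntegrable_const _ _ _)
    hv.continuousOn.circleIntegrable' fun x hx => k (by rwa [abs_of_pos hδ] at hx)

theorem exl {a b : ℝ} {τ : ℂ} (h : τ ∈ ex (max a b)) : τ ∈ ex a :=
  show a < ‖τ‖ from (le_max_left a b).trans_lt h

theorem exr {a b : ℝ} {τ : ℂ} (h : τ ∈ ex (max a b)) : τ ∈ ex b :=
  show b < ‖τ‖ from (le_max_right a b).trans_lt h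

theorem lg_eq (τ : ℂ) : lg τ = 2 * Real.log ‖τ‖ := by simp [lg]

/-- points near `c` -/
theorem near {c τ : ℂ} {ρ : ℝ} (hc : max ρ 1 + 1 < ‖c‖) (h : τ ∈ closedBall c 1) :
    τ ∈ ex ρ ∧ 0 ≤ Real.log ‖τ‖ ∧ Real.log ‖τ‖ ≤ 2 * Real.log ‖c‖ := by
  have h1 := abs_le.1 ((abs_norm_sub_norm_le τ c).trans (mem_closedBall_iff_norm.1 h))
  have h2 := le_max_left ρ 1
  have h3 := le_max_right ρ 1
  refine ⟨show ρ < ‖τ‖ by linarith, Real.log_nonneg (by linarith), ?_⟩
  have : Real.log ‖τ‖ ≤ Real.log (‖c‖ ^ 2) := Real.log_le_log (by linarith) (by nlinarith)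
  simpa using this

/-- point picking -/
theorem pick {s : ℂ → ℝ} (hs : Continuous s) (c : ℂ) (h : 1 < s c) : ∃ z ∈ closedBall c 1,
    s c ≤ s z ∧ ∀ τ ∈ closedBall z (1 / (2 * √(s z))), s τ ≤ 4 * s z := by
  obtain ⟨z, hz, k⟩ := (isCompact_closedBall c 1).exists_isMaxOn (nonempty_closedBall.2 zero_le_one)
    (f := fun z => s z * (1 - dist z c) ^ 2) (by fun_prop)
  have k0 : s c ≤ s z * (1 - dist z c) ^ 2 := by simpa using k (mem_closedBall_self zero_le_one)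
  have d0 : 0 ≤ 1 - dist z c := sub_nonneg.2 hz
  have d1 : (1 - dist z c) ^ 2 ≤ 1 := by nlinarith [dist_nonneg (x := z) (y := c)]
  have s0 : 0 < s z := by
    by_contra e
    nlinarith [sq_nonneg (1 - dist z c)]
  have q0 := Real.sqrt_pos.2 s0
  have q1 : 1 < √(s z) * (1 - dist z c) := by
    refine lt_of_pow_lt_pow_left₀ 2 (by positivity) ?_
    rw [mul_pow, Real.sq_sqrt s0.le]
    linarith
  refine ⟨z, hz, by nlinarith, fun τ hτ => ?_⟩
  have e1 : dist τ z ≤ (1 - dist z c) / 2 := (mem_closedBall.1 hτ).trans (by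
    rw [div_le_div_iff₀ (by positivity) two_pos]
    linarith)
  have e2 : (1 - dist z c) / 2 ≤ 1 - dist τ c := by linarith [dist_triangle τ z c]
  have e3 : s τ * (1 - dist τ c) ^ 2 ≤ s z * (1 - dist z c) ^ 2 :=
    k (show dist τ c ≤ 1 by linarith)
  have dp : 0 < 1 - dist z c := by nlinarith
  by_contra e
  have e4 : ((1 - dist z c) / 2) ^ 2 ≤ (1 - dist τ c) ^ 2 := by gcongr
  have e5 := mul_le_mul_of_nonneg_left e4 (show 0 ≤ s τ by linarith)
  nlinarith [mul_pos (sub_pos.2 (not_le.1 e)) (pow_pos dp 2)]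

end Pp

open Pp in
theorem pp : PP := by
  intro w v s ν K hw hv hs s0 v0 K0 lo av cu ⟨N, ρ₀, sp⟩
  have key : ∀ η : ℝ, 0 < η → ∃ ρ : ℝ, ∀ c ∈ ex ρ, ∀ δ : ℝ, 0 < δ → δ ≤ 1 →
      (∀ τ ∈ closedBall c δ, s τ * δ ^ 2 ≤ 1) → (ν - η) * lg c + η * Real.log δ ≤ w c := by
    intro η hη
    obtain ⟨ρ₁, h1⟩ := lo (η / (1 + K)) (by positivity)
    obtain ⟨ρ₂, h2⟩ := av (η / (1 + K)) (by positivity)
    refine ⟨max ρ₁ ρ₂, fun c hc δ d0 d1 ad => ?_⟩
    obtain ⟨τ', m, l⟩ := ex_le hv c d0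
    have a1 := h1 c (exl hc) δ d0 d1
    have a2 := mul_le_mul_of_nonneg_left
      (l.trans (h2 c (exr hc) δ d0 d1)) K0
    have a3 := mean_le hw d0 (B := K * v τ' / δ ^ 2) fun τ hτ => (cu c δ d0 ad τ' m τ hτ).trans (by
      rw [le_div_iff₀ (by positivity), mul_assoc]
      exact mul_le_of_le_one_right (mul_nonneg K0 (v0 _)) (ad τ hτ))
    rw [div_mul_cancel₀ _ (by positivity)] at a3
    have e : η = (1 + K) * (η / (1 + K)) := by field_simp
    generalize η / (1 + K) = t at *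
    rw [e]
    nlinarith
  obtain ⟨M, M0, ρ, hM⟩ : ∃ M : ℝ, 0 ≤ M ∧ ∃ ρ : ℝ, ∀ c ∈ ex ρ,
      s c ≤ Real.exp (M * Real.log ‖c‖) := by
    obtain ⟨ρ₁, h1⟩ := key 1 one_pos
    refine ⟨8 * max (N - ν + 1) 0 + 2, by positivity, max (max ρ₀ ρ₁) 1 + 1, fun c hc => ?_⟩
    have c2 : 2 ≤ ‖c‖ := by linarith [le_max_right (max ρ₀ ρ₁) 1, show _ < ‖c‖ from hc]
    have l2 : Real.log 2 ≤ Real.log ‖c‖ := Real.log_le_log two_pos c2
    have l0 : 0 ≤ Real.log 2 := Real.log_nonneg one_le_two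
    rcases le_or_gt (s c) 1 with e | e
    · exact e.trans (Real.one_le_exp (mul_nonneg (by positivity) (l0.trans l2)))
    obtain ⟨z, hz, a1, a2⟩ := pick hs c e
    obtain ⟨n1, n2, n3⟩ := near hc hz
    have z0 : 0 < s z := by linarith
    have q1 : 1 ≤ √(s z) := Real.one_le_sqrt.2 (by linarith)
    have a3 := h1 z (exr n1) (1 / (2 * √(s z))) (by positivity)
      (by rw [div_le_one (by positivity)]; linarith) fun τ hτ => by
        rw [div_pow, mul_pow, Real.sq_sqrt z0.le, one_pow, ← mul_div_assoc,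
          div_le_one (by positivity)]
        linarith [a2 τ hτ]
    have a4 := (Real.log_le_iff_le_exp z0).2 (sp z (exl n1))
    rw [one_div, Real.log_inv, Real.log_mul two_ne_zero (by positivity), Real.log_sqrt z0.le,
      lg_eq] at a3
    rw [lg_eq] at a4
    refine a1.trans ((Real.log_le_iff_le_exp z0).1 ?_)
    have a5 := mul_le_mul_of_nonneg_right (le_max_left (N - ν + 1) 0) n2
    have a6 := mul_le_mul_of_nonneg_left n3 (le_max_right (N - ν + 1) 0)
    nlinarith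
  have ad : ∀ c : ℂ, max ρ 1 + 1 < ‖c‖ → 0 ≤ Real.log ‖c‖ ∧
      Real.exp (-(M * Real.log ‖c‖)) ≤ 1 ∧ ∀ τ ∈ closedBall c (Real.exp (-(M * Real.log ‖c‖))),
        s τ * Real.exp (-(M * Real.log ‖c‖)) ^ 2 ≤ 1 := fun c hc => by
    have l0 := (near hc (mem_closedBall_self zero_le_one)).2.1
    have d1 : Real.exp (-(M * Real.log ‖c‖)) ≤ 1 :=
      Real.exp_le_one_iff.2 (neg_nonpos.2 (mul_nonneg M0 l0))
    refine ⟨l0, d1, fun τ hτ => ?_⟩
    obtain ⟨n1, -, n3⟩ := near hc (closedBall_subset_closedBall d1 hτ)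
    refine (mul_le_mul_of_nonneg_right (hM τ n1) (sq_nonneg _)).trans ?_
    rw [sq, ← Real.exp_add, ← Real.exp_add, Real.exp_le_one_iff]
    nlinarith
  refine ⟨⟨M, max ρ 0, fun τ hτ => ?_⟩, fun η hη => ?_, fun η hη => ?_⟩
  · rw [Real.rpow_def_of_pos (exr hτ), mul_comm]
    exact hM τ (exl hτ)
  · obtain ⟨ρ₁, h1⟩ := key (η / (1 + M / 2)) (by positivity)
    refine ⟨max ρ₁ (max ρ 1 + 1), fun c hc => ?_⟩
    obtain ⟨-, d1, a⟩ := ad c (exr hc)
    have := h1 c (exl hc) _ (Real.exp_pos _) d1 a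
    have e : η = (1 + M / 2) * (η / (1 + M / 2)) := by field_simp
    rw [Real.log_exp, lg_eq] at this
    generalize η / (1 + M / 2) = t at *
    rw [e, lg_eq]
    linarith
  · obtain ⟨ρ₁, h1⟩ := av (η / (2 + M)) (by positivity)
    refine ⟨max ρ₁ (max ρ 1 + 1), fun c hc => ?_⟩
    obtain ⟨-, d1, a⟩ := ad c (exr hc)
    obtain ⟨τ', m, l⟩ := ex_le hv c (Real.exp_pos (-(M * Real.log ‖c‖)))
    refine ⟨_, Real.exp_pos _, a, τ', m, l.trans ?_⟩
    have := h1 c (exl hc) _ (Real.exp_pos _) d1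
    have e : η = (2 + M) * (η / (2 + M)) := by field_simp
    rw [Real.log_exp, lg_eq] at this
    generalize η / (2 + M) = t at *
    rw [e]
    linarith

end Vale.Agent.P253W.C
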