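import Vale.Agent.P253W.C.Basic

/-!
# P253W, block C, row R2: the step in rank two without loss
-/

open scoped Topology ComplexConjugate
open Set Filter Bornology Complex

noncomputable section

namespace Vale.Agent.P253W.C

namespace R2p

/-- the norm of `s₂ - h s₁` at a point -/
def N (a c : ℝ) (b h : ℂ) : ℝ := a * ‖h‖ ^ 2 - 2 * (conj h * b).re + c

variable {a c : ℝ} {b : ℂ}

theorem N_pos (ha : 0 < a) (hb : ‖b‖ ^ 2 < a * c) (h : ℂ) : 0 < N a c b h := by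
  have h1 : a * N a c b h = ‖a * h - b‖ ^ 2 + (a * c - ‖b‖ ^ 2) := by
    simp only [N, Complex.sq_norm, normSq_apply, mul_re, mul_im, sub_re, sub_im, conj_re, conj_im,
      ofReal_re, ofReal_im]
    ring
  refine pos_of_mul_pos_left (b := a) ?_ ha.le
  rw [mul_comm, h1]
  exact add_pos_of_nonneg_of_pos (sq_nonneg _) (sub_pos.2 hb)

theorem sub_le (ha : 0 < a) (hb : ‖b‖ ^ 2 < a * c) (h h' : ℂ) :
    a * ‖h - h'‖ ^ 2 ≤ 2 * (N a c b h + N a c b h') := by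
  have h1 : 2 * (N a c b h + N a c b h') = a * ‖h - h'‖ ^ 2 + 4 * N a c b ((h + h') * (1 / 2 : ℝ)) := by
    simp only [N, Complex.sq_norm, normSq_apply, mul_re, mul_im, sub_re, sub_im, add_re, add_im,
      conj_re, conj_im, ofReal_re, ofReal_im]
    ring
  linarith [N_pos ha hb ((h + h') * (1 / 2 : ℝ))]

theorem N_le (ha : 0 < a) (hb : ‖b‖ ^ 2 < a * c) (h h' : ℂ) :
    N a c b h ≤ 2 * (a * ‖h - h'‖ ^ 2 + N a c b h') := by
  have h1 : 2 * (a * ‖h - h'‖ ^ 2 + N a c b h') = N a c b h + N a c b (h' + h' - h) := by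
    simp only [N, Complex.sq_norm, normSq_apply, mul_re, sub_re, sub_im, add_re, add_im,
      conj_re, conj_im]
    ring
  linarith [N_pos ha hb (h' + h' - h)]

theorem up_two {A B F : ℂ → ℝ} {k : ℝ} (hA : Up (fun τ => Real.log (A τ)) k)
    (hB : Up (fun τ => Real.log (B τ)) k)
    (h : ∀ᶠ τ in cobounded ℂ, 0 < A τ ∧ 0 < B τ ∧ 0 < F τ ∧ F τ ≤ 2 * (A τ + B τ)) :
    Up (fun τ => Real.log (F τ)) k := by
  have h1 := (up_const (Real.log 2)).add (hA.log_add hB (h.mono fun τ hτ => ⟨hτ.1, hτ.2.1⟩))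
  rw [zero_add] at h1
  refine h1.of_le (h.mono fun τ hτ => ?_)
  rw [← Real.log_mul two_ne_zero (add_pos hτ.1 hτ.2.1).ne']
  exact Real.log_le_log hτ.2.2.1 hτ.2.2.2

variable {α γ : ℂ → ℝ} {β : ℂ → ℂ} {ρ a d : ℝ}

theorem pb_sub (H : H2 α γ β ρ a d) {h h' : ℂ → ℂ} {k k' : ℝ}
    (hk : Up (fun τ => Real.log (nh α γ β h τ)) k)
    (hk' : Up (fun τ => Real.log (nh α γ β h' τ)) k') : PB fun τ => h τ - h' τ := by
  obtain ⟨C, hC⟩ := H.ca
  have h1 : Up (fun τ => Real.log (2 * (nh α γ β h τ + nh α γ β h' τ))) (max k k') :=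
    up_two (hk.mono (le_max_left _ _)) (hk'.mono (le_max_right _ _)) (by
      filter_upwards [ex_mem ρ] with τ hτ
      have h2 := N_pos (H.pos τ hτ).1 (H.pos τ hτ).2
      exact ⟨h2 _, h2 _, mul_pos two_pos (add_pos (h2 _) (h2 _)), le_rfl⟩)
  refine pb_of_exp (C := C + max k k' + 1) ?_
  filter_upwards [(hC.add h1).ev one_pos, ex_mem ρ] with τ h2 hτ
  obtain ⟨h3, h4⟩ := H.pos τ hτ
  refine le_trans ?_ (Real.exp_le_exp.2 h2)
  rw [Real.exp_add, Real.exp_neg, Real.exp_log h3,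
    Real.exp_log (x := 2 * (nh α γ β h τ + nh α γ β h' τ))
      (mul_pos two_pos (add_pos (N_pos h3 h4 _) (N_pos h3 h4 _))), le_inv_mul_iff₀ h3]
  exact sub_le h3 h4 _ _

end R2p

open R2p

theorem r2 (h1 : R2E) (h2 : MER) : R2 := by
  intro α γ β ρ a d H
  have hf : 0 < (⌊d - 2 * a⌋ + 1 - (d - 2 * a)) / 2 := half_pos (sub_pos.2 (Int.lt_floor_add_one _))
  obtain ⟨ρ₀, h₀, hd₀, hu₀⟩ := h1 α γ β ρ a d H _ hf
  obtain ⟨C, hC⟩ := H.cc
  refine ⟨ρ₀, h₀, hd₀, ?_, up_of_forall fun η hη => ?_⟩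
  · have h3 : Up (fun τ => Real.log (nh α γ β (fun _ => 0) τ)) C := by simpa [nh] using hC
    simpa using pb_sub H hu₀ h3
  obtain ⟨ρ₁, h, hd, hu⟩ := h1 α γ β ρ a d H _ (lt_min hη hf)
  rcases h2.ord (fun τ => h₀ τ - h τ) (max ρ₀ ρ₁) ((hd₀.mono (ex_mono (le_max_left _ _))).sub
    (hd.mono (ex_mono (le_max_right _ _)))) (pb_sub H hu₀ hu) with h3 | ⟨m, c, C', ρ₂, hc, h3⟩
  · refine (hu.mono (by linarith [min_le_left η ((⌊d - 2 * a⌋ + 1 - (d - 2 * a)) / 2)])).of_le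
      ((ev_iff.1 h3).mono fun τ hτ => le_of_eq ?_)
    rw [nh, nh, sub_eq_zero.1 hτ]
  have h4 : ∀ᶠ τ in cobounded ℂ, 0 < α τ * ‖h₀ τ - h τ‖ ^ 2 ∧
      Real.log (α τ) ≤ -(2 * Real.log c) + (Real.log (α τ * ‖h₀ τ - h τ‖ ^ 2) + -m * lg τ) ∧
      Real.log (α τ * ‖h₀ τ - h τ‖ ^ 2) ≤ 2 * Real.log C' + (Real.log (α τ) + m * lg τ) := by
    filter_upwards [ex_mem ρ, ex_mem ρ₂, ex_mem 0] with τ hτ h5 h6
    have h7 : (0 : ℝ) < ‖τ‖ ^ m := zpow_pos h6 m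
    obtain ⟨h8, h9⟩ := h3 τ h5
    have h10 := (mul_pos hc h7).trans_le h8
    have h11 : 0 < C' := pos_of_mul_pos_left (h10.trans_le h9) h7.le
    have h12 := Real.log_le_log (mul_pos hc h7) h8
    have h13 := Real.log_le_log h10 h9
    rw [Real.log_mul hc.ne' h7.ne', Real.log_zpow] at h12
    rw [Real.log_mul h11.ne' h7.ne', Real.log_zpow] at h13
    rw [Real.log_mul (H.pos τ hτ).1.ne' (pow_pos h10 2).ne', Real.log_pow, lg_eq]
    refine ⟨mul_pos (H.pos τ hτ).1 (pow_pos h10 2), ?_, ?_⟩ <;> push_cast <;> linarith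
  have h5 : Up (fun τ => Real.log (α τ * ‖h₀ τ - h τ‖ ^ 2)) _ :=
    up_two hu₀ (hu.mono (by linarith [min_le_right η ((⌊d - 2 * a⌋ + 1 - (d - 2 * a)) / 2)])) (by
      filter_upwards [ex_mem ρ, h4] with τ hτ h5
      obtain ⟨h6, h7⟩ := H.pos τ hτ
      exact ⟨N_pos h6 h7 _, N_pos h6 h7 _, h5.1, sub_le h6 h7 _ _⟩)
  have h6 := H.lo.le_up (((up_const _).add (h5.add (up_lg _))).of_le (h4.mono fun _ h => h.2.1))
    (H.sa.continuousOn.log fun τ hτ => (H.pos τ hτ).1.ne')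
  have h7 : (m : ℝ) ≤ d - 2 * a := by
    have h8 : m < ⌊d - 2 * a⌋ + 1 := by
      rw [← Int.cast_lt (R := ℝ)]
      push_cast
      linarith
    exact Int.le_floor.1 (by omega)
  have h8 := ((up_const _).add (H.up.add (up_lg m))).of_le (h4.mono fun _ h => h.2.2)
  refine up_two (h8.mono (by linarith))
    (hu.mono (by linarith [min_le_left η ((⌊d - 2 * a⌋ + 1 - (d - 2 * a)) / 2)])) ?_
  filter_upwards [ex_mem ρ, h4] with τ hτ h9
  obtain ⟨h10, h11⟩ := H.pos τ hτ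
  exact ⟨h9.1, N_pos h10 h11 _, N_pos h10 h11 _, N_le h10 h11 _ _⟩

end Vale.Agent.P253W.C
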