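import Vale.Agent.P253W.C.Defs0

/-!
# P253W, block C, row R2A: the pointwise computation in rank two
-/

open scoped Topology ComplexConjugate
open Set Filter Complex
open Vale.Agent.P272.GJ (ddb)
open Vale.Agent.P253.R2.H66

noncomputable section

namespace Vale.Agent.P253W.C

namespace R2a

variable {f g : ℂ → ℂ} {z f0 f1 f2 f3 g0 g1 g2 g3 : ℂ}

theorem ev (h : ContDiffAt ℝ 2 f z) : ∀ᶠ w in 𝓝 z, DifferentiableAt ℝ f w :=
  (h.eventually (by simp)).mono fun _ hw => hw.differentiableAt (by norm_num)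

theorem dir (h : ContDiffAt ℝ 2 f z) (v : ℂ) : HasFDerivAt (fun w => fderiv ℝ f w v)
    ((ContinuousLinearMap.apply ℝ ℂ v).comp (fderiv ℝ (fderiv ℝ f) z)) z :=
  (ContinuousLinearMap.apply ℝ ℂ v).hasFDerivAt.comp z
    ((h.fderiv_right (m := 1) (by norm_num)).differentiableAt (by norm_num)).hasFDerivAt

theorem dd (h : ContDiffAt ℝ 2 f z) :
    DifferentiableAt ℝ (dz f) z ∧ DifferentiableAt ℝ (dzb f) z ∧
      dz (dzb f) z = (fderiv ℝ (fderiv ℝ f) z 1 1 + fderiv ℝ (fderiv ℝ f) z I I) / 4 ∧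
      dzb (dz f) z = dz (dzb f) z := by
  have h1 : HasFDerivAt (dz f) _ z :=
    ((dir h 1).sub ((dir h I).const_smul I)).const_smul (1 / 2 : ℂ)
  have h2 : HasFDerivAt (dzb f) _ z :=
    ((dir h 1).add ((dir h I).const_smul I)).const_smul (1 / 2 : ℂ)
  have h3 : fderiv ℝ (fderiv ℝ f) z 1 I = fderiv ℝ (fderiv ℝ f) z I 1 :=
    (h.isSymmSndFDerivAt (by simp)) 1 I
  refine ⟨h1.differentiableAt, h2.differentiableAt, ?_, ?_⟩
  · rw [dz, h2.fderiv]
    simp only [smul_apply, add_apply, ContinuousLinearMap.comp_apply,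
      ContinuousLinearMap.apply_apply, smul_eq_mul, h3]
    linear_combination (-(fderiv ℝ (fderiv ℝ f) z I I) / 4) * I_mul_I
  · rw [dzb, dz, h1.fderiv, h2.fderiv]
    simp only [smul_apply, add_apply, sub_apply, ContinuousLinearMap.comp_apply,
      ContinuousLinearMap.apply_apply, smul_eq_mul, h3]
    ring

theorem ddb_re (h : ContDiffAt ℝ 2 f z) : ddb (fun w => (f w).re) z = (dz (dzb f) z).re := by
  have h1 : ∀ v, fderiv ℝ (fun w => fderiv ℝ (fun w => (f w).re) w v) z v =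
      (fderiv ℝ (fderiv ℝ f) z v v).re := fun v => by
    have h2 : (fun w => fderiv ℝ (fun w => (f w).re) w v) =ᶠ[𝓝 z]
        fun w => reCLM (fderiv ℝ f w v) := (ev h).mono fun w hw => by
      have h3 : HasFDerivAt (fun w => (f w).re) _ w := reCLM.hasFDerivAt.comp w hw.hasFDerivAt
      simp only [h3.fderiv, ContinuousLinearMap.comp_apply]
    have h4 : HasFDerivAt (fun w => reCLM (fderiv ℝ f w v)) _ z :=
      reCLM.hasFDerivAt.comp z (dir h v)
    rw [h2.fderiv_eq, h4.fderiv]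
    rfl
  rw [ddb, h1, h1, (dd h).2.2.1]
  simp

/-- the jet of `f` at `z` -/
structure Jt (f : ℂ → ℂ) (z f0 f1 f2 f3 : ℂ) : Prop where
  sm : ContDiffAt ℝ 2 f z
  e0 : f z = f0
  e1 : dz f z = f1
  e2 : dzb f z = f2
  e3 : dz (dzb f) z = f3

namespace Jt

theorem d (h : Jt f z f0 f1 f2 f3) : DifferentiableAt ℝ f z :=
  h.sm.differentiableAt (by norm_num)

theorem add (h : Jt f z f0 f1 f2 f3) (k : Jt g z g0 g1 g2 g3) :
    Jt (fun w => f w + g w) z (f0 + g0) (f1 + g1) (f2 + g2) (f3 + g3) := by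
  refine ⟨h.sm.add k.sm, by rw [h.e0, k.e0], by rw [dz_add h.d k.d, h.e1, k.e1],
    by rw [dzb_add h.d k.d, h.e2, k.e2], ?_⟩
  rw [dz_congr (g := fun w => dzb f w + dzb g w)
    (((ev h.sm).and (ev k.sm)).mono fun w hw => dzb_add hw.1 hw.2),
    dz_add (dd h.sm).2.1 (dd k.sm).2.1, h.e3, k.e3]

theorem mul (h : Jt f z f0 f1 f2 f3) (k : Jt g z g0 g1 g2 g3) :
    Jt (fun w => f w * g w) z (f0 * g0) (f1 * g0 + f0 * g1) (f2 * g0 + f0 * g2)
      (f3 * g0 + f2 * g1 + (f1 * g2 + f0 * g3)) := by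
  refine ⟨h.sm.mul k.sm, by rw [h.e0, k.e0], by rw [dz_mul h.d k.d, h.e1, k.e1, h.e0, k.e0],
    by rw [dzb_mul h.d k.d, h.e2, k.e2, h.e0, k.e0], ?_⟩
  rw [dz_congr (g := fun w => dzb f w * g w + f w * dzb g w)
    (((ev h.sm).and (ev k.sm)).mono fun w hw => dzb_mul hw.1 hw.2),
    dz_add ((dd h.sm).2.1.fun_mul k.d) (h.d.fun_mul (dd k.sm).2.1), dz_mul (dd h.sm).2.1 k.d,
    dz_mul h.d (dd k.sm).2.1, h.e3, k.e3, h.e2, k.e2, h.e1, k.e1, h.e0, k.e0]

theorem cj (h : Jt f z f0 f1 f2 f3) :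
    Jt (fun w => conj (f w)) z (conj f0) (conj f2) (conj f1) (conj f3) := by
  refine ⟨(conjCLE : ℂ →L[ℝ] ℂ).contDiff.contDiffAt.comp z h.sm, by rw [h.e0],
    by rw [dz_conj h.d, h.e2], by rw [dzb_conj h.d, h.e1], ?_⟩
  rw [dz_congr (g := fun w => conj (dz f w)) ((ev h.sm).mono fun w hw => dzb_conj hw),
    dz_conj (dd h.sm).1, (dd h.sm).2.2.2, h.e3]

theorem aff (z b c : ℂ) : Jt (fun w => b + c * (w - z)) z b c 0 0 := by
  have h1 : ∀ w, HasDerivAt (fun w => b + c * (w - z)) c w := fun w => by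
    simpa using (((hasDerivAt_id w).sub_const z).const_mul c).const_add b
  have h2 : dzb (fun w => b + c * (w - z)) = fun _ => 0 :=
    funext fun w => dzb_of_holo (h1 w).differentiableAt
  refine ⟨by fun_prop, by simp, by rw [dz_of_holo (h1 z).differentiableAt, (h1 z).deriv],
    by rw [h2], by rw [h2, dz_const]⟩

theorem const (z b : ℂ) : Jt (fun _ => b) z b 0 0 0 := by simpa using aff z b 0

theorem real {α : ℂ → ℝ} (h : ContDiffAt ℝ 2 α z) : ∃ (a1 : ℂ) (a3 : ℝ),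
    Jt (fun w => (α w : ℂ)) z (α z) a1 (conj a1) a3 := by
  have h1 : Jt (fun w => (α w : ℂ)) z _ _ _ _ :=
    ⟨ofRealCLM.contDiff.contDiffAt.comp z h, rfl, rfl, rfl, rfl⟩
  have h2 := h1.cj
  simp only [conj_ofReal] at h2
  exact ⟨_, _, h1.sm, rfl, rfl, h2.e2, (conj_eq_iff_re.1 h2.e3.symm).symm⟩

theorem inv (h : DifferentiableAt ℝ f z) (h0 : f z ≠ 0) :
    dz (fun w => (f w)⁻¹) z = -((f z) ^ 2)⁻¹ * dz f z ∧
      dzb (fun w => (f w)⁻¹) z = -((f z) ^ 2)⁻¹ * dzb f z := by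
  have h1 := hasDerivAt_inv h0
  exact ⟨(dz_comp_holo (φ := fun x => x⁻¹) h h1.differentiableAt).trans (by rw [h1.deriv]),
    (dzb_comp_holo (φ := fun x => x⁻¹) h h1.differentiableAt).trans (by rw [h1.deriv])⟩

theorem log {α : ℂ → ℝ} {a1 : ℂ} {a3 : ℝ} (h : ContDiffAt ℝ 2 α z) (h0 : α z ≠ 0)
    (k : Jt (fun w => (α w : ℂ)) z (α z) a1 (conj a1) a3) :
    ddb (fun w => Real.log (α w)) z = (α z * a3 - normSq a1) / α z ^ 2 := by
  have h1 : ContDiffAt ℝ 2 (fun w => ((Real.log (α w) : ℝ) : ℂ)) z :=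
    ofRealCLM.contDiff.contDiffAt.comp z (h.log h0)
  have h2 : (α z : ℂ) ≠ 0 := by exact_mod_cast h0
  have h3 : dzb (fun w => ((Real.log (α w) : ℝ) : ℂ)) =ᶠ[𝓝 z]
      fun w => (α w : ℂ)⁻¹ * dzb (fun w => (α w : ℂ)) w := by
    filter_upwards [h.eventually (by simp), h.continuousAt.eventually_ne h0] with w hw hw'
    exact dzb_log_real (hw.differentiableAt (by norm_num)) hw'
  have h4 : dz (dzb fun w => ((Real.log (α w) : ℝ) : ℂ)) z =
      (((α z * a3 - normSq a1) / α z ^ 2 : ℝ) : ℂ) := by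
    rw [dz_congr h3, dz_mul (k.d.fun_inv h2) (dd k.sm).2.1, (inv k.d h2).1, k.e3, k.e2, k.e1]
    push_cast
    rw [← mul_conj]
    field_simp
    ring
  have h5 := ddb_re h1
  rw [h4] at h5
  simpa only [ofReal_re] using h5

end Jt

/-- the hermitian form -/
def Q (a0 a3 c0 c3 : ℝ) (a1 c1 b0 b1 b2 b3 x0 x1 y0 y1 : ℂ) : ℝ :=
  a3 * normSq x0 + 2 * (a1 * conj x1 * x0).re + a0 * normSq x1 +
    2 * (conj x1 * b1 * y0 + conj x0 * b3 * y0 + conj x1 * b0 * y1 + conj x0 * b2 * y1).re +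
    (c3 * normSq y0 + 2 * (c1 * conj y1 * y0).re + c0 * normSq y1)

theorem alg2 (a0 a3 c0 c3 : ℝ) (a1 c1 b0 b1 b2 b3 : ℂ) :
    Q a0 a3 c0 c3 a1 c1 b0 b1 b2 b3 (a0 * (a0 * c0 - normSq b0 : ℝ))
      (conj (a0 * b2 - b0 * conj a1) * b0 - a1 * (a0 * c0 - normSq b0 : ℝ)) 0
      (-(conj (a0 * b2 - b0 * conj a1) * a0)) =
    a0 * (a0 * c0 - normSq b0) * ((a0 * a3 - normSq a1) * (a0 * c0 - normSq b0) -
      normSq (a0 * b2 - b0 * conj a1)) := by
  simp only [Q, normSq_apply, mul_re, mul_im, add_re, sub_re, sub_im, neg_re, neg_im, conj_re,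
    conj_im, ofReal_re, ofReal_im, zero_re, zero_im]
  ring

theorem alg1 (a0 a3 c0 c3 : ℝ) (a1 c1 b0 b1 b2 b3 : ℂ) :
    a0 ^ 2 * (a3 * c0 + 2 * (conj a1 * c1).re + a0 * c3 -
      (2 * (b3 * conj b0).re + normSq b1 + normSq b2)) =
    ((a0 * a3 - normSq a1) * (a0 * c0 - normSq b0) - normSq (a0 * b2 - b0 * conj a1)) +
      a0 * Q a0 a3 c0 c3 a1 c1 b0 b1 b2 b3 (-b0) (-b1) a0 a1 := by
  simp only [Q, normSq_apply, mul_re, mul_im, add_re, sub_re, sub_im, neg_re, neg_im, conj_re,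
    conj_im, ofReal_re, ofReal_im]
  ring

end R2a

open R2a

theorem r2a : R2A := by
  intro α γ β z hα hβ hγ h0 hΔ hN
  obtain ⟨a1, a3, ja⟩ := Jt.real hα
  obtain ⟨c1, c3, jc⟩ := Jt.real hγ
  obtain ⟨b1, b2, b3, jb⟩ : ∃ b1 b2 b3, Jt β z (β z) b1 b2 b3 := ⟨_, _, _, hβ, rfl, rfl, rfl, rfl⟩
  have hQ : ∀ x0 x1 y0 y1, 0 ≤ Q (α z) a3 (γ z) c3 a1 c1 (β z) b1 b2 b3 x0 x1 y0 y1 := by
    intro x0 x1 y0 y1
    have jx := Jt.aff z x0 x1
    have jy := Jt.aff z y0 y1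
    have j := ((ja.mul (jx.cj.mul jx)).add ((Jt.const z 2).mul ((jx.cj.mul jb).mul jy))).add
      (jc.mul (jy.cj.mul jy))
    have h1 := hN (fun w => x0 + x1 * (w - z)) (fun w => y0 + y1 * (w - z)) (by fun_prop)
      (by fun_prop)
    have h2 := ddb_re j.sm
    rw [j.e3] at h2
    refine (h1.trans_eq (Eq.trans (congrArg (ddb · z) (funext fun w => ?_)) h2)).trans_eq ?_
    · simp only [q2, Complex.sq_norm, normSq_apply, mul_re, mul_im, add_re, conj_re, conj_im,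
        ofReal_re, ofReal_im, re_ofNat, im_ofNat]
      ring
    · simp only [Q, normSq_apply, mul_re, mul_im, add_re, add_im, conj_re, conj_im, ofReal_re,
        ofReal_im, zero_re, zero_im, re_ofNat, im_ofNat]
      ring
  rw [Complex.sq_norm] at hΔ
  have hE : 0 ≤ (α z * a3 - normSq a1) * (α z * γ z - normSq (β z)) -
      normSq (α z * b2 - β z * conj a1) := by
    refine nonneg_of_mul_nonneg_right ?_ (mul_pos h0 (sub_pos.2 hΔ))
    rw [← alg2 _ _ _ c3 _ c1 _ b1 _ b3]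
    exact hQ _ _ _ _
  have h2 : (α z : ℂ) ≠ 0 := by exact_mod_cast h0.ne'
  constructor
  · have j := (ja.mul jc).add ((Jt.const z (-1)).mul (jb.mul jb.cj))
    have h3 := ddb_re j.sm
    rw [j.e3] at h3
    have h4 := alg1 (α z) a3 (γ z) c3 a1 c1 (β z) b1 b2 b3
    have h5 := nonneg_of_mul_nonneg_right (h4 ▸ add_nonneg hE (mul_nonneg h0.le (hQ _ _ _ _)))
      (pow_pos h0 2)
    refine (h5.trans_eq ?_).trans_eq (h3.symm.trans (congrArg (ddb · z) (funext fun w => ?_)))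
    · simp only [normSq_apply, mul_re, mul_im, add_re, add_im, conj_re, conj_im, ofReal_re,
        ofReal_im, zero_re, zero_im, neg_re, neg_im, one_re, one_im]
      ring
    · simp only [Complex.sq_norm, normSq_apply, mul_re, mul_im, add_re, conj_re, conj_im,
        ofReal_re, ofReal_im, neg_re, neg_im, one_re, one_im]
      ring
  · have h3 : dzb (fun τ => β τ / α τ) z = (α z * b2 - β z * conj a1) / (α z ^ 2 : ℝ) := by
      simp only [div_eq_mul_inv]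
      rw [dzb_mul jb.d (ja.d.fun_inv h2), (Jt.inv ja.d h2).2, jb.e2, ja.e2]
      push_cast
      field_simp
      ring
    rw [h3, Jt.log hα h0.ne' ja, Complex.sq_norm, Complex.sq_norm, map_div₀, normSq_ofReal,
      div_mul_eq_mul_div, le_div_iff₀ (pow_pos h0 2)]
    refine le_of_eq_of_le ?_ (sub_nonneg.1 hE)
    field_simp

end Vale.Agent.P253W.C
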