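import Vale.Agent.P253W.C.Defs0

/-!
# P253W, block C: subharmonic functions of logarithmic growth on the plane
-/

open scoped Topology Real
open Set Metric Filter MeasureTheory
open Vale.Agent.P272.GJ

noncomputable section

namespace Vale.Agent.P253W.C

namespace S0

variable {w : ℂ → ℝ}

theorem ddb_tr (w : ℂ → ℝ) (c z : ℂ) : ddb (fun z => w (z + c)) z = ddb w (z + c) := by
  simp only [ddb, fderiv_comp_add_right]
  rw [fderiv_comp_add_right (f := fun x => fderiv ℝ w x 1),
    fderiv_comp_add_right (f := fun x => fderiv ℝ w x Complex.I)]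

theorem int_tr (f : ℂ → ℝ) (c : ℂ) (r : ℝ) :
    ∫ z in ball (0 : ℂ) r, f (z + c) = ∫ z in ball c r, f z := by
  rw [← (measurePreserving_add_right volume c).setIntegral_preimage_emb
    (measurableEmbedding_addRight c) f (ball c r)]
  congr 2
  ext z
  simp [mem_ball, dist_eq_norm]

theorem intOn {f : ℂ → ℝ} (hf : Continuous f) (c : ℂ) (r : ℝ) : IntegrableOn f (ball c r) :=
  (hf.continuousOn.integrableOn_compact (isCompact_closedBall c r)).mono_set
    ball_subset_closedBall

theorem cont_ddb (hw : ContDiff ℝ 2 w) : Continuous (ddb w) := by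
  refine continuous_iff_continuousAt.2 fun z => ?_
  exact (contOn_ddb (r := ‖z‖ + 1) fun _ _ => hw.contDiffAt).continuousAt
    (closedBall_mem_nhds_of_mem (by simp))

theorem int_const (M : ℝ) (c : ℂ) {r : ℝ} (hr : 0 ≤ r) :
    ∫ _ in ball c r, M = π * r ^ 2 * M := by
  rw [setIntegral_const, smul_eq_mul, Measure.real, Complex.volume_ball]
  simp only [ENNReal.toReal_mul, ENNReal.toReal_pow, ENNReal.toReal_ofReal hr, ENNReal.coe_toReal,
    NNReal.coe_real_pi]
  ring

theorem polar0 {f : ℂ → ℝ} (hf : Continuous f) {R : ℝ} (hR : 0 ≤ R) :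
    ∫ z in ball (0 : ℂ) R, f z = ∫ r in (0 : ℝ)..R, 2 * π * r * Real.circleAverage f 0 r := by
  have hc : Continuous fun p : ℝ × ℝ => p.1 • f (pt p.1 p.2) :=
    continuous_fst.smul (hf.comp continuous_pt)
  rw [setIntegral_ball_polar, Measure.volume_eq_prod, setIntegral_prod _
    ((hc.continuousOn.integrableOn_compact (isCompact_Icc.prod isCompact_Icc)).mono_set
      (prod_mono Ioo_subset_Icc_self Ioo_subset_Icc_self)),
    intervalIntegral.integral_of_le hR, integral_Ioc_eq_integral_Ioo]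
  refine setIntegral_congr_fun measurableSet_Ioo fun r _ => ?_
  have hπ := Real.pi_pos
  simp only [circleAverage_eq_pi, smul_eq_mul]
  rw [integral_const_mul, intervalIntegral.integral_of_le (by linarith),
    integral_Ioc_eq_integral_Ioo]
  field_simp

theorem polar {f : ℂ → ℝ} (hf : Continuous f) (c : ℂ) {R : ℝ} (hR : 0 ≤ R) :
    ∫ z in ball c R, f z = ∫ r in (0 : ℝ)..R, 2 * π * r * Real.circleAverage f c r := by
  rw [← int_tr, polar0 (by fun_prop) hR]
  simp only [Real.circleAverage_map_add_const]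

theorem gr_add {s R : ℝ} (hs : 0 < s) (hR : 0 < R) {z : ℂ} (hz : z ≠ 0) :
    Gr R z = Gr s z + 2 / π * Real.log (R / s) := by
  have := norm_ne_zero_iff.2 hz
  rw [Gr, Gr, Real.log_div hR.ne' this, Real.log_div hs.ne' this, Real.log_div hR.ne' hs.ne']
  ring

theorem two0 (hw : ContDiff ℝ 2 w) (h0 : ∀ τ, 0 ≤ ddb w τ) {s R : ℝ} (hs : 0 < s) (hsR : s ≤ R) :
    2 / π * Real.log (R / s) * ∫ z in ball (0 : ℂ) s, ddb w z ≤
      Real.circleAverage w 0 R - Real.circleAverage w 0 s ∧
    Real.circleAverage w 0 R - Real.circleAverage w 0 s ≤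
      2 / π * Real.log (R / s) * ∫ z in ball (0 : ℂ) R, ddb w z := by
  have hR : 0 < R := hs.trans_le hsR
  have hπ := Real.pi_pos
  have hc := cont_ddb hw
  have g1 := green_jensen (φ := w) hs fun _ _ => hw.contDiffAt
  have g2 := green_jensen (φ := w) hR fun _ _ => hw.contDiffAt
  have i1 := integrableOn_Gr_mul hs hc.continuousOn
  have i2 := integrableOn_Gr_mul hR hc.continuousOn
  have hne : ∀ᵐ z : ℂ, z ≠ 0 := compl_mem_ae_iff.2 (measure_singleton (0 : ℂ))
  constructor
  · have a1 : ∫ z in ball (0 : ℂ) s, Gr R z * ddb w z ≤ ∫ z in ball (0 : ℂ) R, Gr R z * ddb w z := by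
      refine setIntegral_mono_set i2 ?_ (ball_subset_ball hsR).eventuallyLE
      filter_upwards [ae_restrict_mem measurableSet_ball] with z hz
      exact mul_nonneg (Gr_nonneg hz) (h0 z)
    have a2 : ∫ z in ball (0 : ℂ) s, Gr R z * ddb w z = ∫ z in ball (0 : ℂ) s,
        (Gr s z * ddb w z + 2 / π * Real.log (R / s) * ddb w z) := by
      refine integral_congr_ae (ae_restrict_of_ae ?_)
      filter_upwards [hne] with z hz
      rw [gr_add hs hR hz, add_mul]
    rw [a2, integral_add i1 ((intOn hc _ _).const_mul _), integral_const_mul] at a1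
    linarith
  · have i3 : IntegrableOn ((ball (0 : ℂ) s).indicator fun z => Gr s z * ddb w z) (ball 0 R) :=
      ((integrable_indicator_iff measurableSet_ball).2 i1).integrableOn
    have a1 : ∫ z in ball (0 : ℂ) R, Gr R z * ddb w z ≤ ∫ z in ball (0 : ℂ) R,
        ((ball (0 : ℂ) s).indicator (fun z => Gr s z * ddb w z) z +
          2 / π * Real.log (R / s) * ddb w z) := by
      refine integral_mono_ae i2 (i3.add ((intOn hc _ _).const_mul _)) (ae_restrict_of_ae ?_)
      filter_upwards [hne] with z hz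
      by_cases h : z ∈ ball (0 : ℂ) s
      · rw [indicator_of_mem h, gr_add hs hR hz, add_mul]
      · rw [indicator_of_notMem h, zero_add, Gr]
        have h' : s ≤ ‖z‖ := by simpa using h
        have := h0 z
        gcongr
    rw [integral_add i3 ((intOn hc _ _).const_mul _), integral_const_mul,
      setIntegral_indicator measurableSet_ball,
      inter_eq_self_of_subset_right (ball_subset_ball hsR)] at a1
    linarith

/-- the two radius bound -/
theorem two (hw : ContDiff ℝ 2 w) (h0 : ∀ τ, 0 ≤ ddb w τ) (c : ℂ) {s R : ℝ} (hs : 0 < s)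
    (hsR : s ≤ R) :
    2 / π * Real.log (R / s) * ∫ z in ball c s, ddb w z ≤
      Real.circleAverage w c R - Real.circleAverage w c s ∧
    Real.circleAverage w c R - Real.circleAverage w c s ≤
      2 / π * Real.log (R / s) * ∫ z in ball c R, ddb w z := by
  have := two0 (w := fun z => w (z + c)) (by fun_prop) (fun τ => by rw [ddb_tr]; exact h0 _) hs hsR
  simpa only [ddb_tr, int_tr (ddb w), Real.circleAverage_map_add_const] using this

theorem mass_nonneg (h0 : ∀ τ, 0 ≤ ddb w τ) (c : ℂ) (s : ℝ) : 0 ≤ ∫ z in ball c s, ddb w z :=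
  integral_nonneg fun z => h0 z

theorem avg_mono (hw : ContDiff ℝ 2 w) (h0 : ∀ τ, 0 ≤ ddb w τ) (c : ℂ) {s R : ℝ} (hs : 0 ≤ s)
    (hsR : s ≤ R) : Real.circleAverage w c s ≤ Real.circleAverage w c R := by
  have key : ∀ s : ℝ, 0 < s → s ≤ R → Real.circleAverage w c s ≤ Real.circleAverage w c R :=
    fun s hs hsR => by
      have h1 := (two hw h0 c hs hsR).1
      have h2 : 0 ≤ 2 / π * Real.log (R / s) * ∫ z in ball c s, ddb w z :=
        mul_nonneg (mul_nonneg (by positivity) (Real.log_nonneg ((one_le_div hs).2 hsR)))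
          (mass_nonneg h0 c s)
      linarith
  rcases hs.eq_or_lt with rfl | hs
  · rcases hsR.eq_or_lt with rfl | hR
    · exact le_rfl
    · have hc : Continuous (Real.circleAverage w c) := Real.Continuous.circleAverage hw.continuous
      refine le_of_tendsto (hc.continuousAt.tendsto.mono_left (nhdsWithin_le_nhds (s := Ioi 0))) ?_
      filter_upwards [Ioc_mem_nhdsGT hR] with s hs using key s hs.1 hs.2
  · exact key s hs hsR

theorem int_lin (a b R : ℝ) : ∫ r in (0 : ℝ)..R, (2 * π * r * a - b) = π * R ^ 2 * a - b * R := by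
  rw [intervalIntegral.integral_sub (by apply Continuous.intervalIntegrable; fun_prop)
    (by apply Continuous.intervalIntegrable; fun_prop), intervalIntegral.integral_mul_const,
    intervalIntegral.integral_const_mul, integral_id]
  simp
  ring

theorem disc_ge {f : ℂ → ℝ} (hf : Continuous f) (c : ℂ) {R a b : ℝ} (hR : 0 ≤ R)
    (h : ∀ r ∈ Ioo 0 R, 2 * π * r * a - b ≤ 2 * π * r * Real.circleAverage f c r) :
    π * R ^ 2 * a - b * R ≤ ∫ z in ball c R, f z := by
  have hc : Continuous (Real.circleAverage f c) := Real.Continuous.circleAverage hf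
  rw [polar hf c hR, ← int_lin]
  exact intervalIntegral.integral_mono_on_of_le_Ioo hR
    (by apply Continuous.intervalIntegrable; fun_prop)
    (by apply Continuous.intervalIntegrable; fun_prop) h

theorem disc_sub (hw : ContDiff ℝ 2 w) (h0 : ∀ τ, 0 ≤ ddb w τ) (c : ℂ) {R : ℝ} (hR : 0 ≤ R) :
    π * R ^ 2 * w c ≤ ∫ z in ball c R, w z := by
  have := disc_ge hw.continuous c (a := w c) (b := 0) hR fun r hr => by
    have h1 := avg_mono hw h0 c le_rfl hr.1.le
    rw [Real.circleAverage_zero] at h1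
    have := hr.1
    rw [sub_zero]
    gcongr
  simpa using this

theorem disc_le (hw : ContDiff ℝ 2 w) (h0 : ∀ τ, 0 ≤ ddb w τ) (c : ℂ) {R : ℝ} (hR : 0 ≤ R) :
    ∫ z in ball c R, w z ≤ π * R ^ 2 * Real.circleAverage w c R := by
  have hc : Continuous (Real.circleAverage w c) := Real.Continuous.circleAverage hw.continuous
  have e := int_lin (Real.circleAverage w c R) 0 R
  simp only [sub_zero, zero_mul] at e
  rw [polar hw.continuous c hR, ← e]
  refine intervalIntegral.integral_mono_on_of_le_Ioo hR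
    (by apply Continuous.intervalIntegrable; fun_prop)
    (by apply Continuous.intervalIntegrable; fun_prop) fun r hr => ?_
  have h1 := avg_mono hw h0 c hr.1.le hr.2.le
  have := hr.1
  gcongr

theorem cmp {f : ℂ → ℝ} (hf : Continuous f) {a b : ℂ} {r R M : ℝ} (hr : 0 ≤ r) (hR : 0 ≤ R)
    (hs : ball a r ⊆ ball b R) (hM : ∀ z ∈ ball b R, f z ≤ M) :
    π * r ^ 2 * M - ∫ z in ball a r, f z ≤ π * R ^ 2 * M - ∫ z in ball b R, f z := by
  rw [← int_const M a hr, ← int_const M b hR, ← integral_sub (intOn continuous_const _ _)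
    (intOn hf _ _), ← integral_sub (intOn continuous_const _ _) (intOn hf _ _)]
  refine setIntegral_mono_set (intOn (continuous_const.sub hf) _ _) ?_ hs.eventuallyLE
  filter_upwards [ae_restrict_mem measurableSet_ball] with z hz
  exact sub_nonneg.2 (hM z hz)

theorem ev_le {η : ℝ} (hη : 0 < η) (c : ℝ) : ∀ᶠ R in atTop, c ≤ η * Real.log R :=
  (Real.tendsto_log_atTop.const_mul_atTop hη).eventually_ge_atTop c

theorem lg_eq (τ : ℂ) : lg τ = 2 * Real.log ‖τ‖ := by
  rw [lg, Real.log_pow]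
  norm_num

theorem of_ev {P : ℝ → Prop} (h : ∀ᶠ R in atTop, P R) : ∃ ρ : ℝ, ∀ τ ∈ ex ρ, P ‖τ‖ := by
  obtain ⟨a, ha⟩ := eventually_atTop.1 h
  exact ⟨a, fun τ hτ => ha _ (le_of_lt hτ)⟩

theorem upB (hw : Continuous w) {C η : ℝ} (h : Up w C) (hη : 0 < η) :
    ∀ᶠ R in atTop, ∀ z ∈ closedBall (0 : ℂ) R, w z ≤ (max C 0 + η) * (2 * Real.log R) := by
  obtain ⟨ρ, hρ⟩ := h η hη
  obtain ⟨B, hB⟩ := (isCompact_closedBall (0 : ℂ) (max ρ 1)).bddAbove_image hw.continuousOn
  have hk : 0 < max C 0 + η := by positivity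
  filter_upwards [ev_le (η := (max C 0 + η) * 2) (by positivity) B] with R hR z hz
  by_cases h1 : ‖z‖ ≤ max ρ 1
  · have := hB (mem_image_of_mem w (mem_closedBall_zero_iff.2 h1))
    linarith
  · have h2 := not_le.1 h1
    have h3 : 1 < ‖z‖ := (le_max_right _ _).trans_lt h2
    have h4 := hρ z ((le_max_left _ _).trans_lt h2)
    have h5 := Real.log_pos h3
    have h6 : Real.log ‖z‖ ≤ Real.log R :=
      Real.log_le_log (by linarith) (mem_closedBall_zero_iff.1 hz)
    rw [lg_eq] at h4
    refine h4.trans ?_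
    gcongr
    exact le_max_left _ _

theorem avg_le (hw : Continuous w) {R M : ℝ} (hR : 0 ≤ R)
    (h : ∀ z ∈ closedBall (0 : ℂ) R, w z ≤ M) : Real.circleAverage w 0 R ≤ M :=
  Real.circleAverage_mono_on_of_le_circle (hw.continuousOn.circleIntegrable hR) fun z hz =>
    h z (sphere_subset_closedBall (by rwa [abs_of_nonneg hR] at hz))

theorem integrable (hw : ContDiff ℝ 2 w) (h0 : ∀ τ, 0 ≤ ddb w τ) {C : ℝ} (h : Up w C) :
    Integrable (ddb w) := by
  have hπ := Real.pi_pos
  refine (aecover_ball (x := (0 : ℂ)) (l := atTop) (r := fun s : ℝ => s)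
    tendsto_id).integrable_of_integral_bounded_of_nonneg_ae (π * (max C 0 + 2))
    (fun s => intOn (cont_ddb hw) _ _) (Eventually.of_forall h0) ?_
  filter_upwards [eventually_gt_atTop 0] with s hs
  set m := ∫ z in ball (0 : ℂ) s, ddb w z with hm
  obtain ⟨R, h1, h2, h3, h4⟩ := ((upB hw.continuous h one_pos).and ((eventually_ge_atTop s).and
    ((eventually_gt_atTop 1).and (ev_le two_pos
      (2 / π * Real.log s * m - Real.circleAverage w 0 s))))).exists
  have h5 := (two hw h0 0 hs h2).1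
  have h6 := avg_le hw.continuous (by linarith) h1
  have h7 := Real.log_pos h3
  rw [Real.log_div (by linarith) hs.ne', ← hm] at h5
  have h8 : 2 / π * m * Real.log R ≤ (2 * (max C 0 + 2)) * Real.log R := by nlinarith
  have h9 := le_of_mul_le_mul_right h8 h7
  rw [div_mul_eq_mul_div, div_le_iff₀ hπ] at h9
  linarith

theorem mass_le (h0 : ∀ τ, 0 ≤ ddb w τ) (hi : Integrable (ddb w)) (c : ℂ) (s : ℝ) :
    ∫ z in ball c s, ddb w z ≤ π * slp w := by
  rw [slp, mul_div_cancel₀ _ Real.pi_pos.ne']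
  exact setIntegral_le_integral hi (Eventually.of_forall h0)

theorem slp_nonneg (h0 : ∀ τ, 0 ≤ ddb w τ) : 0 ≤ slp w :=
  div_nonneg (integral_nonneg h0) Real.pi_pos.le

theorem mass_ge (hi : Integrable (ddb w)) {η : ℝ} (hη : 0 < η) :
    ∀ᶠ s in atTop, π * (slp w - η) ≤ ∫ z in ball (0 : ℂ) s, ddb w z := by
  have h := (aecover_ball (x := (0 : ℂ)) (l := atTop) (r := fun s : ℝ => s)
    tendsto_id).integral_tendsto_of_countably_generated hi
  refine h.eventually_const_le ?_
  rw [mul_sub, slp, mul_div_cancel₀ _ Real.pi_pos.ne']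
  have := mul_pos Real.pi_pos hη
  linarith

theorem avg_up (hw : ContDiff ℝ 2 w) (h0 : ∀ τ, 0 ≤ ddb w τ) (hi : Integrable (ddb w)) {η : ℝ}
    (hη : 0 < η) :
    ∀ᶠ R in atTop, Real.circleAverage w 0 R ≤ (slp w + η) * (2 * Real.log R) := by
  have hπ := Real.pi_pos
  filter_upwards [eventually_ge_atTop 1,
    ev_le (η := 2 * η) (by positivity) (Real.circleAverage w 0 1)] with R h1 h2
  have h3 := (two hw h0 0 one_pos h1).2
  have h4 := Real.log_nonneg h1
  have h5 : 2 / π * Real.log (R / 1) * ∫ z in ball (0 : ℂ) R, ddb w z ≤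
      2 / π * Real.log R * (π * slp w) := by
    rw [div_one]
    exact mul_le_mul_of_nonneg_left (mass_le h0 hi 0 R) (by positivity)
  have e : 2 / π * Real.log R * (π * slp w) = slp w * (2 * Real.log R) := by field_simp
  linarith

theorem avg_lo (hw : ContDiff ℝ 2 w) (h0 : ∀ τ, 0 ≤ ddb w τ) (hi : Integrable (ddb w)) {η : ℝ}
    (hη : 0 < η) :
    ∀ᶠ R in atTop, (slp w - η) * (2 * Real.log R) ≤ Real.circleAverage w 0 R := by
  have hπ := Real.pi_pos
  obtain ⟨s, h1, hs⟩ := ((mass_ge hi (half_pos hη)).and (eventually_gt_atTop 0)).exists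
  filter_upwards [eventually_ge_atTop s,
    ev_le hη ((slp w - η / 2) * (2 * Real.log s) - Real.circleAverage w 0 s)] with R h2 h3
  have h4 := (two hw h0 0 hs h2).1
  have h5 := Real.log_nonneg ((one_le_div hs).2 h2)
  have h6 : 2 / π * Real.log (R / s) * (π * (slp w - η / 2)) ≤
      2 / π * Real.log (R / s) * ∫ z in ball (0 : ℂ) s, ddb w z :=
    mul_le_mul_of_nonneg_left h1 (by positivity)
  have e : 2 / π * Real.log (R / s) * (π * (slp w - η / 2)) =
      (slp w - η / 2) * (2 * (Real.log R - Real.log s)) := by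
    rw [Real.log_div (hs.trans_le h2).ne' hs.ne']
    field_simp
  linarith

theorem pt_le (hw : ContDiff ℝ 2 w) (h0 : ∀ τ, 0 ≤ ddb w τ) {c : ℂ} {K M A : ℝ} (hK : 0 ≤ K)
    (hc : 0 < ‖c‖) (b1 : ∀ z ∈ closedBall (0 : ℂ) ((K + 2) * ‖c‖), w z ≤ M)
    (b2 : Real.circleAverage w 0 (K * ‖c‖) ≤ A) :
    (K + 1) ^ 2 * w c ≤ (2 * K + 1) * M + K ^ 2 * A := by
  have hπ := Real.pi_pos
  have c1 := cmp hw.continuous (a := 0) (b := c) (r := K * ‖c‖) (R := (K + 1) * ‖c‖) (M := M)
    (by positivity) (by positivity)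
    (ball_subset_ball' (by rw [dist_zero_left]; linarith))
    fun z hz => b1 z (ball_subset_closedBall (ball_subset_ball' (by
      rw [dist_zero_right]; linarith) hz))
  have c2 := disc_sub hw h0 c (R := (K + 1) * ‖c‖) (by positivity)
  have c3 := disc_le hw h0 0 (R := K * ‖c‖) (by positivity)
  have c4 : π * (K * ‖c‖) ^ 2 * Real.circleAverage w 0 (K * ‖c‖) ≤ π * (K * ‖c‖) ^ 2 * A := by
    gcongr
  refine le_of_mul_le_mul_left (a := π * ‖c‖ ^ 2) ?_ (by positivity)
  linarith

theorem up (hw : ContDiff ℝ 2 w) (h0 : ∀ τ, 0 ≤ ddb w τ) {C : ℝ} (h : Up w C) :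
    Up w (slp w) := by
  intro η hη
  have hi := integrable hw h0 h
  have hν := slp_nonneg h0
  obtain ⟨D, hDe⟩ : ∃ D, D = max C 0 + 1 := ⟨_, rfl⟩
  have hD : 0 < D := by rw [hDe]; positivity
  obtain ⟨e, he⟩ : ∃ e, η = 3 * e := ⟨η / 3, by ring⟩
  have he0 : 0 < e := by linarith
  obtain ⟨K, hK1, hKD⟩ : ∃ K : ℝ, 1 ≤ K ∧ 2 * D ≤ e * K := by
    refine ⟨2 * D / e + 1, le_add_of_nonneg_left (by positivity), ?_⟩
    rw [mul_add e, mul_div_cancel₀ _ he0.ne']
    linarith
  have a1 := (tendsto_id.const_mul_atTop (r := K + 2) (by linarith)).eventually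
    (upB hw.continuous h one_pos)
  have a2 := (tendsto_id.const_mul_atTop (r := K) (by linarith)).eventually (avg_up hw h0 hi he0)
  obtain ⟨ρ, hρ⟩ := of_ev (a1.and (a2.and ((eventually_ge_atTop 1).and
    (ev_le (mul_pos two_pos he0)
      (2 * (e * Real.log (K + 2) + (slp w + e) * Real.log K))))))
  refine ⟨ρ, fun c hc => ?_⟩
  obtain ⟨b1, b2, b3, b4⟩ := hρ c hc
  simp only [id, ← hDe] at b1 b2
  have c6 := pt_le hw h0 (by linarith) (by linarith) b1 b2
  rw [lg_eq, he]
  generalize ‖c‖ = r at *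
  have l1 : 0 ≤ Real.log ((K + 2) * r) := Real.log_nonneg (by nlinarith)
  have l2 : 0 ≤ Real.log (K * r) := Real.log_nonneg (by nlinarith)
  have c7 : (2 * K + 1) * D ≤ (K + 1) ^ 2 * e := by nlinarith
  have c8 := mul_le_mul_of_nonneg_right c7 (mul_nonneg two_pos.le l1)
  have c9 : K ^ 2 * ((slp w + e) * (2 * Real.log (K * r))) ≤
      (K + 1) ^ 2 * ((slp w + e) * (2 * Real.log (K * r))) :=
    mul_le_mul_of_nonneg_right (by nlinarith) (by positivity)
  have c10 : w c ≤ e * (2 * Real.log ((K + 2) * r)) + (slp w + e) * (2 * Real.log (K * r)) :=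
    le_of_mul_le_mul_left (a := (K + 1) ^ 2) (by linarith) (by positivity)
  rw [Real.log_mul (by linarith) (by linarith), Real.log_mul (by linarith) (by linarith)] at c10
  linarith

theorem disc_lo (hw : ContDiff ℝ 2 w) (h0 : ∀ τ, 0 ≤ ddb w τ) (hi : Integrable (ddb w)) {R : ℝ}
    (hR : 0 ≤ R) :
    π * R ^ 2 * (Real.circleAverage w 0 R - 4 * slp w) ≤ ∫ z in ball (0 : ℂ) R, w z := by
  have hπ := Real.pi_pos
  have hν := slp_nonneg h0
  have := disc_ge hw.continuous 0 (a := Real.circleAverage w 0 R) (b := 4 * π * slp w * R) hR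
    fun r hr => by
      have h1 := (two hw h0 0 hr.1 hr.2.le).2
      have h2 := hr.1
      have h3 : Real.log (R / r) ≤ R / r := Real.log_le_self (by positivity)
      have h4 : 2 / π * Real.log (R / r) * ∫ z in ball (0 : ℂ) R, ddb w z ≤
          2 / π * (R / r) * (π * slp w) :=
        mul_le_mul (by gcongr) (mass_le h0 hi 0 R) (mass_nonneg h0 _ _) (by positivity)
      have h5 := mul_le_mul_of_nonneg_left (h1.trans h4) (show 0 ≤ 2 * π * r by positivity)
      have e : 2 * π * r * (2 / π * (R / r) * (π * slp w)) = 4 * π * slp w * R := by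
        field_simp
        ring
      linarith
  linarith

theorem tail (h0 : ∀ τ, 0 ≤ ddb w τ) (hi : Integrable (ddb w)) {c : ℂ} {η : ℝ}
    (h : π * (slp w - η) ≤ ∫ z in ball (0 : ℂ) (1 / 2 * ‖c‖), ddb w z) :
    ∫ z in ball c (1 / 2 * ‖c‖), ddb w z ≤ π * η := by
  have hd : Disjoint (ball (0 : ℂ) (1 / 2 * ‖c‖)) (ball c (1 / 2 * ‖c‖)) :=
    ball_disjoint_ball (by rw [dist_zero_left]; linarith)
  have h1 := setIntegral_union hd measurableSet_ball hi.integrableOn hi.integrableOn
  have h2 := setIntegral_le_integral (s := ball (0 : ℂ) (1 / 2 * ‖c‖) ∪ ball c (1 / 2 * ‖c‖)) hi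
    (Eventually.of_forall h0)
  rw [mul_sub, slp, mul_div_cancel₀ _ Real.pi_pos.ne'] at h
  linarith

theorem lo (hw : ContDiff ℝ 2 w) (h0 : ∀ τ, 0 ≤ ddb w τ) {C : ℝ} (h : Up w C) :
    Lo w (slp w) := by
  intro η hη
  have hπ := Real.pi_pos
  have hi := integrable hw h0 h
  have hν := slp_nonneg h0
  set e := η / 40 with he
  have he0 : 0 < e := by positivity
  have a1 := (tendsto_id.const_mul_atTop (r := 2) two_pos).eventually
    (upB hw.continuous (up hw h0 h) he0)
  have a2 := (tendsto_id.const_mul_atTop (r := 2) two_pos).eventually (avg_lo hw h0 hi he0)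
  have a3 := (tendsto_id.const_mul_atTop (r := 1 / 2) (by norm_num)).eventually (mass_ge hi he0)
  obtain ⟨ρ, hρ⟩ := of_ev (a1.and (a2.and (a3.and ((eventually_ge_atTop 2).and
    (ev_le he0 (64 * slp w + 62 * e * Real.log 2))))))
  refine ⟨ρ, fun c hc s hs hs1 => ?_⟩
  obtain ⟨b1, b2, b3, b4, b5⟩ := hρ c hc
  simp only [id, max_eq_left hν] at b1 b2 b3
  have t1 := tail h0 hi b3
  set r := ‖c‖ with hr
  have c1 := cmp hw.continuous (a := c) (b := 0) (r := 1 / 2 * r) (R := 2 * r)
    (by positivity) (by positivity) (ball_subset_ball' (by rw [dist_zero_right]; linarith))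
    fun z hz => b1 z (ball_subset_closedBall hz)
  have c2 := disc_le hw h0 c (R := 1 / 2 * r) (by positivity)
  have c3 := disc_lo hw h0 hi (R := 2 * r) (by positivity)
  set M := (slp w + e) * (2 * Real.log (2 * r)) with hM
  have c4 : π * (1 / 2 * r) ^ 2 * (M - 16 * (M - (Real.circleAverage w 0 (2 * r) - 4 * slp w))) ≤
      π * (1 / 2 * r) ^ 2 * Real.circleAverage w c (1 / 2 * r) := by linarith
  have c5 := le_of_mul_le_mul_left c4 (by positivity)
  have c6 := (two hw h0 c hs (show s ≤ 1 / 2 * r by linarith)).2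
  have l1 : 0 ≤ Real.log (1 / 2 * r / s) := Real.log_nonneg ((one_le_div hs).2 (by linarith))
  have l2 : Real.log (1 / 2 * r / s) ≤ Real.log r - Real.log s := by
    rw [← Real.log_div (by linarith) hs.ne']
    gcongr
    linarith
  have c7 : 2 / π * Real.log (1 / 2 * r / s) * ∫ z in ball c (1 / 2 * r), ddb w z ≤
      2 / π * (Real.log r - Real.log s) * (π * e) :=
    mul_le_mul (by gcongr) t1 (mass_nonneg h0 _ _) (mul_nonneg (by positivity) (by linarith))
  have e1 : 2 / π * (Real.log r - Real.log s) * (π * e) = 2 * e * (Real.log r - Real.log s) := by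
    field_simp
  have l3 : 0 ≤ Real.log r := Real.log_nonneg (by linarith)
  have l4 : Real.log s ≤ 0 := Real.log_nonpos hs.le hs1
  have l5 : 0 ≤ Real.log 2 := Real.log_nonneg one_le_two
  rw [hM, Real.log_mul two_ne_zero (by linarith)] at c5
  rw [Real.log_mul two_ne_zero (by linarith)] at b2
  rw [lg_eq, ← hr, show η = 40 * e by rw [he]; ring]
  linarith [mul_nonneg he0.le l3, mul_nonneg he0.le (neg_nonneg.2 l4), mul_nonneg hν l5]

end S0

open S0 in
theorem sh0 : SH0 := by
  intro w C hw h0 h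
  have hi := integrable hw h0 h
  refine ⟨hi, up hw h0 h, lo hw h0 h, Metric.tendsto_nhds.2 fun η hη => ?_⟩
  filter_upwards [avg_up hw h0 hi (half_pos hη), avg_lo hw h0 hi (half_pos hη),
    eventually_gt_atTop 1] with R h1 h2 h3
  have h4 : 0 < 2 * Real.log R := mul_pos two_pos (Real.log_pos h3)
  rw [Real.log_pow, Nat.cast_ofNat, Real.dist_eq, abs_lt]
  rw [← div_le_iff₀ h4] at h1
  rw [← le_div_iff₀ h4] at h2
  constructor <;> linarith

end Vale.Agent.P253W.C
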