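import Vale.Agent.P253W.C.Defs0

/-!
# P253W, row C.SHE: exponential integrability
-/

open scoped Topology Real
open Set Metric Filter MeasureTheory
open Vale.Agent.P272.GJ

noncomputable section

namespace Vale.Agent.P253W.C

namespace She

theorem ddb_add (w : ℂ → ℝ) (z x : ℂ) : ddb (fun y => w (y + z)) x = ddb w (x + z) := by
  simp only [ddb, fderiv_comp_add_right]
  rw [fderiv_comp_add_right (f := fun y => fderiv ℝ w y 1),
    fderiv_comp_add_right (f := fun y => fderiv ℝ w y Complex.I)]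

theorem meas_ex (ρ : ℝ) : MeasurableSet (ex ρ) :=
  (isOpen_lt continuous_const continuous_norm).measurableSet

theorem int_inv : IntegrableOn (fun x : ℂ => ‖x‖⁻¹) (ball 0 1) := by
  refine integrableOn_ball_of_norm_le_rpow (C := 1) (α := 1) (by simp) (by simp)
    (Eventually.of_forall fun x => ?_) (by fun_prop)
  rw [Real.rpow_neg_one, one_mul, Real.norm_of_nonneg (by positivity)]

/-- the inequality of Jensen -/
theorem jensen {m : ℂ → ℝ} (hm : ContinuousOn m (closedBall 0 1)) (h0 : ∀ x, 0 ≤ m x) {p ε : ℝ}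
    (hε : 0 < ε) (h1 : ε * p * (2 / π) ≤ 1) (h2 : ∫ x in ball (0 : ℂ) 1, m x ≤ ε) :
    Real.exp (p * ∫ x in ball (0 : ℂ) 1, Gr 1 x * m x) ≤
      1 + ε⁻¹ * ∫ x in ball (0 : ℂ) 1, ‖x‖⁻¹ * m x := by
  set a := p * ∫ x in ball (0 : ℂ) 1, Gr 1 x * m x with ha
  obtain ⟨C, hC⟩ := (isCompact_closedBall (0 : ℂ) 1).exists_bound_of_continuousOn hm
  have i0 : IntegrableOn m (ball 0 1) :=
    (hm.integrableOn_compact (isCompact_closedBall 0 1)).mono_set ball_subset_closedBall
  have i1 := integrableOn_Gr_mul one_pos hm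
  have i2 : IntegrableOn (fun x : ℂ => ‖x‖⁻¹ * m x) (ball 0 1) :=
    Integrable.mul_bdd (c := C) int_inv i0.aestronglyMeasurable (by
      filter_upwards [ae_restrict_mem measurableSet_ball] with x hx
      exact hC x (ball_subset_closedBall hx))
  have tan : ∀ g : ℝ, Real.exp a * (1 + g - a) ≤ Real.exp g := fun g => by
    have h := mul_le_mul_of_nonneg_left (Real.add_one_le_exp (g - a)) (Real.exp_pos a).le
    rw [← Real.exp_add, add_sub_cancel] at h
    linarith
  have h3 : ∫ x in ball (0 : ℂ) 1, Real.exp a * ((1 - a) * m x + ε * p * (Gr 1 x * m x)) ≤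
      ∫ x in ball (0 : ℂ) 1, ‖x‖⁻¹ * m x := by
    refine integral_mono_ae (((i0.const_mul _).add (i1.const_mul _)).const_mul _) i2 ?_
    filter_upwards [ae_restrict_mem measurableSet_ball,
      ae_restrict_of_ae (compl_mem_ae_iff.2 (measure_singleton (0 : ℂ)))] with x hx hx0
    have hx1 : 0 < ‖x‖ := norm_pos_iff.2 hx0
    have hx2 : 0 ≤ Real.log (1 / ‖x‖) :=
      Real.log_nonneg ((one_le_div hx1).2 (mem_ball_zero_iff.1 hx).le)
    have h4 : Real.exp (ε * p * Gr 1 x) ≤ ‖x‖⁻¹ := by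
      rw [← Real.le_log_iff_exp_le (by positivity), Gr, ← mul_assoc, ← one_div]
      exact mul_le_of_le_one_left hx2 h1
    have h5 := mul_le_mul_of_nonneg_right ((tan _).trans h4) (h0 x)
    linarith
  rw [integral_const_mul, integral_add (i0.const_mul _) (i1.const_mul _), integral_const_mul,
    integral_const_mul, mul_assoc ε, ← ha] at h3
  have h4 : 0 ≤ ∫ x in ball (0 : ℂ) 1, m x := integral_nonneg h0
  have h5 := mul_le_mul_of_nonneg_left (tan 0) (sub_nonneg.2 h2)
  rw [Real.exp_zero] at h5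
  refine le_of_mul_le_mul_left ?_ hε
  rw [mul_add, ← mul_assoc, mul_inv_cancel₀ hε.ne']
  nlinarith

theorem tail {m : ℂ → ℝ} (hm : Integrable m) (h0 : ∀ x, 0 ≤ m x) {ε : ℝ} (hε : 0 < ε) :
    ∃ ρ : ℝ, ∀ z ∈ ex ρ, ∫ x in ball (0 : ℂ) 1, m (x + z) ≤ ε := by
  have h1 := tendsto_setIntegral_of_antitone (μ := volume) (f := m) (s := fun k : ℕ => ex k)
    (fun k => meas_ex k) (fun k l h x (hx : (l : ℝ) < ‖x‖) => (Nat.cast_le.2 h).trans_lt hx)
    ⟨0, hm.integrableOn⟩
  have h2 : ⋂ k : ℕ, ex k = ∅ := eq_empty_of_forall_notMem fun x hx => by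
    obtain ⟨k, hk⟩ := exists_nat_ge ‖x‖
    exact not_lt.2 hk (mem_iInter.1 hx k)
  rw [h2, setIntegral_empty] at h1
  obtain ⟨k, hk⟩ := (h1.eventually (ge_mem_nhds hε)).exists
  refine ⟨k + 1, fun z hz => le_trans ?_ hk⟩
  rw [← integral_indicator measurableSet_ball, ← integral_indicator (meas_ex k),
    ← integral_add_right_eq_self ((ex k).indicator m) z]
  refine integral_mono ((hm.comp_add_right z).indicator measurableSet_ball)
    ((hm.indicator (meas_ex k)).comp_add_right z) fun x => ?_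
  by_cases hx : x ∈ ball (0 : ℂ) 1
  · have h3 : x + z ∈ ex k := by
      have h4 : (k : ℝ) + 1 < ‖z‖ := hz
      have h5 := norm_sub_le (x + z) x
      rw [add_sub_cancel_left] at h5
      change (k : ℝ) < ‖x + z‖
      linarith [mem_ball_zero_iff.1 hx]
    simp only [indicator_of_mem hx, indicator_of_mem h3, le_refl]
  · simp only [indicator_of_notMem hx]
    exact indicator_nonneg (fun y _ => h0 y) _

theorem conv {m : ℂ → ℝ} (hm : Integrable m) :
    Integrable fun z => ∫ x in ball (0 : ℂ) 1, ‖x‖⁻¹ * m (x + z) := by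
  have h1 := ((int_inv.integrable_indicator measurableSet_ball).mul_prod hm)
  have h2 := ((measurePreserving_prod_add (volume : Measure ℂ) volume).integrable_comp_of_integrable
    h1).integral_prod_right
  refine h2.congr (Eventually.of_forall fun z => ?_)
  simp only [Function.comp_apply]
  rw [← integral_indicator measurableSet_ball]
  congr 1
  funext x
  exact (indicator_mul_left (ball (0 : ℂ) 1) (fun x => ‖x‖⁻¹) fun x => m (x + z)).symm

end She

open She

theorem she : SHE := by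
  intro w ν hw h0 hi hl p b hp hb
  have hπ := Real.pi_pos
  obtain ⟨ρ₁, h1⟩ := hl ((b + p * ν - 1) / (p + 1)) (div_pos (by linarith) (by linarith))
  obtain ⟨c, hc, hc1⟩ : ∃ c : ℝ, c = b + p * (ν - (b + p * ν - 1) / (p + 1)) ∧ 1 < c := by
    refine ⟨_, rfl, ?_⟩
    have h2 : p * ((b + p * ν - 1) / (p + 1)) < b + p * ν - 1 := by
      rw [← mul_div_assoc, div_lt_iff₀ (by linarith)]
      nlinarith
    linarith
  obtain ⟨ε, hε, hε1⟩ : ∃ ε : ℝ, 0 < ε ∧ ε * p * (2 / π) ≤ 1 := by
    refine ⟨(p * (2 / π) + 1)⁻¹, by positivity, ?_⟩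
    rw [mul_assoc, inv_mul_le_iff₀ (by positivity)]
    linarith
  obtain ⟨ρ₂, h2⟩ := tail hi h0 hε
  have i1 := (integrable_rpow_neg_one_add_norm_sq (E := ℂ) (μ := volume) (r := 2 * c)
    (by simp; linarith)).const_mul (2 ^ c)
  refine ⟨max (max ρ₁ ρ₂) 1, Integrable.mono' (i1.add ((conv hi).const_mul ε⁻¹)).integrableOn
    ?_ ?_⟩
  · have := hw.continuous
    unfold lg
    exact Measurable.aestronglyMeasurable (by fun_prop)
  filter_upwards [ae_restrict_mem (meas_ex _)] with z hz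
  have hz' : max (max ρ₁ ρ₂) 1 < ‖z‖ := hz
  simp only [max_lt_iff] at hz'
  have hs : ∀ x ∈ closedBall (0 : ℂ) 1, ContDiffAt ℝ 2 (fun y => w (y + z)) x := fun x _ =>
    (hw.comp (contDiff_id.add contDiff_const)).contDiffAt
  have h3 := green_jensen one_pos hs
  have h4 := contOn_ddb hs
  simp only [funext (ddb_add w z)] at h3 h4
  rw [Real.circleAverage_map_add_const, zero_add] at h3
  have h5 := jensen h4 (fun x => h0 _) hε hε1 (h2 z hz'.1.2)
  have h6 := h1 z hz'.1.1 1 one_pos le_rfl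
  rw [Real.log_one, mul_zero, add_zero] at h6
  have h7 : 1 ≤ ‖z‖ ^ 2 := one_le_pow₀ hz'.2.le
  have h8 : 0 ≤ lg z := Real.log_nonneg h7
  have h9 : Real.exp (-(c * lg z)) ≤ 1 := Real.exp_le_one_iff.2 (neg_nonpos.2 (by positivity))
  have h10 : Real.exp (-(c * lg z)) ≤ 2 ^ c * (1 + ‖z‖ ^ 2) ^ (-(2 * c) / 2) := by
    rw [show -(2 * c) / 2 = -c by ring, lg, neg_mul_eq_neg_mul, mul_comm, ← Real.rpow_def_of_pos
      (by linarith), ← neg_neg c, Real.rpow_neg zero_le_two, neg_neg c, ← div_eq_inv_mul,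
      ← Real.div_rpow (by linarith) zero_le_two]
    exact Real.rpow_le_rpow_of_nonpos (by linarith) (by linarith) (by linarith)
  have h11 : 0 ≤ ε⁻¹ * ∫ x in ball (0 : ℂ) 1, ‖x‖⁻¹ * ddb w (x + z) :=
    mul_nonneg (by positivity) (integral_nonneg fun x => mul_nonneg (by positivity) (h0 _))
  rw [Real.norm_of_nonneg (Real.exp_pos _).le]
  calc Real.exp (-(p * w z) - b * lg z)
      ≤ Real.exp (-(c * lg z) + p * ∫ x in ball (0 : ℂ) 1, Gr 1 x * ddb w (x + z)) := by
        rw [h3, hc]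
        exact Real.exp_le_exp.2 (by nlinarith [mul_le_mul_of_nonneg_left h6 hp])
    _ ≤ Real.exp (-(c * lg z)) * (1 + ε⁻¹ * ∫ x in ball (0 : ℂ) 1, ‖x‖⁻¹ * ddb w (x + z)) := by
        rw [Real.exp_add]
        exact mul_le_mul_of_nonneg_left h5 (Real.exp_pos _).le
    _ ≤ _ := by
        rw [mul_add, mul_one]
        exact add_le_add h10 (mul_le_of_le_one_left h11 h9)

end Vale.Agent.P253W.C
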