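import Vale.Agent.P253W.C.Defs0

/-!
# P253W, row C.SHX: subharmonic functions near infinity
-/

open scoped Topology Real
open Set Metric Filter MeasureTheory
open Vale.Agent.P272.GJ

noncomputable section

namespace Vale.Agent.P253W.C

namespace Shx

/-- `log (1 + |τ|²)` -/
def LL (τ : ℂ) : ℝ := Real.log (1 + ‖τ‖ ^ 2)

theorem LL_sm : ContDiff ℝ 2 LL :=
  (contDiff_const.add (contDiff_norm_sq ℝ)).log fun τ => by positivity

theorem ddb_LL (z : ℂ) : 0 < ddb LL z := by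
  have h0 : ∀ w : ℂ, HasFDerivAt (fun w : ℂ => 1 + ‖w‖ ^ 2) (2 • innerSL ℝ w) w := fun w =>
    (hasStrictFDerivAt_norm_sq w).hasFDerivAt.const_add 1
  have hp : ∀ w : ℂ, 0 < 1 + ‖w‖ ^ 2 := fun w => by positivity
  have h1 : ∀ v : ℂ, (fun w => fderiv ℝ LL w v) =
      fun w => (1 + ‖w‖ ^ 2)⁻¹ * (2 * innerSL ℝ v w) := fun v => funext fun w => by
    have h := ((h0 w).log (hp w).ne').fderiv
    unfold LL
    rw [h]
    simp [real_inner_comm, mul_add]
  have h2 : ∀ v : ℂ, fderiv ℝ (fun w => fderiv ℝ LL w v) z v =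
      (1 + ‖z‖ ^ 2)⁻¹ * (2 * ‖v‖ ^ 2) - 4 * inner ℝ z v ^ 2 / (1 + ‖z‖ ^ 2) ^ 2 := fun v => by
    have h := (((hasDerivAt_inv (hp z).ne').comp_hasFDerivAt z (h0 z)).mul
      (((innerSL ℝ v).hasFDerivAt (x := z)).const_mul 2)).fderiv
    rw [h1]
    refine (congrArg (fun L : ℂ →L[ℝ] ℝ => L v) h).trans ?_
    simp [real_inner_comm]
    ring
  have h3 : inner ℝ z (1 : ℂ) ^ 2 + inner ℝ z Complex.I ^ 2 = ‖z‖ ^ 2 := by
    rw [Complex.sq_norm, Complex.normSq_apply]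
    simp [Complex.inner]
    ring
  have h4 : ddb LL z = 1 / (1 + ‖z‖ ^ 2) ^ 2 := by
    rw [ddb, h2, h2]
    have := (hp z).ne'
    simp only [norm_one, Complex.norm_I]
    field_simp
    linear_combination (-4) * h3
  rw [h4]
  have := hp z
  positivity

theorem ddb_lin {f g : ℂ → ℝ} (hf : ContDiff ℝ 2 f) (hg : ContDiff ℝ 2 g) (A : ℝ) (z : ℂ) :
    ddb (fun τ => f τ + A * g τ) z = ddb f z + A * ddb g z := by
  have d : ∀ {u : ℂ → ℝ}, ContDiff ℝ 2 u → Differentiable ℝ (fderiv ℝ u) := fun hu =>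
    (hu.fderiv_right (m := 1) (by norm_num)).differentiable (by norm_num)
  have h1 : fderiv ℝ (fun τ => f τ + A * g τ) = fun τ => fderiv ℝ f τ + A • fderiv ℝ g τ :=
    funext fun τ => ((hf.differentiable (by norm_num) τ).hasFDerivAt.add
      ((hg.differentiable (by norm_num) τ).hasFDerivAt.const_mul A)).fderiv
  have h2 := ((d hf z).hasFDerivAt.fun_add ((d hg z).hasFDerivAt.fun_const_smul A)).fderiv
  rw [ddb_eq (hf.add (contDiff_const.mul hg)).contDiffAt, ddb_eq hf.contDiffAt,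
    ddb_eq hg.contDiffAt, h1, h2]
  simp only [add_apply, smul_apply, smul_eq_mul]
  ring

theorem ddb_congr {f g : ℂ → ℝ} {z : ℂ} (h : f =ᶠ[𝓝 z] g) : ddb f z = ddb g z := by
  have h1 : ∀ v : ℂ, (fun w => fderiv ℝ f w v) =ᶠ[𝓝 z] fun w => fderiv ℝ g w v := fun v =>
    (h.fderiv (𝕜 := ℝ)).mono fun w hw => by simp only [hw]
  rw [ddb, ddb, (h1 1).fderiv_eq, (h1 Complex.I).fderiv_eq]

theorem big (K : ℝ) {η : ℝ} (hη : 0 < η) : ∃ ρ : ℝ, ∀ τ ∈ ex ρ, K ≤ η * lg τ := by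
  refine ⟨Real.exp (K / η / 2), fun τ (hτ : _ < ‖τ‖) => ?_⟩
  have h := Real.log_le_log (Real.exp_pos _) hτ.le
  rw [Real.log_exp] at h
  rw [lg, Real.log_pow, ← div_le_iff₀' hη]
  push_cast
  linarith

theorem lg_le {τ : ℂ} (h : 1 ≤ ‖τ‖) : lg τ ≤ LL τ :=
  Real.log_le_log (by positivity) (by linarith)

theorem LL_le {τ x : ℂ} (h : 1 ≤ ‖τ‖) (hx : ‖x‖ ≤ ‖τ‖ + 1) : LL x ≤ lg τ + Real.log 5 := by
  rw [lg, ← Real.log_mul (by positivity) (by norm_num)]
  exact Real.log_le_log (by positivity) (by nlinarith [norm_nonneg x])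

/-- the extension to the plane -/
theorem ext {w : ℂ → ℝ} {ρ : ℝ} (hw : ContDiffOn ℝ 2 w (ex ρ)) (h0 : ∀ τ ∈ ex ρ, 0 ≤ ddb w τ) :
    ∃ (W : ℂ → ℝ) (A R : ℝ), 0 ≤ A ∧ 1 ≤ R ∧ ρ ≤ R ∧ ContDiff ℝ 2 W ∧ (∀ τ, 0 ≤ ddb W τ) ∧
      ∀ τ ∈ ex R, W τ = w τ + A * LL τ := by
  have h1 := le_max_left ρ 1
  have h2 := le_max_right ρ 1
  let f : ContDiffBump (0 : ℂ) := ⟨max ρ 1 + 1, max ρ 1 + 2, by linarith, by linarith⟩
  have o : ∀ r, IsOpen (ex r) := fun r => isOpen_lt continuous_const continuous_norm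
  have e1 : ∀ τ ∈ ex (max ρ 1 + 2), (1 - f τ) * w τ = w τ := fun τ (hτ : _ < ‖τ‖) => by
    rw [f.zero_of_le_dist (by rw [dist_zero_right]; exact hτ.le), sub_zero, one_mul]
  have s1 : ContDiff ℝ 2 fun τ => (1 - f τ) * w τ := contDiff_iff_contDiffAt.2 fun τ => by
    by_cases hτ : τ ∈ ex ρ
    · exact (contDiffAt_const.sub f.contDiff.contDiffAt).mul (hw.contDiffAt ((o ρ).mem_nhds hτ))
    · refine (contDiffAt_const (c := 0)).congr_of_eventuallyEq ?_
      have h3 : τ ∈ ball (0 : ℂ) (max ρ 1 + 1) := by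
        rw [mem_ball_zero_iff]
        linarith [show ‖τ‖ ≤ ρ from not_lt.1 hτ]
      filter_upwards [isOpen_ball.mem_nhds h3] with x hx
      rw [f.one_of_mem_closedBall (ball_subset_closedBall hx), sub_self, zero_mul]
  have hK := isCompact_closedBall (0 : ℂ) (max ρ 1 + 2)
  obtain ⟨B, hB⟩ := hK.exists_bound_of_continuousOn
    ((contOn_ddb fun z _ => s1.contDiffAt).div (contOn_ddb fun z _ => LL_sm.contDiffAt)
      fun z _ => (ddb_LL z).ne')
  refine ⟨fun τ => (1 - f τ) * w τ + max B 0 * LL τ, max B 0, max ρ 1 + 2, le_max_right _ _,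
    by linarith, by linarith, s1.add (contDiff_const.mul LL_sm), fun τ => ?_,
    fun τ hτ => by simp only [e1 τ hτ]⟩
  rw [ddb_lin s1 LL_sm]
  have h3 := ddb_LL τ
  by_cases hτ : τ ∈ ex (max ρ 1 + 2)
  · rw [ddb_congr (eventually_of_mem ((o _).mem_nhds hτ) e1)]
    have h4 : max ρ 1 + 2 < ‖τ‖ := hτ
    exact add_nonneg (h0 τ (show ρ < ‖τ‖ by linarith)) (mul_nonneg (le_max_right _ _) h3.le)
  · have h4 := (abs_le.1 ((hB τ (mem_closedBall_zero_iff.2 (not_lt.1 hτ))).trans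
      (le_max_left B 0))).1
    rw [Pi.div_apply, le_div_iff₀ h3] at h4
    linarith

end Shx

open Shx

theorem shx (h0 : SH0) (h1 : SHE) : SH := by
  intro w ρ C hw hd hu
  obtain ⟨W, A, R, hA, hR, hρ, sW, dW, eW⟩ := ext hw hd
  have sub : ∀ {a b : ℝ} {τ : ℂ}, τ ∈ ex (max a b) → a < ‖τ‖ ∧ b < ‖τ‖ := fun h => max_lt_iff.1 h
  have uW : Up W (C + A) := fun η hη => by
    obtain ⟨ρ₁, h2⟩ := hu (η / 2) (by positivity)
    obtain ⟨ρ₂, h3⟩ := big (A * Real.log 5) (half_pos hη)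
    refine ⟨max R (max ρ₁ ρ₂), fun τ hτ => ?_⟩
    obtain ⟨h4, h5⟩ := sub hτ
    have h6 := mul_le_mul_of_nonneg_left (LL_le (hR.trans h4.le) (le_add_of_nonneg_right
      zero_le_one)) hA
    rw [eW τ h4]
    linarith [h2 τ (sub h5).1, h3 τ (sub h5).2]
  obtain ⟨iW, uW', lW, -⟩ := h0 W _ sW dW uW
  refine ⟨slp W - A, fun η hη => ?_, fun η hη => ?_, fun p b hp hb => ?_⟩
  · obtain ⟨ρ₁, h2⟩ := uW' η hη
    refine ⟨max R ρ₁, fun τ hτ => ?_⟩
    obtain ⟨h4, h5⟩ := sub hτ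
    have h6 := mul_le_mul_of_nonneg_left (lg_le (hR.trans h4.le)) hA
    linarith [h2 τ h5, eW τ h4]
  · obtain ⟨ρ₁, h2⟩ := lW (η / 2) (half_pos hη)
    obtain ⟨ρ₂, h3⟩ := big (A * Real.log 5) (half_pos hη)
    refine ⟨max (R + 1) (max ρ₁ ρ₂), fun τ hτ s hs hs1 => ?_⟩
    obtain ⟨h4, h5⟩ := sub hτ
    have h6 : ∀ x ∈ sphere τ |s|, x ∈ ex R ∧ ‖x‖ ≤ ‖τ‖ + 1 := fun x hx => by
      rw [mem_sphere_iff_norm, abs_of_pos hs] at hx
      have h7 := abs_le.1 (abs_norm_sub_norm_le x τ)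
      exact ⟨show R < ‖x‖ by linarith [h7.1], by linarith [h7.2]⟩
    have c1 : CircleIntegrable w τ s := ContinuousOn.circleIntegrable'
      (hw.continuousOn.mono fun x hx => hρ.trans_lt (h6 x hx).1)
    have h7 := Real.circleAverage_mono (f₂ := fun x => w x + A * (lg τ + Real.log 5))
      (sW.continuous.continuousOn.circleIntegrable') (c1.add (circleIntegrable_const _ _ _))
      fun x hx => by
        rw [eW x (h6 x hx).1]
        exact add_le_add le_rfl (mul_le_mul_of_nonneg_left (LL_le (by linarith) (h6 x hx).2) hA)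
    rw [Real.circleAverage_fun_add c1 (circleIntegrable_const _ _ _),
      Real.circleAverage_const] at h7
    have h8 := mul_nonneg (half_pos hη).le (neg_nonneg.2 (Real.log_nonpos hs.le hs1))
    linarith [h2 τ (sub h5).1 s hs hs1, h3 τ (sub h5).2]
  · obtain ⟨ρ₁, h2⟩ := h1 W _ sW dW iW lW p (b - p * A) hp (by linarith)
    have m : MeasurableSet (ex (max R ρ₁)) :=
      (isOpen_lt continuous_const continuous_norm).measurableSet
    refine ⟨max R ρ₁, Integrable.mono' ((h2.mono_set fun τ hτ => (sub hτ).2).const_mul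
      (Real.exp (p * A * Real.log 5))) ?_ ?_⟩
    · have c1 := (hw.continuousOn.mono fun x (hx : x ∈ ex (max R ρ₁)) =>
        hρ.trans_lt (sub hx).1).aemeasurable m (μ := volume)
      unfold lg
      exact AEMeasurable.aestronglyMeasurable (by fun_prop)
    filter_upwards [ae_restrict_mem m] with τ hτ
    obtain ⟨h4, -⟩ := sub hτ
    have h6 := mul_le_mul_of_nonneg_left (LL_le (hR.trans h4.le) (le_add_of_nonneg_right
      zero_le_one)) (mul_nonneg hp hA)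
    rw [Real.norm_of_nonneg (Real.exp_pos _).le, ← Real.exp_add, eW τ h4]
    exact Real.exp_le_exp.2 (by linarith)

end Vale.Agent.P253W.C
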