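import Vale.Agent.P253W.C.Crv
import Vale.Agent.P253W.C.Nu
import Vale.Agent.P253W.C.Frm
import Vale.Agent.P253W.C.Hz2
import Vale.Agent.P253W.C.Map
import Vale.Agent.P253W.C.L2h
import Vale.Agent.P253W.C.Pcf
import Vale.Agent.P253W.C.Eig
import Vale.Agent.P253W.C.Fra
import Vale.Agent.P253W.C.Frb
import Vale.Agent.P253W.C.Hor1
import Vale.Agent.P253W.C.Jb
import Vale.Agent.P253W.C.Mer
import Vale.Agent.P253W.C.Pp
import Vale.Agent.P253W.C.R2
import Vale.Agent.P253W.C.R2a
import Vale.Agent.P253W.C.R2e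
import Vale.Agent.P253W.C.Sh0
import Vale.Agent.P253W.C.She
import Vale.Agent.P253W.C.Shx

/-!
# P253W, block C: assembly
-/

open scoped Manifold ContDiff Bundle ENNReal Topology ComplexConjugate ComplexOrder Matrix
open Bundle IsManifold MeasureTheory Set Metric Filter Bornology Vale.Agent.P253.Mfd
  Vale.Agent.P253Z
open Vale.Agent.P272.K (Cm jacM Chart)
open Vale.Agent.P272.GJ (ddb)

set_option linter.unusedSectionVars false

noncomputable section

namespace Vale.Agent.P253W.C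

variable {n : ℕ} {M : Type} [MetricSpace M] [ChartedSpace (Cm n) M] [IsManifold 𝓘(ℂ, Cm n) 1 M]
  [IsManifold 𝓘(ℝ, Cm n) ∞ M] [RiemannianBundle fun x : M => TangentSpace 𝓘(ℝ, Cm n) x]
  [IsContMDiffRiemannianBundle 𝓘(ℝ, Cm n) ∞ (Cm n) fun x : M => TangentSpace 𝓘(ℝ, Cm n) x]
  [IsRiemannianManifold 𝓘(ℝ, Cm n) M] [CompleteSpace M] [ConnectedSpace M] [NoncompactSpace M]
  [MeasurableSpace M] [BorelSpace M] {μ : Measure M} {F : Flow n M} {A : Fam F} {T : F.TA μ}

namespace All

theorem sh : SH := shx sh0 she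

theorem frb : FRB := C.frb (fra sh (red_neg r2a) (r2 (r2e sh hor1 r2a) mer)) eig

theorem map : MAP n M := C.map b1a

theorem pcf (p : P3 A T) : PCF T := C.pcf p map (eig n)

theorem curv : Of3 n μ fun _ A T => T.CURV A.d := fun _ _ _ p =>
  curv_of p (crv p) (pcf p) (det p map (hz1 p) (pcf p) (eig n) mer) (nu p (crv p) (pcf p) sh0)
    sh0 pp

theorem frame : Of3 n μ fun _ A T => T.FRAME A.d := fun _ _ _ p =>
  frame_of p (hz1 p) (hz2 p (hz1 p)) (pcf p) mer frb

end All

theorem curvC : Of3 n μ fun _ A T => T.CURV A.d := All.curv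

theorem frameC : Of3 n μ fun _ A T => T.FRAME A.d := All.frame

end Vale.Agent.P253W.C
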