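import Vale.Agent.P253W.C.Defs0

/-!
# P253W, block C: the step in rank two, with a loss
-/

open scoped Topology ComplexConjugate Real
open Set Metric Filter MeasureTheory
open Vale.Agent.P272.GJ (ddb green_jensen Gr_nonneg setIntegral_ball_polar circleAverage_eq_pi pt
  contOn_pt_prod)
open Vale.Agent.P253.R2.H66 (dz dzb)

noncomputable section

namespace Vale.Agent.P253W.C

namespace R2e

theorem ddb_add {f g : ℂ → ℝ} {z : ℂ} (hf : ContDiffAt ℝ 2 f z) (hg : ContDiffAt ℝ 2 g z) :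
    ddb (fun w => f w + g w) z = ddb f z + ddb g z := by
  have d : ∀ {f : ℂ → ℝ}, ContDiffAt ℝ 2 f z → ∀ v, DifferentiableAt ℝ (fun w => fderiv ℝ f w v) z :=
    fun h v => ((h.fderiv_right (m := 1) (by norm_num)).differentiableAt (by norm_num)).clm_apply
      (differentiableAt_const v)
  have e : ∀ v, fderiv ℝ (fun w => fderiv ℝ (fun w => f w + g w) w v) z v
      = fderiv ℝ (fun w => fderiv ℝ f w v) z v + fderiv ℝ (fun w => fderiv ℝ g w v) z v := by
    intro v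
    rw [← add_apply, ← fderiv_fun_add (d hf v) (d hg v)]
    congr 1
    refine EventuallyEq.fderiv_eq ?_
    filter_upwards [hf.eventually (by simp), hg.eventually (by simp)] with w a b
    rw [fderiv_fun_add (a.differentiableAt (by simp)) (b.differentiableAt (by simp)), add_apply]
  simp only [ddb, e]
  ring

theorem ddb_rad {φ φ₁ : ℝ → ℝ} {φ₂ : ℝ} {z : ℂ} (h1 : ∀ᶠ s in 𝓝 (‖z‖ ^ 2), HasDerivAt φ (φ₁ s) s)
    (h2 : HasDerivAt φ₁ φ₂ (‖z‖ ^ 2)) :
    ddb (fun w => φ (‖w‖ ^ 2)) z = φ₁ (‖z‖ ^ 2) + φ₂ * ‖z‖ ^ 2 := by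
  have n : ∀ w : ℂ, HasFDerivAt (fun w : ℂ => ‖w‖ ^ 2) (2 • innerSL ℝ w) w := fun w =>
    (hasStrictFDerivAt_norm_sq w).hasFDerivAt
  have e : ∀ v, fderiv ℝ (fun w => fderiv ℝ (fun w : ℂ => φ (‖w‖ ^ 2)) w v) z v
      = φ₁ (‖z‖ ^ 2) * (2 * inner ℝ v v) + 4 * φ₂ * inner ℝ z v ^ 2 := by
    intro v
    have e1 : (fun w => fderiv ℝ (fun w : ℂ => φ (‖w‖ ^ 2)) w v)
        =ᶠ[𝓝 z] fun w => φ₁ (‖w‖ ^ 2) * (2 * innerSL ℝ v w) := by
      filter_upwards [(n z).continuousAt.eventually h1] with w hw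
      rw [(show HasFDerivAt (fun w : ℂ => φ (‖w‖ ^ 2)) _ w from hw.comp_hasFDerivAt w (n w)).fderiv]
      simp [mul_comm, add_mul]
    rw [e1.fderiv_eq, (show HasFDerivAt (fun w : ℂ => φ₁ (‖w‖ ^ 2) * (2 * innerSL ℝ v w)) _ z from
      (h2.comp_hasFDerivAt z (n z)).mul ((innerSL ℝ v).hasFDerivAt.const_mul 2)).fderiv]
    simp [mul_comm v]
    ring
  simp only [ddb, e]
  simp [Complex.sq_norm, Complex.normSq_apply]
  ring

theorem disc {f : ℂ → ℝ} {c : ℂ} {r : ℝ} (hr : 0 < r)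
    (hf : ∀ z ∈ closedBall c r, ContDiffAt ℝ 2 f z ∧ 0 ≤ ddb f z) :
    π * r ^ 2 * f c ≤ ∫ z in ball c r, f z := by
  have m : ∀ z ∈ closedBall (0 : ℂ) r, z + c ∈ closedBall c r := fun z hz => by simpa using hz
  have g1 : ∀ z ∈ closedBall (0 : ℂ) r, ContDiffAt ℝ 2 (fun w => f (w + c)) z := fun z hz =>
    (hf _ (m z hz)).1.comp z (by fun_prop)
  have g2 : ∀ z, ddb (fun w => f (w + c)) z = ddb f (z + c) := fun z => by
    simp only [ddb, fderiv_comp_add_right (f := f)]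
    rw [fderiv_comp_add_right (f := fun w => fderiv ℝ f w 1),
      fderiv_comp_add_right (f := fun w => fderiv ℝ f w Complex.I)]
  have g3 : ∀ s ∈ Ioo 0 r, f c ≤ Real.circleAverage (fun w => f (w + c)) 0 s := fun s hs => by
    have := green_jensen hs.1 fun z hz => g1 z (closedBall_subset_closedBall hs.2.le hz)
    rw [zero_add] at this
    rw [← sub_nonneg, ← this]
    exact setIntegral_nonneg measurableSet_ball fun z hz => mul_nonneg (Gr_nonneg hz) (by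
      rw [g2]; exact (hf _ (m z (closedBall_subset_closedBall hs.2.le
        (ball_subset_closedBall hz)))).2)
  have e : ∫ z in ball c r, f z = ∫ z in ball (0 : ℂ) r, f (z + c) := by
    rw [← integral_indicator measurableSet_ball, ← integral_indicator measurableSet_ball,
      ← integral_add_right_eq_self _ c]
    congr 1
    funext z
    simp [indicator]
  have i : IntegrableOn (fun p : ℝ × ℝ => p.1 • f (pt p.1 p.2 + c)) (Ioo 0 r ×ˢ Ioo (-π) π)
      (volume.prod volume) :=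
    ((continuousOn_fst.smul (contOn_pt_prod (g := fun w => f (w + c)) fun z hz =>
      (g1 z hz).continuousAt.continuousWithinAt)).integrableOn_compact
      (isCompact_Icc.prod isCompact_Icc)).mono_set (prod_mono Ioo_subset_Icc_self Ioo_subset_Icc_self)
  have hp : -π ≤ π := by linarith [Real.pi_pos]
  rw [e, setIntegral_ball_polar, Measure.volume_eq_prod, setIntegral_prod _ i]
  have i2 : IntegrableOn (fun s => ∫ θ in Ioo (-π) π, s • f (pt s θ + c)) (Ioo 0 r) := by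
    rw [IntegrableOn, ← Measure.prod_restrict] at i
    exact i.integral_prod_left
  refine le_trans (le_of_eq ?_) (setIntegral_mono_on (f := fun s => s * (2 * π * f c))
    (Continuous.integrableOn_Icc (by fun_prop) |>.mono_set Ioo_subset_Icc_self) i2
    measurableSet_Ioo fun s hs => ?_)
  · rw [← integral_Ioc_eq_integral_Ioo, ← intervalIntegral.integral_of_le hr.le,
      intervalIntegral.integral_mul_const, integral_id]
    ring
  · have := g3 s hs
    rw [circleAverage_eq_pi, smul_eq_mul, le_inv_mul_iff₀ (by positivity),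
      intervalIntegral.integral_of_le hp, integral_Ioc_eq_integral_Ioo] at this
    simp only [smul_eq_mul, integral_const_mul]
    exact mul_le_mul_of_nonneg_left this hs.1.le

theorem lg_near {σ τ : ℂ} (h : dist σ τ ≤ ‖τ‖ / 2) (h0 : 0 < ‖τ‖) (k : ℝ) :
    ‖τ‖ / 2 ≤ ‖σ‖ ∧ k * lg σ ≤ k * lg τ + 3 * |k| := by
  rw [dist_eq_norm] at h
  have h1 : ‖τ‖ / 2 ≤ ‖σ‖ := by linarith [norm_sub_norm_le τ σ, norm_sub_rev τ σ]
  have h2 : ‖σ‖ ≤ 2 * ‖τ‖ := by linarith [norm_sub_norm_le σ τ]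
  have h3 : 0 < ‖σ‖ := by linarith
  have l : ∀ a b : ℝ, 0 < a → 0 < b → a ≤ 2 * b → Real.log (a ^ 2) - Real.log (b ^ 2) ≤ 3 := by
    intro a b ha hb hab
    rw [← Real.log_div (by positivity) (by positivity)]
    refine (Real.log_le_sub_one_of_pos (by positivity)).trans ?_
    rw [sub_le_iff_le_add, div_le_iff₀ (by positivity)]
    nlinarith
  have h4 : |lg σ - lg τ| ≤ 3 :=
    abs_sub_le_iff.2 ⟨l _ _ h3 h0 h2, l _ _ h0 h3 (by linarith)⟩
  have h5 := le_abs_self (k * (lg σ - lg τ))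
  rw [abs_mul] at h5
  exact ⟨h1, by nlinarith [mul_le_mul_of_nonneg_left h4 (abs_nonneg k)]⟩

theorem lg_big (C : ℝ) {η : ℝ} (hη : 0 < η) : ∃ R : ℝ, ∀ τ ∈ ex R, C ≤ η * lg τ := by
  refine ⟨Real.exp (|C| / η), fun τ (h : _ < ‖τ‖) => ?_⟩
  have h1 : 1 ≤ Real.exp (|C| / η) := Real.one_le_exp (by positivity)
  have h2 : |C| / η ≤ lg τ := (Real.le_log_iff_exp_le (by nlinarith)).2 (by nlinarith)
  rw [div_le_iff₀' hη] at h2
  exact (le_abs_self C).trans h2

theorem lo_le {w : ℂ → ℝ} {a ν ρ : ℝ} (hw : ContinuousOn w (ex ρ)) (h1 : Lo w a) (h2 : Up w ν) :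
    a ≤ ν := by
  refine le_of_forall_pos_le_add fun ε hε => not_lt.1 fun hc => ?_
  obtain ⟨r₁, h1⟩ := h1 (ε / 2) (by positivity)
  obtain ⟨r₂, h2⟩ := h2 (ε / 2) (by positivity)
  obtain ⟨r₃, h3⟩ := lg_big (3 * |ν + ε / 2| + 1) (sub_pos.2 hc)
  obtain ⟨R, a1, a2, a3, a4, a5⟩ : ∃ R : ℝ, 2 ≤ R ∧ r₁ < R ∧ 2 * r₂ < R ∧ r₃ < R ∧ 2 * ρ < R := by
    refine ((eventually_ge_atTop _).and ((eventually_gt_atTop _).and ((eventually_gt_atTop _).and
      ((eventually_gt_atTop _).and (eventually_gt_atTop _))))).exists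
  have n : ‖(R : ℂ)‖ = R := by rw [Complex.norm_real, Real.norm_of_nonneg (by linarith)]
  have k : ∀ σ ∈ sphere (R : ℂ) |1|, ‖(R : ℂ)‖ / 2 ≤ ‖σ‖ ∧
      (ν + ε / 2) * lg σ ≤ (ν + ε / 2) * lg R + 3 * |ν + ε / 2| := fun σ hσ =>
    lg_near (by rw [mem_sphere.1 hσ, n, abs_one]; linarith) (by rw [n]; linarith) _
  rw [n] at k
  have b1 := h1 R (show r₁ < _ by rwa [n]) 1 one_pos le_rfl
  have b2 := Real.circleAverage_mono_on_of_le_circle (ContinuousOn.circleIntegrable' (hw.mono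
    fun σ hσ => show ρ < _ by linarith [(k σ hσ).1])) fun σ hσ =>
      (h2 σ (show r₂ < _ by linarith [(k σ hσ).1])).trans (k σ hσ).2
  have b3 := h3 R (show r₃ < _ by rwa [n])
  rw [Real.log_one] at b1
  linarith

theorem nh_eq {α γ : ℝ} {β h : ℂ} (ha : 0 < α) : α * ‖h‖ ^ 2 - 2 * (conj h * β).re + γ
    = α * ‖β / α - h‖ ^ 2 + (α * γ - ‖β‖ ^ 2) / α := by
  simp only [Complex.sq_norm, Complex.normSq_apply, Complex.sub_re, Complex.sub_im,
    Complex.div_ofReal_re, Complex.div_ofReal_im, Complex.mul_re, Complex.conj_re, Complex.conj_im]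
  field_simp
  ring

end R2e

open R2e

theorem r2e (h1 : SH) (h2 : HOR1) (h3 : R2A) : R2E := by
  intro α γ β ρ a d H η hη
  have op : ∀ r, IsOpen (ex r) := fun r => isOpen_lt continuous_const continuous_norm
  have sw : ContDiffOn ℝ 2 (fun τ => Real.log (α τ)) (ex ρ) := H.sa.log fun τ h => (H.pos τ h).1.ne'
  have A : ∀ τ ∈ ex ρ, α τ ^ 2 * ‖dzb (fun τ => β τ / α τ) τ‖ ^ 2 ≤
      ddb (fun τ => Real.log (α τ)) τ * (α τ * γ τ - ‖β τ‖ ^ 2) := fun τ h =>
    (h3 α γ β τ (H.sa.contDiffAt ((op ρ).mem_nhds h)) (H.sb.contDiffAt ((op ρ).mem_nhds h))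
      (H.sc.contDiffAt ((op ρ).mem_nhds h)) (H.pos τ h).1 (H.pos τ h).2 (H.neg τ h)).2
  have A0 : ∀ τ ∈ ex ρ, 0 ≤ ddb (fun τ => Real.log (α τ)) τ := fun τ h =>
    nonneg_of_mul_nonneg_left (le_trans (by positivity) (A τ h)) (sub_pos.2 (H.pos τ h).2)
  obtain ⟨ν, u1, -, u2⟩ := h1 _ ρ a sw A0 H.up
  have hν := lo_le sw.continuousOn H.lo u1
  obtain ⟨b, hb⟩ : ∃ b, b = d - 3 * a + 1 + η / 2 := ⟨_, rfl⟩
  obtain ⟨r₁, i1⟩ := u2 3 (b - d - η / 4) (by norm_num) (by linarith)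
  obtain ⟨r₂, i2⟩ := H.det (η / 4) (by positivity)
  obtain ⟨r₃, i3⟩ := H.up (η / 4) (by positivity)
  obtain ⟨r, a0, a1, a2, a3, a4⟩ : ∃ r : ℝ, 1 ≤ r ∧ ρ ≤ r ∧ r₁ ≤ r ∧ r₂ ≤ r ∧ r₃ ≤ r :=
    ((eventually_ge_atTop _).and ((eventually_ge_atTop _).and ((eventually_ge_atTop _).and
      ((eventually_ge_atTop _).and (eventually_ge_atTop _))))).exists
  have sub : ∀ {s}, s ≤ r → ex r ⊆ ex s := fun h _ hτ => h.trans_lt hτ
  have n1 : ∀ τ ∈ ex r, 1 ≤ ‖τ‖ ^ 2 := fun τ h => one_le_pow₀ (a0.trans (le_of_lt h))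
  have hm := (op r).measurableSet
  have s1 : ContDiffOn ℝ 2 (fun τ : ℂ => b * Real.log (‖τ‖ ^ 2) + (‖τ‖ ^ 2)⁻¹) (ex r) :=
    (contDiffOn_const.mul ((contDiff_norm_sq ℝ).contDiffOn.log fun τ h => by
      linarith [n1 τ h])).add ((contDiff_norm_sq ℝ).contDiffOn.inv fun τ h => by linarith [n1 τ h])
  have sφ := (sw.mono (sub a1)).add s1
  have dφ : ∀ τ ∈ ex r, ddb (fun τ => Real.log (α τ)) τ < ddb (fun τ => Real.log (α τ)
      + (b * Real.log (‖τ‖ ^ 2) + (‖τ‖ ^ 2)⁻¹)) τ := fun τ h => by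
    have h0 : ‖τ‖ ^ 2 ≠ 0 := by linarith [n1 τ h]
    rw [ddb_add (sw.contDiffAt ((op ρ).mem_nhds (sub a1 h))) (s1.contDiffAt ((op r).mem_nhds h)),
      ddb_rad (φ := fun s => b * Real.log s + s⁻¹) (φ₁ := fun s => b * s⁻¹ + -(s ^ 2)⁻¹)
        (by filter_upwards [isOpen_ne.mem_nhds h0] with s hs
            exact ((Real.hasDerivAt_log hs).const_mul b).add (hasDerivAt_inv hs))
        (((hasDerivAt_inv h0).const_mul b).add (show HasDerivAt (fun s : ℝ => -(s ^ 2)⁻¹) _ _ from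
          ((hasDerivAt_pow 2 (‖τ‖ ^ 2)).inv (pow_ne_zero 2 h0)).neg)),
      lt_add_iff_pos_right]
    refine lt_of_lt_of_eq (show 0 < ((‖τ‖ ^ 2) ^ 2)⁻¹ by positivity) ?_
    generalize ‖τ‖ ^ 2 = s at *
    field_simp
    ring
  have sl : ContDiffOn ℝ 2 (fun τ => β τ / α τ) (ex r) := by
    simp only [div_eq_mul_inv]
    exact (H.sb.mono (sub a1)).mul ((Complex.ofRealCLM.contDiff.comp_contDiffOn
      (H.sa.mono (sub a1))).inv fun τ h => Complex.ofReal_ne_zero.2 (H.pos τ (sub a1 h)).1.ne')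
  have E : ∀ τ ∈ ex r, (α τ * γ τ - ‖β τ‖ ^ 2) / α τ * Real.exp (-(2 * Real.log (α τ)) - b * lg τ)
      ≤ Real.exp (-(3 * Real.log (α τ)) - (b - d - η / 4) * lg τ) := fun τ h => by
    obtain ⟨p1, p2⟩ := H.pos τ (sub a1 h)
    rw [← Real.exp_log (div_pos (sub_pos.2 p2) p1), ← Real.exp_add,
      Real.log_div (sub_pos.2 p2).ne' p1.ne']
    exact Real.exp_le_exp.2 (by linarith [i2 τ (sub a3 h)])
  obtain ⟨h, d1, d2⟩ := h2 (ex r) _ (fun τ => β τ / α τ) (op r) sφ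
    (fun τ hτ => (A0 τ (sub a1 hτ)).trans_lt (dφ τ hτ)) (sl.of_le (by norm_num)) (by
      refine (i1.mono_set (sub a2)).mono' (AEStronglyMeasurable.mul (Measurable.aestronglyMeasurable
        (by unfold dzb ddb; fun_prop)) (sφ.continuousOn.neg.rexp.aestronglyMeasurable hm))
        ((ae_restrict_iff' hm).2 (Eventually.of_forall fun τ hτ => le_trans ?_ (E τ hτ)))
      obtain ⟨p1, p2⟩ := H.pos τ (sub a1 hτ)
      have p3 := (A0 τ (sub a1 hτ)).trans_lt (dφ τ hτ)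
      have p4 := (A τ (sub a1 hτ)).trans (mul_le_mul_of_nonneg_right (dφ τ hτ).le (sub_pos.2 p2).le)
      have p5 : Real.exp (-(Real.log (α τ) + (b * Real.log (‖τ‖ ^ 2) + (‖τ‖ ^ 2)⁻¹)))
          ≤ α τ * Real.exp (-(2 * Real.log (α τ)) - b * lg τ) := by
        nth_rw 2 [← Real.exp_log p1]
        rw [← Real.exp_add, lg]
        exact Real.exp_le_exp.2 (by linarith [show 0 ≤ (‖τ‖ ^ 2)⁻¹ by positivity])
      rw [Real.norm_of_nonneg (by positivity)]
      calc _ ≤ (α τ * γ τ - ‖β τ‖ ^ 2) / α τ ^ 2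
            * (α τ * Real.exp (-(2 * Real.log (α τ)) - b * lg τ)) := by
            refine mul_le_mul ?_ p5 (Real.exp_pos _).le (div_nonneg (sub_pos.2 p2).le (sq_nonneg _))
            rw [div_le_div_iff₀ p3 (by positivity)]; linarith
        _ = _ := by field_simp)
  have J := (d2.const_mul (Real.exp 1)).add (i1.mono_set (sub a2))
  obtain ⟨k, hk⟩ : ∃ k, k = 2 * (a + η / 4) + b := ⟨_, rfl⟩
  have pn : ∀ τ ∈ ex r, 0 < nh α γ β h τ ∧ nh α γ β h τ ≤ Real.exp (k * lg τ) * (Real.exp 1 *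
      (‖β τ / α τ - h τ‖ ^ 2 * Real.exp (-(Real.log (α τ) + (b * Real.log (‖τ‖ ^ 2) + (‖τ‖ ^ 2)⁻¹))))
      + Real.exp (-(3 * Real.log (α τ)) - (b - d - η / 4) * lg τ)) := fun τ hτ => by
    obtain ⟨p1, p2⟩ := H.pos τ (sub a1 hτ)
    have p3 := div_pos (sub_pos.2 p2) p1
    have p5 : α τ * Real.exp (-(2 * Real.log (α τ)) - b * lg τ) ≤ Real.exp 1 *
        Real.exp (-(Real.log (α τ) + (b * Real.log (‖τ‖ ^ 2) + (‖τ‖ ^ 2)⁻¹))) := by
      nth_rw 1 [← Real.exp_log p1]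
      rw [← Real.exp_add, ← Real.exp_add, lg]
      exact Real.exp_le_exp.2 (by linarith [inv_le_one_of_one_le₀ (n1 τ hτ)])
    have p6 : 1 ≤ Real.exp (k * lg τ) * Real.exp (-(2 * Real.log (α τ)) - b * lg τ) := by
      rw [← Real.exp_add, hk]
      exact Real.one_le_exp (by linarith [i3 τ (sub a4 hτ)])
    rw [nh, nh_eq p1]
    refine ⟨by positivity, (le_mul_of_one_le_left (by positivity) p6).trans ?_⟩
    rw [mul_assoc]
    refine mul_le_mul_of_nonneg_left ?_ (Real.exp_pos _).le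
    nlinarith [E τ hτ, mul_le_mul_of_nonneg_left p5 (sq_nonneg ‖β τ / α τ - h τ‖)]
  have sn : ∀ τ ∈ ex r, ContDiffAt ℝ 2 (nh α γ β h) τ ∧ 0 ≤ ddb (nh α γ β h) τ := fun τ hτ => by
    have an := d1.analyticAt ((op r).mem_nhds hτ)
    have m := (op ρ).mem_nhds (sub a1 hτ)
    have c1 : ContDiffAt ℝ 2 h τ := an.contDiffAt.restrict_scalars ℝ
    refine ⟨(((H.sa.contDiffAt m).mul (c1.norm_sq ℂ)).sub (contDiffAt_const.mul
      (Complex.reCLM.contDiff.contDiffAt.comp τ ((Complex.conjCLE.contDiff.contDiffAt.comp τ c1).mul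
        (H.sb.contDiffAt m))))).add (H.sc.contDiffAt m), ?_⟩
    convert H.neg τ (sub a1 hτ) (fun s => -h s) (fun _ => 1) an.neg analyticAt_const using 2
    funext s
    simp [nh, q2, sub_eq_add_neg]
    ring
  refine ⟨r, h, d1, fun ε hε => ?_⟩
  set I := ∫ τ in ex r, (Real.exp 1 *
      (‖β τ / α τ - h τ‖ ^ 2 * Real.exp (-(Real.log (α τ) + (b * Real.log (‖τ‖ ^ 2) + (‖τ‖ ^ 2)⁻¹))))
      + Real.exp (-(3 * Real.log (α τ)) - (b - d - η / 4) * lg τ)) with hI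
  obtain ⟨R, hR⟩ := lg_big (3 * |k| + 2 * I) hε
  refine ⟨max R (2 * r), fun τ hτ => ?_⟩
  have t1 : 2 * r < ‖τ‖ := (le_max_right _ _).trans_lt hτ
  have t2 := hR τ (show R < ‖τ‖ from (le_max_left _ _).trans_lt hτ)
  have t0 : 0 < ‖τ‖ := by linarith
  have bl : closedBall τ (‖τ‖ / 2) ⊆ ex r := fun σ hσ =>
    show r < _ by linarith [(lg_near (mem_closedBall.1 hσ) t0 0).1]
  have t3 := disc (half_pos t0) fun σ hσ => sn σ (bl hσ)
  have t4 : ∫ σ in ball τ (‖τ‖ / 2), nh α γ β h σ ≤ Real.exp (k * lg τ + 3 * |k|) * I := by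
    rw [hI, ← integral_const_mul]
    refine le_trans (setIntegral_mono_on ((ContinuousOn.integrableOn_compact
      (isCompact_closedBall _ _) fun σ hσ => (sn σ (bl hσ)).1.continuousAt.continuousWithinAt
      ).mono_set ball_subset_closedBall) (IntegrableOn.mono_set (J.const_mul _)
        (ball_subset_closedBall.trans bl)) measurableSet_ball fun σ hσ => ?_)
      (setIntegral_mono_set (J.const_mul _) (Eventually.of_forall fun σ => by
        simp only [Pi.zero_apply, Pi.add_apply]; positivity)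
        (ball_subset_closedBall.trans bl).eventuallyLE)
    refine (pn σ (bl (ball_subset_closedBall hσ))).2.trans (mul_le_mul_of_nonneg_right
      (Real.exp_le_exp.2 (lg_near (mem_ball.1 hσ).le t0 k).2) (by positivity))
  have t5 := (pn τ (bl (mem_closedBall_self (by positivity)))).1
  have t6 : nh α γ β h τ * Real.exp (lg τ) ≤ Real.exp (k * lg τ + 3 * |k|) * Real.exp (2 * I) := by
    rw [lg, Real.exp_log (by positivity), ← lg]
    have := mul_le_mul_of_nonneg_left (Real.add_one_le_exp (2 * I))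
      (Real.exp_pos (k * lg τ + 3 * |k|)).le
    nlinarith [Real.pi_gt_three, mul_pos t5 (pow_pos t0 2), Real.exp_pos (k * lg τ + 3 * |k|)]
  rw [← Real.exp_log t5, ← Real.exp_add, ← Real.exp_add, Real.exp_le_exp] at t6
  rw [hk, hb] at t6
  rw [hk, hb] at t2
  linarith

end Vale.Agent.P253W.C
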